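import Crest.Agent.R032.Setup

/-!
Bad pairs and bad triples: the bounds for a fixed triple of labels (row 32).
-/

set_option autoImplicit false
set_option linter.unusedSectionVars false

namespace Crest.Agent.R032

open Finset Matrix

lemma cr_swap_ne {R : Type} [CommRing R] {x y : Fin 3 → R} (h : cr x y ≠ 0) : cr y x ≠ 0 := by
  intro h1
  apply h
  rw [cr_eq_zero_iff] at h1 ⊢
  exact ⟨by linear_combination -h1.1, by linear_combination -h1.2.1, by linear_combination -h1.2.2⟩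

lemma det_mulVec {R : Type} [CommRing R] (g : Matrix (Fin 3) (Fin 3) R) (x y z : Fin 3 → R) :
    dot (cr (g *ᵥ x) (g *ᵥ y)) (g *ᵥ z) = g.det * dot (cr x y) z := by
  rw [← det_cols, ← mul_cols, Matrix.det_mul, det_cols]

lemma red_det (m : ℕ) (x y z : V3) :
    ((dot (cr x y) z : ℤ) : ZMod m) = dot (cr (red m x) (red m y)) (red m z) := by
  rw [red_cr, red_dot]

lemma red_row (m : ℕ) (x y z : V3) (k : Fin 3) :
    red m (cols x y z k) = cols (red m x) (red m y) (red m z) k := by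
  apply ext3 <;> rfl

/-- The rows of a matrix given by its columns. -/
def rows (x y z : V3) : V3 × V3 × V3 := (cols x y z 0, cols x y z 1, cols x y z 2)

/-- Column `j` of a triple of rows. -/
def colj (t : V3 × V3 × V3) (j : Fin 3) : V3 := ![t.1 j, t.2.1 j, t.2.2 j]

lemma colj_rows (x y z : V3) :
    colj (rows x y z) 0 = x ∧ colj (rows x y z) 1 = y ∧ colj (rows x y z) 2 = z :=
  ⟨by apply ext3 <;> rfl, by apply ext3 <;> rfl, by apply ext3 <;> rfl⟩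

lemma det_rows (x y z : V3) :
    dot (cr (cols x y z 0) (cols x y z 1)) (cols x y z 2) = dot (cr x y) z := by
  rw [← det_eq_dot, det_cols]

namespace Par

variable {d : ℕ} (P : Par d)

/-- Bad pairs. -/
def B2 (ω : P.Om) (a b : P.Pt) : Prop := a.2.2.2 = b.2.2.2 ∨ cr (P.V ω a) (P.V ω b) = 0

/-- Bad triples. -/
def B3 (ω : P.Om) (a b c : P.Pt) : Prop :=
  ¬ P.B2 ω a b ∧ ¬ P.B2 ω a c ∧ ¬ P.B2 ω b c ∧
    2 * (P.p : ℤ) * |dot (cr (P.V ω a) (P.V ω b)) (P.V ω c)| < P.M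

lemma B2_symm {ω : P.Om} {a b : P.Pt} (h : ¬ P.B2 ω a b) : ¬ P.B2 ω b a := by
  unfold B2 at h ⊢
  push Not at h ⊢
  exact ⟨h.1.symm, cr_swap_ne h.2⟩

lemma B3_swap12 {ω : P.Om} {a b c : P.Pt} (h : P.B3 ω a b c) : P.B3 ω a c b := by
  obtain ⟨h1, h2, h3, h4⟩ := h
  refine ⟨h2, h1, P.B2_symm h3, ?_⟩
  have : dot (cr (P.V ω a) (P.V ω c)) (P.V ω b) = - dot (cr (P.V ω a) (P.V ω b)) (P.V ω c) := by
    simp only [dot, cr_0, cr_1, cr_2]; ring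
  rwa [this, abs_neg]

lemma B3_rot {ω : P.Om} {a b c : P.Pt} (h : P.B3 ω a b c) : P.B3 ω b c a := by
  obtain ⟨h1, h2, h3, h4⟩ := h
  refine ⟨h3, P.B2_symm h1, P.B2_symm h2, ?_⟩
  have : dot (cr (P.V ω b) (P.V ω c)) (P.V ω a) = dot (cr (P.V ω a) (P.V ω b)) (P.V ω c) := by
    simp only [dot, cr_0, cr_1, cr_2]; ring
  rwa [this]

/-- Integer determinant of the lifts at a small prime. -/
noncomputable def deti (i : Fin d) (a b c : P.Pt) : ℤ :=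
  dot (cr (P.xi i a.2.1 (a.2.2.1 i)) (P.xi i b.2.1 (b.2.2.1 i))) (P.xi i c.2.1 (c.2.2.1 i))

/-- Integer determinant of the conic points. -/
def det0 (a b c : P.Pt) : ℤ := dot (cr (P.x0 a.1) (P.x0 b.1)) (P.x0 c.1)

/-- The small representative of `p` times the determinant. -/
noncomputable def ee (a b c : P.Pt) : ℤ :=
  P.p * P.M' * P.det0 a b c + ∑ i, P.cof i * P.deti i a b c

lemma abs_ee (a b c : P.Pt) : 2 * |P.ee a b c| ≤ P.M := by
  have hM : (0 : ℤ) < P.M := by exact_mod_cast P.M_pos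
  have h1 : 4 * |(P.p : ℤ) * P.M' * P.det0 a b c| ≤ P.M := by
    have a1 := P.abs_det0 a.1 b.1 c.1
    have a2 : 8 * (P.p : ℤ) * (P.q : ℤ) ^ 2 ≤ P.m0 := by exact_mod_cast P.m0_lo
    rw [abs_mul, abs_mul, Nat.abs_cast, Nat.abs_cast]
    have a3 : (0 : ℤ) ≤ P.M' := Nat.cast_nonneg _
    have a4 : (0 : ℤ) ≤ P.p := Nat.cast_nonneg _
    calc 4 * ((P.p : ℤ) * P.M' * |P.det0 a b c|) ≤ 4 * ((P.p : ℤ) * P.M' * (2 * (P.q : ℤ) ^ 2)) := by
          gcongr; exact a1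
      _ = (8 * (P.p : ℤ) * (P.q : ℤ) ^ 2) * P.M' := by ring
      _ ≤ P.m0 * P.M' := by gcongr
      _ = P.M := by simp [M]
  have h2 : ∀ i, 4 * d * |(P.cof i : ℤ) * P.deti i a b c| ≤ P.M := by
    intro i
    have a1 := abs_det_le _ _ _ _ (P.nrm_xi i a.2.1 (a.2.2.1 i)) (P.nrm_xi i b.2.1 (b.2.2.1 i))
      (P.nrm_xi i c.2.1 (c.2.2.1 i))
    have a2 : 24 * (d : ℤ) * (P.p : ℤ) ^ 15 ≤ P.m i := by exact_mod_cast P.m_lo i
    rw [abs_mul, Nat.abs_cast]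
    calc 4 * (d : ℤ) * (P.cof i * |P.deti i a b c|) ≤
          4 * d * (P.cof i * (6 * ((P.p ^ 5 : ℕ) : ℤ) ^ 3)) := by gcongr; exact a1
      _ = P.cof i * (24 * (d : ℤ) * (P.p : ℤ) ^ 15) := by push_cast; ring
      _ ≤ P.cof i * P.m i := by gcongr
      _ = P.M := by exact_mod_cast P.cof_mul i
  have h3 : 4 * |∑ i, (P.cof i : ℤ) * P.deti i a b c| ≤ P.M := by
    rcases Nat.eq_zero_or_pos d with hd | hd
    · subst hd; simp
    · have a1 : (d : ℤ) * (4 * |∑ i, (P.cof i : ℤ) * P.deti i a b c|) ≤ d * P.M := by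
        calc (d : ℤ) * (4 * |∑ i, (P.cof i : ℤ) * P.deti i a b c|) ≤
              d * (4 * ∑ i, |(P.cof i : ℤ) * P.deti i a b c|) := by
              gcongr; exact Finset.abs_sum_le_sum_abs _ _
          _ = ∑ i, 4 * d * |(P.cof i : ℤ) * P.deti i a b c| := by
              rw [← Finset.mul_sum]; ring
          _ ≤ ∑ _i : Fin d, (P.M : ℤ) := Finset.sum_le_sum fun i _ => h2 i
          _ = d * P.M := by simp
      exact le_of_mul_le_mul_left a1 (by exact_mod_cast hd)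
  have := abs_add_le ((P.p : ℤ) * P.M' * P.det0 a b c) (∑ i, (P.cof i : ℤ) * P.deti i a b c)
  unfold ee
  linarith

lemma det_mod0 (ω : P.Om) (a b c : P.Pt) :
    ((dot (cr (P.V ω a) (P.V ω b)) (P.V ω c) : ℤ) : ZMod P.m0) = P.l0 * (P.det0 a b c : ℤ) := by
  rw [red_det, P.red_V0, P.red_V0, P.red_V0, det_mulVec, ω.1.2, det0, red_det]; rfl

lemma det_modi (ω : P.Om) (a b c : P.Pt) (i : Fin d) :
    ((dot (cr (P.V ω a) (P.V ω b)) (P.V ω c) : ℤ) : ZMod (P.m i)) =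
      P.li i * (P.deti i a b c : ℤ) := by
  rw [red_det, P.red_Vi, P.red_Vi, P.red_Vi, det_mulVec, (ω.2.1 i).2, deti, red_det]; rfl

lemma det_cong (ω : P.Om) (a b c : P.Pt) :
    (P.M : ℤ) ∣ P.p * dot (cr (P.V ω a) (P.V ω b)) (P.V ω c) - P.ee a b c := by
  unfold M
  rw [Nat.cast_mul]
  refine IsCoprime.mul_dvd (Nat.isCoprime_iff_coprime.mpr P.cop_m0_M') ?_
    (prod_dvd_int' P.m P.hm P.hinj _ fun i => ?_)
  · rw [← ZMod.intCast_zmod_eq_zero_iff_dvd]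
    have h1 : ∀ i, (P.cof i : ZMod P.m0) = 0 := fun i =>
      (ZMod.natCast_eq_zero_iff _ _).mpr (dvd_mul_right _ _)
    rw [Int.cast_sub, Int.cast_mul, P.det_mod0, ee]
    push_cast
    simp only [h1, l0]
    simp; ring
  · rw [← ZMod.intCast_zmod_eq_zero_iff_dvd]
    have h0 : (P.M' : ZMod (P.m i)) = 0 := (ZMod.natCast_eq_zero_iff _ _).mpr (P.m_dvd i)
    have h1 : ∀ j, j ≠ i → (P.cof j : ZMod (P.m i)) = 0 := fun j hj =>
      (ZMod.natCast_eq_zero_iff _ _).mpr (Dvd.dvd.mul_left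
        (Finset.dvd_prod_of_mem _ (Finset.mem_erase.mpr ⟨hj.symm, Finset.mem_univ _⟩)) _)
    rw [Int.cast_sub, Int.cast_mul, P.det_modi, ee]
    push_cast
    rw [Finset.sum_eq_single i (fun j _ hj => by rw [h1 j hj, zero_mul]) (by simp), h0, li]
    have := P.p_ne i
    field_simp
    ring

lemma ee_mod (a b c : P.Pt) :
    ((P.ee a b c : ℤ) : ZMod P.p) = ∑ i, dot (cr (P.φ i a.2.1) (P.φ i b.2.1)) (P.φ i c.2.1) := by
  rw [ee]
  push_cast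
  rw [ZMod.natCast_self, zero_mul, zero_mul, zero_add]
  refine Finset.sum_congr rfl fun i _ => ?_
  rw [deti, red_det, P.red_xi, P.red_xi, P.red_xi]
  have := cast_ne_zero_of_coprime (P.cop_cof_p i)
  simp only [dot, ψ, cr_0, cr_1, cr_2, Matrix.cons_val_zero, Matrix.cons_val_one,
    Matrix.cons_val_two, Matrix.head_cons, Matrix.tail_cons]
  field_simp

/-- Two of the field labels coincide. -/
def rc (a b c : P.Pt) : Prop := a.2.1 = b.2.1 ∨ a.2.1 = c.2.1 ∨ b.2.1 = c.2.1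

/-- The forced value of the determinant. -/
noncomputable def hh (a b c : P.Pt) : ℤ := P.ee a b c / P.p

lemma B3_eq {ω : P.Om} {a b c : P.Pt} (h : P.B3 ω a b c) :
    P.p * dot (cr (P.V ω a) (P.V ω b)) (P.V ω c) = P.ee a b c := by
  have h1 := P.det_cong ω a b c
  have h2 := P.abs_ee a b c
  have h3 := h.2.2.2
  have h4 : |P.p * dot (cr (P.V ω a) (P.V ω b)) (P.V ω c) - P.ee a b c| < P.M := by
    have := abs_sub (P.p * dot (cr (P.V ω a) (P.V ω b)) (P.V ω c)) (P.ee a b c)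
    rw [abs_mul, Nat.abs_cast] at this
    linarith
  exact sub_eq_zero.mp (Int.eq_zero_of_abs_lt_dvd h1 h4)

lemma B3_det {ω : P.Om} {a b c : P.Pt} (h : P.B3 ω a b c) :
    dot (cr (P.V ω a) (P.V ω b)) (P.V ω c) = P.hh a b c := by
  have hp : (P.p : ℤ) ≠ 0 := by exact_mod_cast P.hp.ne_zero
  rw [hh, ← P.B3_eq h, Int.mul_ediv_cancel_left _ hp]

lemma B3_rc {ω : P.Om} {a b c : P.Pt} (h : P.B3 ω a b c) : P.rc a b c := by
  by_contra hc
  unfold rc at hc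
  push Not at hc
  apply P.hφ _ _ _ hc.1 hc.2.1 hc.2.2
  rw [← P.ee_mod, ← P.B3_eq h]
  simp

lemma B3_abs {ω : P.Om} {a b c : P.Pt} (h : P.B3 ω a b c) :
    |dot (cr (P.V ω a) (P.V ω b)) (P.V ω c)| < P.M := by
  have h3 := h.2.2.2
  have hp : (1 : ℤ) ≤ P.p := by exact_mod_cast P.hp.one_lt.le
  nlinarith [abs_nonneg (dot (cr (P.V ω a) (P.V ω b)) (P.V ω c))]

lemma row_mem (ω : P.Om) (a b c : P.Pt) (k : Fin 3) :
    cols (P.V ω a) (P.V ω b) (P.V ω c) k ∈ pbox (2 * P.N) := by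
  rw [mem_pbox]
  intro j
  fin_cases j
  · exact P.V_range ω a k
  · exact P.V_range ω b k
  · exact P.V_range ω c k

/-- Matrix of residues at a small prime. -/
noncomputable def Xi (a b c : P.Pt) (i : Fin d) : Matrix (Fin 3) (Fin 3) (ZMod (P.m i)) :=
  cols (P.yi i a) (P.yi i b) (P.yi i c)

lemma row_LamP (ω : P.Om) (a b c : P.Pt) (k : Fin 3) :
    cols (P.V ω a) (P.V ω b) (P.V ω c) k ∈ LamP P.m (P.Xi a b c) := by
  intro i
  refine ⟨(ω.2.1 i).1 k, ?_⟩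
  rw [red_row, P.red_Vi, P.red_Vi, P.red_Vi, ← mul_cols]
  rfl

lemma V_cong (ω : P.Om) {a b : P.Pt} (h : a.1 = b.1) (k : Fin 3) :
    (P.m0 : ℤ) ∣ P.V ω a k - P.V ω b k := by
  have h1 : red P.m0 (P.V ω a) = red P.m0 (P.V ω b) := by
    rw [P.red_V0, P.red_V0, y0, y0, h]
  exact (ZMod.intCast_eq_intCast_iff_dvd_sub _ _ _).mp (congrFun h1 k).symm

lemma pr_rows (a b c : P.Pt) (hab : a.2.2.2 ≠ b.2.2.2) (hac : a.2.2.2 ≠ c.2.2.2)
    (hbc : b.2.2.2 ≠ c.2.2.2) (θ0 : ℝ) (θ : Fin d → ℝ)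
    (h0 : ∀ W, pr (fun g : Gs (ZMod P.m0) P.l0 => g.1 * cols (P.y0 a) (P.y0 b) (P.y0 c) = W) ≤ θ0)
    (hi : ∀ i W, pr (fun g : Gs (ZMod (P.m i)) (P.li i) => g.1 * P.Xi a b c i = W) ≤ θ i)
    (t : V3 × V3 × V3) :
    pr (fun ω : P.Om => rows (P.V ω a) (P.V ω b) (P.V ω c) = t) ≤
      θ0 * ((∏ i, θ i) * (2 / (P.Q : ℝ) ^ 9)) := by
  let E0 : Gs (ZMod P.m0) P.l0 → Prop := fun g => g.1 * cols (P.y0 a) (P.y0 b) (P.y0 c) =
    cols (red P.m0 (colj t 0)) (red P.m0 (colj t 1)) (red P.m0 (colj t 2))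
  let E1 : ∀ i, Gs (ZMod (P.m i)) (P.li i) → Prop := fun i g => g.1 * P.Xi a b c i =
    cols (red (P.m i) (colj t 0)) (red (P.m i) (colj t 1)) (red (P.m i) (colj t 2))
  let E2 : Gs (ZMod P.Q) 1 × (Fin 3 → ZMod P.Q) → Prop := fun g =>
    g.1.1 *ᵥ P.cap a.2.2.2 + g.2 = red P.Q (colj t 0) ∧
      g.1.1 *ᵥ P.cap b.2.2.2 + g.2 = red P.Q (colj t 1) ∧
      g.1.1 *ᵥ P.cap c.2.2.2 + g.2 = red P.Q (colj t 2)
  have hθ0 : 0 ≤ θ0 := le_trans (pr_nonneg _) (h0 0)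
  have hθ : ∀ i, 0 ≤ θ i := fun i => le_trans (pr_nonneg _) (hi i 0)
  calc _ ≤ pr (fun ω : P.Om => E0 ω.1 ∧ ((∀ i, E1 i (ω.2.1 i)) ∧ E2 ω.2.2)) := by
        refine pr_mono fun ω hω => ?_
        obtain ⟨c0, c1, c2⟩ := colj_rows (P.V ω a) (P.V ω b) (P.V ω c)
        rw [hω] at c0 c1 c2
        refine ⟨?_, fun i => ?_, ?_⟩
        · simp only [E0]
          rw [c0, c1, c2, P.red_V0, P.red_V0, P.red_V0, mul_cols]
        · simp only [E1]
          rw [c0, c1, c2, P.red_Vi, P.red_Vi, P.red_Vi, Xi, mul_cols]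
        · simp only [E2]
          rw [c0, c1, c2, P.red_VQ, P.red_VQ, P.red_VQ]
          exact ⟨rfl, rfl, rfl⟩
    _ = pr E0 * ((∏ i, pr (E1 i)) * pr E2) := by
        rw [← pr_pi, ← pr_prod_and (fun ω : (∀ i, Gs (ZMod (P.m i)) (P.li i)) => ∀ i, E1 i (ω i)) E2,
          ← pr_prod_and]
    _ ≤ _ := by
        have a1 : pr E0 ≤ θ0 := h0 _
        have a2 : ∏ i, pr (E1 i) ≤ ∏ i, θ i :=
          Finset.prod_le_prod (fun i _ => pr_nonneg _) fun i _ => hi i _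
        have a3 : pr E2 ≤ 2 / (P.Q : ℝ) ^ 9 := by
          have := pr_aff_three _ _ _ (red P.Q (colj t 0)) (red P.Q (colj t 1)) (red P.Q (colj t 2))
            (P.cap_cr _ _ _ hab hac hbc)
          rwa [ZMod.card] at this
        exact mul_le_mul a1 (mul_le_mul a2 a3 (pr_nonneg _) (Finset.prod_nonneg fun i _ => hθ i))
          (mul_nonneg (Finset.prod_nonneg fun i _ => pr_nonneg _) (pr_nonneg _)) hθ0

lemma pr_B3_le (a b c : P.Pt) (θ0 : ℝ) (θ : Fin d → ℝ)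
    (h0 : ∀ W, pr (fun g : Gs (ZMod P.m0) P.l0 => g.1 * cols (P.y0 a) (P.y0 b) (P.y0 c) = W) ≤ θ0)
    (hi : ∀ i W, pr (fun g : Gs (ZMod (P.m i)) (P.li i) => g.1 * P.Xi a b c i = W) ≤ θ i)
    (S : Finset (V3 × V3 × V3))
    (hS : ∀ ω, P.B3 ω a b c → rows (P.V ω a) (P.V ω b) (P.V ω c) ∈ S) :
    pr (fun ω : P.Om => P.B3 ω a b c) ≤ S.card * (θ0 * ((∏ i, θ i) * (2 / (P.Q : ℝ) ^ 9))) := by
  have hθ0 : 0 ≤ θ0 := le_trans (pr_nonneg _) (h0 0)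
  have hθ : ∀ i, 0 ≤ θ i := fun i => le_trans (pr_nonneg _) (hi i 0)
  by_cases h : a.2.2.2 ≠ b.2.2.2 ∧ a.2.2.2 ≠ c.2.2.2 ∧ b.2.2.2 ≠ c.2.2.2
  · exact pr_le_card_mul S (fun t ω => rows (P.V ω a) (P.V ω b) (P.V ω c) = t) _ _
      (fun ω hω => ⟨_, hS ω hω, rfl⟩) fun t _ => P.pr_rows a b c h.1 h.2.1 h.2.2 θ0 θ h0 hi t
  · rw [pr_false]
    · have := Finset.prod_nonneg (s := univ) fun i _ => hθ i
      positivity
    · intro ω hω
      exact h ⟨fun e => hω.1 (Or.inl e), fun e => hω.2.1 (Or.inl e), fun e => hω.2.2.1 (Or.inl e)⟩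

lemma small_le (Y : ℕ) (hY : Y ≤ P.M ^ 2) (h : ℤ) :
    ((small (2 * P.N) Y h).card : ℝ) ≤ ((2 * P.N : ℕ) : ℝ) ^ 6 / (P.M : ℝ) ^ 4 := by
  have hM := P.M_ge
  have hN := P.N_pos
  have h1 := card_small (2 * P.N) Y h
  have h2 : 1 ≤ P.M ^ 2 := Nat.one_le_pow _ _ P.M_pos
  have h3 : (2 * Y + 1) ^ 3 ≤ (3 * P.M ^ 2) ^ 3 := Nat.pow_le_pow_left (by omega) 3
  have h4 : (2 * P.N + 1) ^ 5 ≤ (3 * P.N) ^ 5 := Nat.pow_le_pow_left (by omega) 5
  have h5 : 103 * P.M ^ 10 ≤ P.N := by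
    have a1 : P.M ^ 14 ≤ P.Q := P.Q_lo
    have a2 : 64 ^ 2 ≤ P.M ^ 2 := Nat.pow_le_pow_left hM 2
    have a3 : P.M ^ 12 ≤ P.M ^ 14 := Nat.pow_le_pow_right P.M_pos (by norm_num)
    have a4 : P.Q ≤ P.N := Nat.le_mul_of_pos_left _ P.M_pos
    calc 103 * P.M ^ 10 ≤ P.M ^ 2 * P.M ^ 10 := Nat.mul_le_mul_right _ (by omega)
      _ = P.M ^ 12 := by ring
      _ ≤ _ := by omega
  have h6 : (small (2 * P.N) Y h).card * P.M ^ 4 ≤ (2 * P.N) ^ 6 := by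
    calc _ ≤ ((3 * P.M ^ 2) ^ 3 * (3 * P.N) ^ 5) * P.M ^ 4 :=
          Nat.mul_le_mul_right _ (le_trans h1 (Nat.mul_le_mul h3 h4))
      _ = 6561 * P.M ^ 10 * P.N ^ 5 := by ring
      _ ≤ 64 * P.N * P.N ^ 5 := Nat.mul_le_mul_right _ (by omega)
      _ = _ := by ring
  have h7 : (0 : ℝ) < P.M := by exact_mod_cast P.M_pos
  rw [le_div_iff₀ (by positivity)]
  exact_mod_cast h6

end Par

end Crest.Agent.R032
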