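import Crest.Agent.R032.Slice

/-!
The three lattice counts and the covering lemmas (row 32).
-/

set_option autoImplicit false
set_option linter.unusedSectionVars false

namespace Crest.Agent.R032

open Finset Matrix

variable {ι : Type} [Fintype ι] [DecidableEq ι]

/-- Integer vectors whose reductions lie in the given row spaces. -/
def LamP (m : ι → ℕ) (X : ∀ i, Matrix (Fin 3) (Fin 3) (ZMod (m i))) : AddSubgroup V3 where
  carrier := {u | ∀ i, RowSp (X i) (red (m i) u)}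
  zero_mem' := fun i => ⟨0, by funext k; simp⟩
  add_mem' := by
    intro a b ha hb i
    obtain ⟨y, hy⟩ := ha i
    obtain ⟨z, hz⟩ := hb i
    refine ⟨y + z, ?_⟩
    rw [Matrix.add_vecMul, ← hy, ← hz]
    funext k; simp
  neg_mem' := by
    intro a ha i
    obtain ⟨y, hy⟩ := ha i
    refine ⟨-y, ?_⟩
    rw [Matrix.neg_vecMul, ← hy]
    funext k; simp

lemma mem_LamP {m : ι → ℕ} {X : ∀ i, Matrix (Fin 3) (Fin 3) (ZMod (m i))} {u : V3} :
    u ∈ LamP m X ↔ ∀ i, RowSp (X i) (red (m i) u) := Iff.rfl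

/-- First two coordinates congruent. -/
def LamB (D : ℕ) : AddSubgroup V3 where
  carrier := {u | (D : ℤ) ∣ u 0 - u 1}
  zero_mem' := by simp
  add_mem' := by
    rintro a b ⟨s, hs⟩ ⟨t, ht⟩
    exact ⟨s + t, by simp only [Pi.add_apply]; linear_combination hs + ht⟩
  neg_mem' := by
    rintro a ⟨s, hs⟩
    exact ⟨-s, by simp only [Pi.neg_apply]; linear_combination -hs⟩

lemma mem_LamB {D : ℕ} {u : V3} : u ∈ LamB D ↔ (D : ℤ) ∣ u 0 - u 1 := Iff.rfl

/-- All three coordinates congruent. -/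
def LamC (D : ℕ) : AddSubgroup V3 where
  carrier := {u | (D : ℤ) ∣ u 0 - u 1 ∧ (D : ℤ) ∣ u 0 - u 2}
  zero_mem' := by simp
  add_mem' := by
    rintro a b ⟨⟨s, hs⟩, ⟨s', hs'⟩⟩ ⟨⟨t, ht⟩, ⟨t', ht'⟩⟩
    exact ⟨⟨s + t, by simp only [Pi.add_apply]; linear_combination hs + ht⟩,
      ⟨s' + t', by simp only [Pi.add_apply]; linear_combination hs' + ht'⟩⟩
  neg_mem' := by
    rintro a ⟨⟨s, hs⟩, ⟨s', hs'⟩⟩
    exact ⟨⟨-s, by simp only [Pi.neg_apply]; linear_combination -hs⟩,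
      ⟨-s', by simp only [Pi.neg_apply]; linear_combination -hs'⟩⟩

lemma mem_LamC {D : ℕ} {u : V3} : u ∈ LamC D ↔ (D : ℤ) ∣ u 0 - u 1 ∧ (D : ℤ) ∣ u 0 - u 2 := Iff.rfl

lemma sum_box_const (c : ℝ) (hc : 0 ≤ c) (H : ℕ) (hH : 1 ≤ H) :
    ∑ _r ∈ box H, c ≤ 27 * c * (H : ℝ) ^ 3 := by
  rw [Finset.sum_const, card_box, nsmul_eq_mul]
  have h1 : (1 : ℝ) ≤ H := by exact_mod_cast hH
  have h2 : (((2 * H + 1) ^ 3 : ℕ) : ℝ) ≤ (3 * (H : ℝ)) ^ 3 := by
    push_cast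
    exact pow_le_pow_left₀ (by positivity) (by linarith) 3
  calc _ ≤ (3 * (H : ℝ)) ^ 3 * c := mul_le_mul_of_nonneg_right h2 hc
    _ = _ := by ring

theorem countB (D : ℕ) (hD : D.Prime) (R : ℕ) (h : ℤ) (J : ℕ) (hJ : 2 * R ^ 2 ≤ 2 ^ J) :
    ((trip (LamB D) R h fun n => D ≤ nrm n ∨ n 2 ≠ 0).card : ℝ) ≤
      18 ^ 3 * (R : ℝ) ^ 6 * (8 * (54 / (D : ℝ) ^ 2) * (J + 1)) := by
  classical
  have hD1 : (1 : ℝ) ≤ D := by exact_mod_cast hD.one_lt.le
  have hp : Prime (D : ℤ) := Nat.prime_iff_prime_int.mp hD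
  refine trip_card (LamB D) R h _
    (fun n => if (D : ℤ) ∣ n 2 ∧ (D : ℤ) ∣ n 0 + n 1 then 1 else D) ?_ ?_
    (fun n => ind (D ≤ nrm n) * ind ((D : ℤ) ∣ n 2 ∧ (D : ℤ) ∣ n 0 + n 1) + 1 / (D : ℝ) ^ 3)
    ?_ ?_ _ ?_ J hJ
  · intro n; split_ifs
    · exact one_pos
    · exact hD.pos
  · intro n _ u hu w hw _ _ κ hκ
    split_ifs with hc
    · simp
    · by_contra hk
      apply hc
      obtain ⟨a, ha⟩ := mem_LamB.mp hu
      obtain ⟨b, hb⟩ := mem_LamB.mp hw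
      have e0 := congrFun hκ 0
      have e1 := congrFun hκ 1
      have e2 := congrFun hκ 2
      simp only [cr_0, cr_1, cr_2, Pi.smul_apply, smul_eq_mul] at e0 e1 e2
      constructor
      · refine (hp.dvd_or_dvd (a := κ) ⟨a * w 1 - u 1 * b, ?_⟩).resolve_left hk
        linear_combination -e2 + w 1 * ha - u 1 * hb
      · refine (hp.dvd_or_dvd (a := κ) ⟨u 2 * b - a * w 2, ?_⟩).resolve_left hk
        linear_combination -e0 - e1 - w 2 * ha + u 2 * hb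
  · intro r
    have := mul_nonneg (ind_nonneg (D ≤ nrm r)) (ind_nonneg ((D : ℤ) ∣ r 2 ∧ (D : ℤ) ∣ r 0 + r 1))
    positivity
  · intro n _ hN
    have h0 := mul_nonneg (ind_nonneg (D ≤ nrm n))
      (ind_nonneg ((D : ℤ) ∣ n 2 ∧ (D : ℤ) ∣ n 0 + n 1))
    split_ifs with hc
    · have h1 : D ≤ nrm n := by
        rcases hN with h1 | h1
        · exact h1
        · have h2 := Int.le_of_dvd (abs_pos.mpr h1) ((dvd_abs _ _).mpr hc.1)
          have h3 := abs_le_nrm n 2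
          exact_mod_cast le_trans h2 h3
      rw [ind_pos h1, ind_pos hc]
      have : 0 ≤ 1 / (D : ℝ) ^ 3 := by positivity
      simp only [Nat.cast_one, one_pow, div_one, mul_one]
      linarith
    · linarith
  · intro H hH
    rw [Finset.sum_add_distrib]
    have a1 : ∑ r ∈ box H, ind (D ≤ nrm r) * ind ((D : ℤ) ∣ r 2 ∧ (D : ℤ) ∣ r 0 + r 1) ≤
        27 / (D : ℝ) ^ 2 * (H : ℝ) ^ 3 := by
      by_cases hDH : D ≤ H
      · refine le_trans (Finset.sum_le_sum fun r _ => ?_) (sumB D H hD.pos hDH)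
        exact mul_le_of_le_one_left (ind_nonneg _) (ind_le_one _)
      · rw [Finset.sum_eq_zero fun r hr => ?_]
        · positivity
        · rw [ind_neg (fun h' => hDH (le_trans h' (mem_box.mp hr))), zero_mul]
    have a2 := sum_box_const (1 / (D : ℝ) ^ 3) (by positivity) H hH
    have a3 : 1 / (D : ℝ) ^ 3 ≤ 1 / (D : ℝ) ^ 2 :=
      one_div_le_one_div_of_le (by positivity) (pow_le_pow_right₀ hD1 (by norm_num))
    have a4 : 27 * (1 / (D : ℝ) ^ 3) * (H : ℝ) ^ 3 ≤ 27 * (1 / (D : ℝ) ^ 2) * (H : ℝ) ^ 3 := by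
      gcongr
    calc _ ≤ 27 / (D : ℝ) ^ 2 * (H : ℝ) ^ 3 + 27 * (1 / (D : ℝ) ^ 2) * (H : ℝ) ^ 3 := by linarith
      _ = _ := by ring

section
variable (m : ι → ℕ) [∀ i, Fact (m i).Prime] (hinj : Function.Injective m)
  (X : ∀ i, Matrix (Fin 3) (Fin 3) (ZMod (m i)))
  (e : ∀ i, (Fin 3 → ZMod (m i)) → ℕ) (E : ι → ℝ) (hE : ∀ i, 1 / (m i : ℝ) ^ 4 ≤ E i)
  (hL1 : ∀ i, ∀ (n u w : V3) (κ : ℤ), red (m i) n ≠ 0 → RowSp (X i) (red (m i) u) →
        RowSp (X i) (red (m i) w) → dot n u = 0 → dot n w = 0 → cr u w = κ • n →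
        (m i : ℤ) ^ e i (red (m i) n) ∣ κ)
  (hL2 : ∀ i, ∀ σ : ZMod (m i), ∑ t : ZMod (m i) × ZMod (m i), 1 / ((m i : ℝ) ^ e i (sl σ t)) ^ 3 ≤
        (m i : ℝ) ^ 2 * E i * (2 + m i * ind (σ = 0)))
include hinj hE hL1 hL2

theorem countA (R : ℕ) (h : ℤ) (J : ℕ) (hJ : 2 * R ^ 2 ≤ 2 ^ J) :
    ((trip (LamP m X) R h fun n => ∏ i, m i ≤ nrm n).card : ℝ) ≤
      18 ^ 3 * (R : ℝ) ^ 6 * (8 * (63 * 3 ^ Fintype.card ι * ∏ i, E i) * (J + 1)) := by
  have hm : ∀ i, (m i).Prime := fun i => Fact.out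
  have hE0 : ∀ i, 0 ≤ E i := fun i => le_trans (by positivity) (hE i)
  have hP : 0 ≤ ∏ i, E i := Finset.prod_nonneg fun i _ => hE0 i
  refine trip_card (LamP m X) R h _ (fun n => ∏ i, m i ^ e i (red (m i) n)) ?_ ?_
    (fun n => ind (∏ i, m i ≤ nrm n) * ∏ i, 1 / ((m i : ℝ) ^ e i (red (m i) n)) ^ 3)
    ?_ ?_ _ ?_ J hJ
  · intro n; exact Finset.prod_pos fun i _ => pow_pos (hm i).pos _
  · intro n hn u hu w hw hnu hnw κ hκ
    exact prod_dvd_int m hm hinj _ κ fun i =>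
      hL1 i n u w κ (hn.red_ne_zero _) (hu i) (hw i) hnu hnw hκ
  · intro r
    exact mul_nonneg (ind_nonneg _) (Finset.prod_nonneg fun i _ => by positivity)
  · intro n _ hN
    rw [ind_pos hN, one_mul, Finset.prod_div_distrib, Finset.prod_const_one, Finset.prod_pow]
    push_cast
    exact le_rfl
  · intro H _
    by_cases hH : ∏ i, m i ≤ H
    · refine le_trans (Finset.sum_le_sum fun r _ => ?_)
        (sumA m hinj (fun i r => 1 / ((m i : ℝ) ^ e i r) ^ 3) (fun i r => by positivity) E hE0 hL2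
          H hH)
      exact mul_le_of_le_one_left (Finset.prod_nonneg fun i _ => by positivity) (ind_le_one _)
    · rw [Finset.sum_eq_zero fun r hr => ?_]
      · positivity
      · rw [ind_neg (fun h' => hH (le_trans h' (mem_box.mp hr))), zero_mul]

theorem countC (D : ℕ) [hD : Fact D.Prime] (hD3 : 3 * ∏ i, m i ≤ D) (hD4 : (∏ i, m i) ^ 4 ≤ D ^ 2)
    (R : ℕ) (J : ℕ) (hJ : 2 * R ^ 2 ≤ 2 ^ J) :
    ((trip (LamC D ⊓ LamP m X) R 0 fun n => sm n ≠ 0).card : ℝ) ≤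
      18 ^ 3 * (R : ℝ) ^ 6 *
        (8 * (81 * 3 ^ Fintype.card ι * (∏ i, E i) / (D : ℝ) ^ 4) * (J + 1)) := by
  classical
  have hm : ∀ i, (m i).Prime := fun i => Fact.out
  have hE0 : ∀ i, 0 ≤ E i := fun i => le_trans (by positivity) (hE i)
  have hP : 0 ≤ ∏ i, E i := Finset.prod_nonneg fun i _ => hE0 i
  have hD0 : (0 : ℝ) < D := by exact_mod_cast hD.out.pos
  have hMpos : 0 < ∏ i, m i := Finset.prod_pos fun i _ => (hm i).pos
  have hco : ∀ i, Nat.Coprime D (m i) := by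
    intro i
    refine (Nat.coprime_primes hD.out (hm i)).mpr fun h => ?_
    have : m i ≤ ∏ i, m i := Nat.le_of_dvd hMpos (Finset.dvd_prod_of_mem _ (Finset.mem_univ i))
    omega
  have hρ : ∀ u ∈ LamC D, ∃ s : ZMod D, red D u = s • ![1, 1, 1] := by
    intro u hu
    obtain ⟨h1, h2⟩ := mem_LamC.mp hu
    refine ⟨u 0, ?_⟩
    apply ext3 <;> simp
    · exact (ZMod.intCast_eq_intCast_iff_dvd_sub _ _ _).mpr h1
    · exact (ZMod.intCast_eq_intCast_iff_dvd_sub _ _ _).mpr h2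
  refine trip_card (LamC D ⊓ LamP m X) R 0 _
    (fun n => D ^ (if (D : ℤ) ∣ sm n then 1 else 2) * ∏ i, m i ^ e i (red (m i) n)) ?_ ?_
    (fun n => 1 / (D : ℝ) ^ 3 * (ind (sm n ≠ 0 ∧ (D : ℤ) ∣ sm n) *
      ∏ i, 1 / ((m i : ℝ) ^ e i (red (m i) n)) ^ 3) + 1 / (D : ℝ) ^ 6)
    ?_ ?_ _ ?_ J hJ
  · intro n
    exact Nat.mul_pos (pow_pos hD.out.pos _) (Finset.prod_pos fun i _ => pow_pos (hm i).pos _)
  · intro n hn u hu w hw hnu hnw κ hκ
    have h1 := prod_dvd_int m hm hinj _ κ fun i =>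
      hL1 i n u w κ (hn.red_ne_zero _) (hu.2 i) (hw.2 i) hnu hnw hκ
    have h2 : ((D ^ (if (D : ℤ) ∣ sm n then 1 else 2) : ℕ) : ℤ) ∣ κ := by
      split_ifs with hc
      · simpa using rank1_dvd _ n u w κ (hn.red_ne_zero D) (hρ u hu.1) (hρ w hw.1) hκ
      · push_cast
        refine rank1_dvd2 _ n u w κ (hn.red_ne_zero D) ?_ (hρ u hu.1) (hρ w hw.1) hnu hnw hκ
        intro h0
        apply hc
        rw [← ZMod.intCast_zmod_eq_zero_iff_dvd]
        simpa [dot, sm] using h0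
    rw [Nat.cast_mul]
    refine IsCoprime.mul_dvd (Nat.isCoprime_iff_coprime.mpr ?_) h2 h1
    exact Nat.Coprime.pow_left _ (Nat.Coprime.prod_right fun i _ => Nat.Coprime.pow_right _ (hco i))
  · intro r
    have := mul_nonneg (ind_nonneg (sm r ≠ 0 ∧ (D : ℤ) ∣ sm r))
      (Finset.prod_nonneg (s := univ) (f := fun i => 1 / ((m i : ℝ) ^ e i (red (m i) r)) ^ 3)
        fun i _ => by positivity)
    positivity
  · intro n _ hN
    have h0 := mul_nonneg (ind_nonneg (sm n ≠ 0 ∧ (D : ℤ) ∣ sm n))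
      (Finset.prod_nonneg (s := univ) (f := fun i => 1 / ((m i : ℝ) ^ e i (red (m i) n)) ^ 3)
        fun i _ => by positivity)
    have h1 : (1 : ℝ) ≤ ∏ i, (m i : ℝ) ^ e i (red (m i) n) := by
      have : 1 ≤ ∏ i, m i ^ e i (red (m i) n) := Finset.prod_pos fun i _ => pow_pos (hm i).pos _
      exact_mod_cast this
    split_ifs with hc
    · rw [ind_pos ⟨hN, hc⟩, one_mul, Finset.prod_div_distrib, Finset.prod_const_one,
        Finset.prod_pow]
      push_cast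
      have : 0 ≤ 1 / (D : ℝ) ^ 6 := by positivity
      have e1 : 1 / ((D : ℝ) ^ 1 * ∏ i, (m i : ℝ) ^ e i (red (m i) n)) ^ 3 =
          1 / (D : ℝ) ^ 3 * (1 / (∏ i, (m i : ℝ) ^ e i (red (m i) n)) ^ 3) := by
        field_simp
      linarith
    · push_cast
      have e1 : 1 / ((D : ℝ) ^ 2 * ∏ i, (m i : ℝ) ^ e i (red (m i) n)) ^ 3 ≤ 1 / (D : ℝ) ^ 6 := by
        refine one_div_le_one_div_of_le (by positivity) ?_
        rw [mul_pow, ← pow_mul]
        exact le_mul_of_one_le_right (by positivity) (one_le_pow₀ h1)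
      have : 0 ≤ 1 / (D : ℝ) ^ 3 := by positivity
      have := mul_nonneg this h0
      linarith
  · intro H hH1
    rw [Finset.sum_add_distrib, ← Finset.mul_sum]
    have a1 : ∑ r ∈ box H, ind (sm r ≠ 0 ∧ (D : ℤ) ∣ sm r) *
        ∏ i, 1 / ((m i : ℝ) ^ e i (red (m i) r)) ^ 3 ≤
        54 * 3 ^ Fintype.card ι * (∏ i, E i) / D * (H : ℝ) ^ 3 := by
      by_cases hH : ∏ i, m i ≤ H
      · exact sumC m hinj (fun i r => 1 / ((m i : ℝ) ^ e i r) ^ 3) (fun i r => by positivity) E hE0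
          hL2 D hD.out.pos hco H hH
      · rw [Finset.sum_eq_zero fun r hr => ?_]
        · positivity
        · rw [ind_neg, zero_mul]
          rintro ⟨h1, h2⟩
          have h3 := Int.le_of_dvd (abs_pos.mpr h1) ((dvd_abs _ _).mpr h2)
          have h4 := abs_sm_le r
          have h5 := mem_box.mp hr
          omega
    have a2 := sum_box_const (1 / (D : ℝ) ^ 6) (by positivity) H hH1
    have a3 : 1 / (D : ℝ) ^ 2 ≤ ∏ i, E i := by
      have b1 : ∏ i, 1 / (m i : ℝ) ^ 4 ≤ ∏ i, E i :=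
        Finset.prod_le_prod (fun i _ => by positivity) fun i _ => hE i
      rw [Finset.prod_div_distrib, Finset.prod_const_one, Finset.prod_pow] at b1
      refine le_trans (one_div_le_one_div_of_le ?_ ?_) b1
      · have : (0 : ℝ) < ∏ i, (m i : ℝ) := by exact_mod_cast hMpos
        positivity
      · exact_mod_cast hD4
    have a4 : (1 : ℝ) ≤ 3 ^ Fintype.card ι := one_le_pow₀ (by norm_num)
    have a5 : 1 / (D : ℝ) ^ 2 ≤ 3 ^ Fintype.card ι * ∏ i, E i :=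
      le_trans a3 (le_mul_of_one_le_left hP a4)
    have a6 : 27 * (1 / (D : ℝ) ^ 6) * (H : ℝ) ^ 3 ≤
        27 * (3 ^ Fintype.card ι * ∏ i, E i) / (D : ℝ) ^ 4 * (H : ℝ) ^ 3 := by
      have : 27 * (1 / (D : ℝ) ^ 6) = 27 * (1 / (D : ℝ) ^ 2) / (D : ℝ) ^ 4 := by field_simp
      rw [this]
      gcongr
    have a7 := mul_le_mul_of_nonneg_left a1 (show 0 ≤ 1 / (D : ℝ) ^ 3 by positivity)
    calc _ ≤ 1 / (D : ℝ) ^ 3 * (54 * 3 ^ Fintype.card ι * (∏ i, E i) / D * (H : ℝ) ^ 3) +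
          27 * (3 ^ Fintype.card ι * ∏ i, E i) / (D : ℝ) ^ 4 * (H : ℝ) ^ 3 := by linarith
      _ = _ := by field_simp; ring

end

lemma cover_ne (Λ : AddSubgroup V3) (R : ℕ) (h : ℤ) (N : V3 → Prop) (M T : ℕ) (a b c : V3)
    (ha : a ∈ pbox R) (hb : b ∈ pbox R) (hc : c ∈ pbox R) (haΛ : a ∈ Λ) (hbΛ : b ∈ Λ)
    (hcΛ : c ∈ Λ) (hdet : dot (cr a b) c = h) (h0 : h ≠ 0) (hM : |h| ≤ M)
    (hN : ∀ n, T ≤ nrm n → N n) :
    (a, b, c) ∈ trip Λ R h N ∨ (a, b, c) ∈ small R (M * T) h := by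
  have hab : cr a b ≠ 0 := by
    intro h1; apply h0; rw [← hdet, h1]; simp [dot]
  obtain ⟨g, n, hg, hn, e⟩ := exists_prim _ hab
  have hna : dot n a = 0 := by
    have := dot_cr_left a b
    rw [e, dot_smul_left] at this
    exact (mul_eq_zero.mp this).resolve_left hg
  have hnb : dot n b = 0 := by
    have := dot_cr_right a b
    rw [e, dot_smul_left] at this
    exact (mul_eq_zero.mp this).resolve_left hg
  by_cases hT : T ≤ nrm n
  · exact Or.inl (mem_trip.mpr ⟨ha, hb, hc, haΛ, hbΛ, hcΛ, hab, hdet, n, hn, hN n hT, hna, hnb⟩)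
  · refine Or.inr (mem_small.mpr ⟨ha, hb, hc, hab, ?_, hdet⟩)
    rw [e, nrm_smul]
    have h1 : g ∣ h := by rw [← hdet, e, dot_smul_left]; exact dvd_mul_right _ _
    have h2 : |g| ≤ |h| := Int.le_of_dvd (abs_pos.mpr h0) ((abs_dvd_abs _ _).mpr h1)
    have h3 : g.natAbs ≤ M := by
      have : ((g.natAbs : ℕ) : ℤ) ≤ M := by rw [Int.natCast_natAbs]; exact le_trans h2 hM
      exact_mod_cast this
    exact Nat.mul_le_mul h3 (by omega)

lemma cover_zero' (Λ : AddSubgroup V3) (R : ℕ) (N : V3 → Prop) (a b c : V3)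
    (ha : a ∈ pbox R) (hb : b ∈ pbox R) (hc : c ∈ pbox R) (haΛ : a ∈ Λ) (hbΛ : b ∈ Λ)
    (hcΛ : c ∈ Λ) (hdet : dot (cr a b) c = 0) (hab : cr a b ≠ 0)
    (hN : ∀ n, Prim n → dot n a = 0 → dot n b = 0 → dot n c = 0 → N n) :
    (a, b, c) ∈ trip Λ R 0 N := by
  obtain ⟨g, n, hg, hn, e⟩ := exists_prim _ hab
  have hna : dot n a = 0 := by
    have := dot_cr_left a b
    rw [e, dot_smul_left] at this
    exact (mul_eq_zero.mp this).resolve_left hg
  have hnb : dot n b = 0 := by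
    have := dot_cr_right a b
    rw [e, dot_smul_left] at this
    exact (mul_eq_zero.mp this).resolve_left hg
  have hnc : dot n c = 0 := by
    have := hdet
    rw [e, dot_smul_left] at this
    exact (mul_eq_zero.mp this).resolve_left hg
  exact mem_trip.mpr ⟨ha, hb, hc, haΛ, hbΛ, hcΛ, hab, hdet, n, hn, hN n hn hna hnb hnc, hna, hnb⟩

lemma cover_zero (Λ : AddSubgroup V3) (R : ℕ) (N : V3 → Prop) (a b c : V3)
    (ha : a ∈ pbox R) (hb : b ∈ pbox R) (hc : c ∈ pbox R) (haΛ : a ∈ Λ) (hbΛ : b ∈ Λ)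
    (hcΛ : c ∈ Λ) (hdet : dot (cr a b) c = 0) (hab : cr a b ≠ 0 ∨ cr a c ≠ 0)
    (hN : ∀ n, Prim n → dot n a = 0 → dot n b = 0 → dot n c = 0 → N n) :
    (a, b, c) ∈ trip Λ R 0 N ∨ (a, c, b) ∈ trip Λ R 0 N := by
  rcases hab with hab | hac
  · exact Or.inl (cover_zero' Λ R N a b c ha hb hc haΛ hbΛ hcΛ hdet hab hN)
  · refine Or.inr (cover_zero' Λ R N a c b ha hc hb haΛ hcΛ hbΛ ?_ hac
      fun n hn h1 h2 h3 => hN n hn h1 h3 h2)
    simp only [dot, cr_0, cr_1, cr_2] at hdet ⊢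
    linear_combination -hdet

lemma rows_indep (x y z : V3) (hx : x 0 ≠ 0) (hxy : cr x y ≠ 0) :
    cr (cols x y z 0) (cols x y z 1) ≠ 0 ∨ cr (cols x y z 0) (cols x y z 2) ≠ 0 := by
  by_contra hc
  push Not at hc
  have h1 := congrFun hc.1 2
  have h2 := congrFun hc.2 2
  simp only [cr_2, cols_0, cols_1, Pi.zero_apply] at h1 h2
  apply hxy
  rw [cr_eq_zero_iff]
  refine ⟨mul_left_cancel₀ hx ?_, ?_, ?_⟩
  · linear_combination x 1 * h2 - x 2 * h1
  · linear_combination -h2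
  · linear_combination h1

lemma rel_two (x y z n : V3) (hn : n ≠ 0) (hxy : cr x y ≠ 0) (h0 : dot n (cols x y z 0) = 0)
    (h1 : dot n (cols x y z 1) = 0) (h2 : dot n (cols x y z 2) = 0) : n 2 ≠ 0 := by
  intro hn2
  simp only [dot, cols_0, cols_1, cols_2, hn2, zero_mul, add_zero] at h0 h1 h2
  have a0 : n 0 • cr x y = 0 := by
    apply ext3 <;> simp only [Pi.smul_apply, smul_eq_mul, cr_0, cr_1, cr_2, Pi.zero_apply]
    · linear_combination y 2 * h1 - y 1 * h2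
    · linear_combination y 0 * h2 - y 2 * h0
    · linear_combination y 1 * h0 - y 0 * h1
  have a1 : n 1 • cr x y = 0 := by
    apply ext3 <;> simp only [Pi.smul_apply, smul_eq_mul, cr_0, cr_1, cr_2, Pi.zero_apply]
    · linear_combination x 1 * h2 - x 2 * h1
    · linear_combination x 2 * h0 - x 0 * h2
    · linear_combination x 0 * h1 - x 1 * h0
  exact hn (ext3 ((smul_eq_zero.mp a0).resolve_right hxy) ((smul_eq_zero.mp a1).resolve_right hxy)
    hn2)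

lemma abs_det_le (x y z : V3) (L : ℕ) (hx : nrm x ≤ L) (hy : nrm y ≤ L) (hz : nrm z ≤ L) :
    |dot (cr x y) z| ≤ 6 * (L : ℤ) ^ 3 := by
  have h1 : nrm (cr x y) ≤ 2 * L * L :=
    le_trans (nrm_cr_le x y) (Nat.mul_le_mul (Nat.mul_le_mul_left _ hx) hy)
  have h2 := (nrm_le_iff _ _).mp h1
  have h3 := (nrm_le_iff _ _).mp hz
  have key : ∀ k, |cr x y k * z k| ≤ 2 * (L : ℤ) ^ 3 := by
    intro k
    rw [abs_mul]
    calc _ ≤ ((2 * L * L : ℕ) : ℤ) * L := mul_le_mul (h2 k) (h3 k) (abs_nonneg _) (by positivity)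
      _ = _ := by push_cast; ring
  have a0 := abs_le.mp (key 0)
  have a1 := abs_le.mp (key 1)
  have a2 := abs_le.mp (key 2)
  unfold dot
  rw [abs_le]; constructor <;> linarith

end Crest.Agent.R032
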