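import Crest.Agent.R032.Lattice

/-!
Counting integer matrices with a prescribed determinant and rows in a lattice (row 32).
-/

set_option autoImplicit false

namespace Crest.Agent.R032

open Finset

abbrev V3 := Fin 3 → ℤ

lemma box_mono {H H' : ℕ} (h : H ≤ H') : box H ⊆ box H' := fun _ hr =>
  mem_box.mpr (le_trans (mem_box.mp hr) h)

/-- Dyadic shell summation. -/
lemma shell_sum (F : V3 → ℝ) (hF : ∀ r, 0 ≤ F r) (κ : ℝ)
    (hS : ∀ H : ℕ, 1 ≤ H → ∑ r ∈ box H, F r ≤ κ * (H : ℝ) ^ 3) (J : ℕ) :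
    ∑ r ∈ box (2 ^ J), F r / (nrm r : ℝ) ^ 3 ≤ 8 * κ * (J + 1) := by
  classical
  have hκ : 0 ≤ κ := by
    have h1 := hS 1 le_rfl
    have h2 : 0 ≤ ∑ r ∈ box 1, F r := Finset.sum_nonneg fun r _ => hF r
    simpa using le_trans h2 h1
  induction J with
  | zero =>
    have h1 := hS 1 le_rfl
    have h2 : ∑ r ∈ box (2 ^ 0), F r / (nrm r : ℝ) ^ 3 ≤ ∑ r ∈ box 1, F r := by
      refine Finset.sum_le_sum fun r hr => ?_
      have h3 : nrm r ≤ 1 := mem_box.mp hr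
      rcases Nat.le_one_iff_eq_zero_or_eq_one.mp h3 with h | h
      · simp [h, hF r]
      · simp [h]
    simp only [Nat.cast_one, one_pow, mul_one] at h1
    simp only [CharP.cast_eq_zero, zero_add, mul_one]
    linarith
  | succ J ih =>
    have hsub : box (2 ^ J) ⊆ box (2 ^ (J + 1)) :=
      box_mono (Nat.pow_le_pow_right (by norm_num) (Nat.le_succ J))
    rw [← Finset.sum_sdiff hsub]
    have h1 : ∑ r ∈ box (2 ^ (J + 1)) \ box (2 ^ J), F r / (nrm r : ℝ) ^ 3 ≤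
        ∑ r ∈ box (2 ^ (J + 1)) \ box (2 ^ J), F r / ((2 : ℝ) ^ J) ^ 3 := by
      refine Finset.sum_le_sum fun r hr => ?_
      have h2 : ¬ nrm r ≤ 2 ^ J := fun h => (Finset.mem_sdiff.mp hr).2 (mem_box.mpr h)
      have h3 : (2 : ℝ) ^ J ≤ nrm r := by exact_mod_cast (not_le.mp h2).le
      exact div_le_div_of_nonneg_left (hF r) (by positivity)
        (pow_le_pow_left₀ (by positivity) h3 3)
    have h2 : ∑ r ∈ box (2 ^ (J + 1)) \ box (2 ^ J), F r / ((2 : ℝ) ^ J) ^ 3 ≤ 8 * κ := by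
      rw [← Finset.sum_div, div_le_iff₀ (by positivity)]
      have h3 : ∑ r ∈ box (2 ^ (J + 1)) \ box (2 ^ J), F r ≤ ∑ r ∈ box (2 ^ (J + 1)), F r :=
        Finset.sum_le_sum_of_subset_of_nonneg Finset.sdiff_subset fun r _ _ => hF r
      have h4 := hS (2 ^ (J + 1)) Nat.one_le_two_pow
      push_cast at h4
      calc _ ≤ κ * ((2 : ℝ) ^ (J + 1)) ^ 3 := le_trans h3 h4
        _ = 8 * κ * ((2 : ℝ) ^ J) ^ 3 := by ring
    push_cast
    linarith

open Classical in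
/-- Triples of rows in `Λ` with determinant `h`, the first two independent and orthogonal to a
primitive vector of the family `N`. -/
noncomputable def trip (Λ : AddSubgroup V3) (R : ℕ) (h : ℤ) (N : V3 → Prop) :
    Finset (V3 × V3 × V3) :=
  (pbox R ×ˢ pbox R ×ˢ pbox R).filter fun x => x.1 ∈ Λ ∧ x.2.1 ∈ Λ ∧ x.2.2 ∈ Λ ∧
    cr x.1 x.2.1 ≠ 0 ∧ dot (cr x.1 x.2.1) x.2.2 = h ∧
      ∃ n, Prim n ∧ N n ∧ dot n x.1 = 0 ∧ dot n x.2.1 = 0

lemma mem_trip {Λ : AddSubgroup V3} {R : ℕ} {h : ℤ} {N : V3 → Prop} {a b c : V3} :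
    (a, b, c) ∈ trip Λ R h N ↔ a ∈ pbox R ∧ b ∈ pbox R ∧ c ∈ pbox R ∧ a ∈ Λ ∧ b ∈ Λ ∧ c ∈ Λ ∧
      cr a b ≠ 0 ∧ dot (cr a b) c = h ∧ ∃ n, Prim n ∧ N n ∧ dot n a = 0 ∧ dot n b = 0 := by
  classical
  simp only [trip, Finset.mem_filter, Finset.mem_product]
  tauto

open Classical in
lemma card_U (Λ : AddSubgroup V3) (R : ℕ) (h : ℤ) (n : V3) (hn : Prim n) :
    ((trip Λ R h fun _ => True).filter fun x => dot n x.1 = 0 ∧ dot n x.2.1 = 0).card ≤
      (plane Λ n R).card ^ 3 := by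
  set U := (trip Λ R h fun _ => True).filter fun x => dot n x.1 = 0 ∧ dot n x.2.1 = 0
  have hmaps : ∀ x ∈ U, (x.1, x.2.1) ∈ plane Λ n R ×ˢ plane Λ n R := by
    rintro ⟨a, b, c⟩ hx
    obtain ⟨h1, h2, h3⟩ := Finset.mem_filter.mp hx
    obtain ⟨ha, hb, -, haΛ, hbΛ, -⟩ := mem_trip.mp h1
    exact Finset.mem_product.mpr ⟨mem_plane.mpr ⟨mem_box.mp (pbox_subset ha), haΛ, h2⟩,
      mem_plane.mpr ⟨mem_box.mp (pbox_subset hb), hbΛ, h3⟩⟩
  rw [Finset.card_eq_sum_card_fiberwise hmaps]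
  have hfib : ∀ y ∈ plane Λ n R ×ˢ plane Λ n R,
      (U.filter fun x => (x.1, x.2.1) = y).card ≤ (plane Λ n R).card := by
    intro y _
    rcases (U.filter fun x => (x.1, x.2.1) = y).eq_empty_or_nonempty with he | ⟨x0, hx0⟩
    · rw [he]; simp
    obtain ⟨a, b, c0⟩ := x0
    obtain ⟨hU0, hy0⟩ := Finset.mem_filter.mp hx0
    obtain ⟨h1, h2, h3⟩ := Finset.mem_filter.mp hU0
    obtain ⟨-, -, hc0, -, -, hc0Λ, hab, hdet0, -⟩ := mem_trip.mp h1
    obtain ⟨κ, hκ⟩ := hn.exists_cr h2 h3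
    have hκ0 : κ ≠ 0 := by
      rintro rfl; apply hab; simpa using hκ
    refine Finset.card_le_card_of_injOn (fun x => x.2.2 - c0) ?_ ?_
    · rintro ⟨a', b', c⟩ hx
      obtain ⟨hU, hy⟩ := Finset.mem_filter.mp hx
      rw [← hy0] at hy
      obtain ⟨rfl, rfl⟩ := Prod.mk.inj hy
      obtain ⟨h1', -⟩ := Finset.mem_filter.mp hU
      obtain ⟨-, -, hc, -, -, hcΛ, -, hdet, -⟩ := mem_trip.mp h1'
      refine mem_plane.mpr ⟨mem_box.mp (pbox_sub hc hc0), Λ.sub_mem hcΛ hc0Λ, ?_⟩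
      apply mul_left_cancel₀ hκ0
      simp only at hκ hdet hdet0 ⊢
      rw [← dot_smul_left, ← hκ, dot_sub, hdet, hdet0]; simp
    · rintro ⟨a1, b1, c1⟩ hx1 ⟨a2, b2, c2⟩ hx2 hc
      have e1 := (Finset.mem_filter.mp hx1).2
      have e2 := (Finset.mem_filter.mp hx2).2
      rw [← e2] at e1
      obtain ⟨rfl, rfl⟩ := Prod.mk.inj e1
      simp only [sub_left_inj] at hc
      rw [hc]
  calc _ ≤ ∑ _y ∈ plane Λ n R ×ˢ plane Λ n R, (plane Λ n R).card := Finset.sum_le_sum hfib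
    _ = _ := by simp [Finset.card_product]; ring

theorem trip_card (Λ : AddSubgroup V3) (R : ℕ) (h : ℤ) (N : V3 → Prop) (j : V3 → ℕ)
    (hj0 : ∀ n, 0 < j n)
    (hj : ∀ n, Prim n → ∀ u ∈ Λ, ∀ w ∈ Λ, dot n u = 0 → dot n w = 0 → ∀ κ : ℤ,
      cr u w = κ • n → (j n : ℤ) ∣ κ)
    (F : V3 → ℝ) (hF0 : ∀ r, 0 ≤ F r) (hF : ∀ n, Prim n → N n → 1 / (j n : ℝ) ^ 3 ≤ F n) (κ : ℝ)
    (hS : ∀ H : ℕ, 1 ≤ H → ∑ r ∈ box H, F r ≤ κ * (H : ℝ) ^ 3) (J : ℕ)
    (hJ : 2 * R ^ 2 ≤ 2 ^ J) :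
    ((trip Λ R h N).card : ℝ) ≤ 18 ^ 3 * (R : ℝ) ^ 6 * (8 * κ * (J + 1)) := by
  classical
  set 𝒩 := (box (2 ^ J)).filter fun n => Prim n ∧ N n ∧
    ∃ u ∈ plane Λ n R, ∃ w ∈ plane Λ n R, cr u w ≠ 0
  let U : V3 → Finset (V3 × V3 × V3) := fun n =>
    (trip Λ R h fun _ => True).filter fun x => dot n x.1 = 0 ∧ dot n x.2.1 = 0
  have hsub : trip Λ R h N ⊆ 𝒩.biUnion U := by
    rintro ⟨a, b, c⟩ hx
    obtain ⟨ha, hb, hc, haΛ, hbΛ, hcΛ, hab, hdet, n, hn, hN, hna, hnb⟩ := mem_trip.mp hx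
    have haR := mem_box.mp (pbox_subset ha)
    have hbR := mem_box.mp (pbox_subset hb)
    refine Finset.mem_biUnion.mpr ⟨n, Finset.mem_filter.mpr ⟨?_, hn, hN, a,
      mem_plane.mpr ⟨haR, haΛ, hna⟩, b, mem_plane.mpr ⟨hbR, hbΛ, hnb⟩, hab⟩, ?_⟩
    · obtain ⟨κ', hκ⟩ := hn.exists_cr hna hnb
      have hκ0 : κ' ≠ 0 := by
        rintro rfl; apply hab; simpa using hκ
      have h1 := nrm_cr_le a b
      rw [hκ, nrm_smul] at h1
      have h2 : 1 ≤ κ'.natAbs := Int.natAbs_pos.mpr hκ0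
      rw [mem_box]
      calc nrm n ≤ κ'.natAbs * nrm n := Nat.le_mul_of_pos_left _ h2
        _ ≤ 2 * nrm a * nrm b := h1
        _ ≤ 2 * R * R := Nat.mul_le_mul (Nat.mul_le_mul_left _ haR) hbR
        _ = 2 * R ^ 2 := by ring
        _ ≤ 2 ^ J := hJ
    · exact Finset.mem_filter.mpr ⟨mem_trip.mpr ⟨ha, hb, hc, haΛ, hbΛ, hcΛ, hab, hdet, n, hn,
        trivial, hna, hnb⟩, hna, hnb⟩
  have h1 : ((trip Λ R h N).card : ℝ) ≤ ∑ n ∈ 𝒩, ((U n).card : ℝ) := by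
    have := le_trans (Finset.card_le_card hsub) Finset.card_biUnion_le
    exact_mod_cast this
  have h2 : ∀ n ∈ 𝒩, ((U n).card : ℝ) ≤ 18 ^ 3 * (R : ℝ) ^ 6 * (F n / (nrm n : ℝ) ^ 3) := by
    intro n hn
    obtain ⟨-, hp, hN, hind⟩ := Finset.mem_filter.mp hn
    have a1 : ((U n).card : ℝ) ≤ ((plane Λ n R).card : ℝ) ^ 3 := by
      exact_mod_cast card_U Λ R h n hp
    have a2 : ((plane Λ n R).card : ℝ) * (j n * nrm n) ≤ 18 * (R : ℝ) ^ 2 := by
      exact_mod_cast plane_count Λ n (j n) R hp (hj n hp) hind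
    have b1 : (0 : ℝ) < j n := by exact_mod_cast hj0 n
    have b2 : (0 : ℝ) < nrm n := by exact_mod_cast nrm_pos hp.ne_zero
    have a3 : ((plane Λ n R).card : ℝ) ≤ 18 * (R : ℝ) ^ 2 / (j n * nrm n) := by
      rw [le_div_iff₀ (by positivity)]; exact a2
    calc ((U n).card : ℝ) ≤ (18 * (R : ℝ) ^ 2 / (j n * nrm n)) ^ 3 :=
          le_trans a1 (pow_le_pow_left₀ (by positivity) a3 3)
      _ = 18 ^ 3 * (R : ℝ) ^ 6 * ((1 / (j n : ℝ) ^ 3) / (nrm n : ℝ) ^ 3) := by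
          field_simp
      _ ≤ _ := by
          gcongr
          exact hF n hp hN
  have h3 : ∑ n ∈ 𝒩, F n / (nrm n : ℝ) ^ 3 ≤ ∑ n ∈ box (2 ^ J), F n / (nrm n : ℝ) ^ 3 :=
    Finset.sum_le_sum_of_subset_of_nonneg (Finset.filter_subset _ _) fun r _ _ =>
      div_nonneg (hF0 r) (by positivity)
  calc _ ≤ ∑ n ∈ 𝒩, 18 ^ 3 * (R : ℝ) ^ 6 * (F n / (nrm n : ℝ) ^ 3) :=
        le_trans h1 (Finset.sum_le_sum h2)
    _ = 18 ^ 3 * (R : ℝ) ^ 6 * ∑ n ∈ 𝒩, F n / (nrm n : ℝ) ^ 3 := by rw [Finset.mul_sum]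
    _ ≤ _ := by
        gcongr
        exact le_trans h3 (shell_sum F hF0 κ hS J)

/-- A subset of a box on which two coordinates determine the point. -/
lemma card_le_sq (S : Finset V3) (R : ℕ) (hS : S ⊆ pbox R) (k l : Fin 3)
    (hinj : ∀ x ∈ S, ∀ y ∈ S, x k = y k → x l = y l → x = y) : S.card ≤ (R + 1) ^ 2 := by
  have : S.card ≤ (Finset.Icc (0 : ℤ) R ×ˢ Finset.Icc (0 : ℤ) R).card := by
    refine Finset.card_le_card_of_injOn (fun x => (x k, x l)) ?_ ?_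
    · intro x hx
      have := mem_pbox.mp (hS hx)
      simp only [Finset.coe_product, Finset.coe_Icc, Set.mem_prod, Set.mem_Icc]
      exact ⟨this k, this l⟩
    · intro x hx y hy hxy
      obtain ⟨h1, h2⟩ := Prod.mk.inj hxy
      exact hinj x hx y hy h1 h2
  rw [Finset.card_product, Int.card_Icc] at this
  simpa [sq] using this

lemma card_le_lin (S : Finset V3) (R : ℕ) (hS : S ⊆ pbox R) (k : Fin 3)
    (hinj : ∀ x ∈ S, ∀ y ∈ S, x k = y k → x = y) : S.card ≤ R + 1 := by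
  have : S.card ≤ (Finset.Icc (0 : ℤ) R).card := by
    refine Finset.card_le_card_of_injOn (fun x => x k) ?_ ?_
    · intro x hx
      have := mem_pbox.mp (hS hx)
      simp only [Finset.coe_Icc, Set.mem_Icc]
      exact this k
    · intro x hx y hy hxy
      exact hinj x hx y hy hxy
  rw [Int.card_Icc] at this
  simpa using this

lemma card_dot_eq (ν : V3) (hν : ν ≠ 0) (h : ℤ) (R : ℕ) :
    ((pbox R).filter fun c => dot ν c = h).card ≤ (R + 1) ^ 2 := by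
  have hν' : ν 0 ≠ 0 ∨ ν 1 ≠ 0 ∨ ν 2 ≠ 0 := by
    by_contra hc; push Not at hc; exact hν ((eq_zero_iff3 ν).mpr hc)
  rcases hν' with h0 | h0 | h0
  · refine card_le_sq _ R (Finset.filter_subset _ _) 1 2 fun x hx y hy h1 h2 => ?_
    have e1 := (Finset.mem_filter.mp hx).2
    have e2 := (Finset.mem_filter.mp hy).2
    simp only [dot] at e1 e2
    refine ext3 (mul_left_cancel₀ h0 ?_) h1 h2
    rw [h1, h2] at e1; linarith
  · refine card_le_sq _ R (Finset.filter_subset _ _) 0 2 fun x hx y hy h1 h2 => ?_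
    have e1 := (Finset.mem_filter.mp hx).2
    have e2 := (Finset.mem_filter.mp hy).2
    simp only [dot] at e1 e2
    refine ext3 h1 (mul_left_cancel₀ h0 ?_) h2
    rw [h1, h2] at e1; linarith
  · refine card_le_sq _ R (Finset.filter_subset _ _) 0 1 fun x hx y hy h1 h2 => ?_
    have e1 := (Finset.mem_filter.mp hx).2
    have e2 := (Finset.mem_filter.mp hy).2
    simp only [dot] at e1 e2
    refine ext3 h1 h2 (mul_left_cancel₀ h0 ?_)
    rw [h1, h2] at e1; linarith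

lemma card_cr_eq (a : V3) (ha : a ≠ 0) (ν : V3) (R : ℕ) :
    ((pbox R).filter fun b => cr a b = ν).card ≤ R + 1 := by
  have ha' : ∃ k, a k ≠ 0 := by
    by_contra hc; push Not at hc; exact ha (funext hc)
  obtain ⟨k, hk⟩ := ha'
  refine card_le_lin _ R (Finset.filter_subset _ _) k fun x hx y hy h1 => ?_
  have e1 := (Finset.mem_filter.mp hx).2
  have e2 := (Finset.mem_filter.mp hy).2
  have e3 : cr a (x - y) = 0 := by rw [cr_sub, e1, e2, sub_self]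
  funext l
  have := cr_zero_mul e3 k l
  simp only [Pi.sub_apply, h1, sub_self, mul_zero, mul_eq_zero] at this
  rcases this with h | h
  · exact absurd h hk
  · exact sub_eq_zero.mp h

open Classical in
/-- Triples whose first two rows have a small nonzero cross product. -/
noncomputable def small (R Y : ℕ) (h : ℤ) : Finset (V3 × V3 × V3) :=
  (pbox R ×ˢ pbox R ×ˢ pbox R).filter fun x =>
    cr x.1 x.2.1 ≠ 0 ∧ nrm (cr x.1 x.2.1) ≤ Y ∧ dot (cr x.1 x.2.1) x.2.2 = h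

lemma mem_small {R Y : ℕ} {h : ℤ} {a b c : V3} :
    (a, b, c) ∈ small R Y h ↔ a ∈ pbox R ∧ b ∈ pbox R ∧ c ∈ pbox R ∧
      cr a b ≠ 0 ∧ nrm (cr a b) ≤ Y ∧ dot (cr a b) c = h := by
  classical
  simp only [small, Finset.mem_filter, Finset.mem_product]
  tauto

lemma card_small (R Y : ℕ) (h : ℤ) : (small R Y h).card ≤ (2 * Y + 1) ^ 3 * (R + 1) ^ 5 := by
  classical
  have hsub : small R Y h ⊆ ((box Y).filter fun ν => ν ≠ 0).biUnion fun ν =>
      (((pbox R).filter fun a => dot ν a = 0 ∧ a ≠ 0).biUnion fun a =>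
        ({a} : Finset V3) ×ˢ ((pbox R).filter fun b => cr a b = ν) ×ˢ
          ((pbox R).filter fun c => dot ν c = h)) := by
    rintro ⟨a, b, c⟩ hx
    obtain ⟨ha, hb, hc, hab, hY, hdet⟩ := mem_small.mp hx
    have ha0 : a ≠ 0 := by
      rintro rfl; apply hab; apply ext3 <;> simp
    refine Finset.mem_biUnion.mpr ⟨cr a b, Finset.mem_filter.mpr ⟨mem_box.mpr hY, hab⟩, ?_⟩
    refine Finset.mem_biUnion.mpr ⟨a, Finset.mem_filter.mpr ⟨ha, dot_cr_left a b, ha0⟩, ?_⟩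
    simp [hb, hc, hdet]
  refine le_trans (Finset.card_le_card hsub) (le_trans Finset.card_biUnion_le ?_)
  have h1 : ∀ ν ∈ (box Y).filter fun ν => ν ≠ 0,
      (((pbox R).filter fun a => dot ν a = 0 ∧ a ≠ 0).biUnion fun a =>
        ({a} : Finset V3) ×ˢ ((pbox R).filter fun b => cr a b = ν) ×ˢ
          ((pbox R).filter fun c => dot ν c = h)).card ≤ (R + 1) ^ 5 := by
    intro ν hν
    have hν0 : ν ≠ 0 := (Finset.mem_filter.mp hν).2
    refine le_trans Finset.card_biUnion_le ?_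
    have h2 : ∀ a ∈ (pbox R).filter fun a => dot ν a = 0 ∧ a ≠ 0,
        (({a} : Finset V3) ×ˢ ((pbox R).filter fun b => cr a b = ν) ×ˢ
          ((pbox R).filter fun c => dot ν c = h)).card ≤ (R + 1) ^ 3 := by
      intro a ha
      rw [Finset.card_product, Finset.card_product, Finset.card_singleton, one_mul]
      calc _ ≤ (R + 1) * (R + 1) ^ 2 := Nat.mul_le_mul
            (card_cr_eq a (Finset.mem_filter.mp ha).2.2 ν R) (card_dot_eq ν hν0 h R)
        _ = _ := by ring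
    refine le_trans (Finset.sum_le_card_nsmul _ _ _ h2) ?_
    have h3 : ((pbox R).filter fun a => dot ν a = 0 ∧ a ≠ 0).card ≤ (R + 1) ^ 2 :=
      le_trans (Finset.card_le_card (Finset.monotone_filter_right _ fun a _ ha => ha.1))
        (card_dot_eq ν hν0 0 R)
    rw [smul_eq_mul]
    calc _ ≤ (R + 1) ^ 2 * (R + 1) ^ 3 := Nat.mul_le_mul_right _ h3
      _ = _ := by ring
  refine le_trans (Finset.sum_le_card_nsmul _ _ _ h1) ?_
  rw [smul_eq_mul]
  refine Nat.mul_le_mul_right _ ?_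
  rw [← card_box]
  exact Finset.card_le_card (Finset.filter_subset _ _)

open Classical in
/-- Parallel pairs. -/
noncomputable def par (R : ℕ) : Finset (V3 × V3) :=
  (pbox R ×ˢ pbox R).filter fun x => x.1 ≠ 0 ∧ cr x.1 x.2 = 0

lemma card_par (R : ℕ) : (par R).card ≤ (R + 1) ^ 4 := by
  classical
  have hsub : par R ⊆ ((pbox R).filter fun a => a ≠ 0).biUnion fun a =>
      ({a} : Finset V3) ×ˢ ((pbox R).filter fun b => cr a b = 0) := by
    rintro ⟨a, b⟩ hx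
    simp only [par, Finset.mem_filter, Finset.mem_product] at hx
    refine Finset.mem_biUnion.mpr ⟨a, Finset.mem_filter.mpr ⟨hx.1.1, hx.2.1⟩, ?_⟩
    simp [hx.1.2, hx.2.2]
  refine le_trans (Finset.card_le_card hsub) (le_trans Finset.card_biUnion_le ?_)
  have h2 : ∀ a ∈ (pbox R).filter fun a => a ≠ 0,
      (({a} : Finset V3) ×ˢ ((pbox R).filter fun b => cr a b = 0)).card ≤ R + 1 := by
    intro a ha
    rw [Finset.card_product, Finset.card_singleton, one_mul]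
    exact card_cr_eq a (Finset.mem_filter.mp ha).2 0 R
  refine le_trans (Finset.sum_le_card_nsmul _ _ _ h2) ?_
  rw [smul_eq_mul]
  have : ((pbox R).filter fun a => a ≠ 0).card ≤ (R + 1) ^ 3 := by
    rw [← card_pbox]; exact Finset.card_le_card (Finset.filter_subset _ _)
  calc _ ≤ (R + 1) ^ 3 * (R + 1) := Nat.mul_le_mul_right _ this
    _ = _ := by ring

end Crest.Agent.R032
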