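import Crest.Agent.R032.Point

/-!
Averages over the labels and the core existence statement (row 32).
-/

set_option autoImplicit false
set_option linter.unusedSectionVars false

namespace Crest.Agent.R032

open Finset Matrix

/-- Regrouping of a triple of pairs. -/
def triEquiv (A B : Type) : (A × B) × (A × B) × (A × B) ≃ (A × A × A) × (B × B × B) where
  toFun x := ((x.1.1, x.2.1.1, x.2.2.1), (x.1.2, x.2.1.2, x.2.2.2))
  invFun y := ((y.1.1, y.2.1), (y.1.2.1, y.2.2.1), (y.1.2.2, y.2.2.2))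
  left_inv _ := rfl
  right_inv _ := rfl

lemma ex_tri {A B : Type} [Fintype A] [Fintype B] (F : A × A × A → B × B × B → ℝ) :
    ex (fun x : (A × B) × (A × B) × (A × B) =>
      F (x.1.1, x.2.1.1, x.2.2.1) (x.1.2, x.2.1.2, x.2.2.2)) = ex fun a => ex fun b => F a b := by
  have h := ex_equiv (triEquiv A B) (fun y => F y.1 y.2)
  rw [ex_prod (fun y : (A × A × A) × (B × B × B) => F y.1 y.2)] at h
  exact h

/-- Regrouping of a triple of functions. -/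
def piTriEquiv (ι D : Type) : (ι → D) × (ι → D) × (ι → D) ≃ (ι → D × D × D) where
  toFun x i := (x.1 i, x.2.1 i, x.2.2 i)
  invFun y := (fun i => (y i).1, fun i => (y i).2.1, fun i => (y i).2.2)
  left_inv _ := rfl
  right_inv _ := rfl

lemma ex_pi3 {ι D : Type} [Fintype ι] [DecidableEq ι] [Fintype D] (w : ι → D × D × D → ℝ) :
    ex (fun ξ : (ι → D) × (ι → D) × (ι → D) => ∏ i, w i (ξ.1 i, ξ.2.1 i, ξ.2.2 i)) =
      ∏ i, ex (w i) := by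
  rw [← ex_pi (A := fun _ => D × D × D) w]
  exact ex_equiv (piTriEquiv ι D) (fun y => ∏ i, w i (y i))

section
variable {A : Type} [Fintype A] [Nonempty A]

lemma ex_ind_eq (a : A) : ex (fun b => ind (a = b)) = 1 / Fintype.card A := by
  rw [← pr_eq_le a]
  exact ex_congr fun b => ind_congr eq_comm

lemma pr_pair : ex (fun x : A × A => ind (x.1 = x.2)) = 1 / Fintype.card A := by
  rw [ex_prod]
  simp only [ex_ind_eq, ex_const]

lemma pr_coin : ex (fun x : A × A × A => ind (x.1 = x.2.1 ∨ x.1 = x.2.2 ∨ x.2.1 = x.2.2)) ≤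
    3 / Fintype.card A := by
  have h1 : ex (fun x : A × A × A => ind (x.1 = x.2.1)) = 1 / Fintype.card A := by
    rw [ex_prod]
    simp only [ex_prod (fun y : A × A => ind (_ = y.1)), ex_const, ex_ind_eq]
  have h2 : ex (fun x : A × A × A => ind (x.1 = x.2.2)) = 1 / Fintype.card A := by
    rw [ex_prod]
    simp only [ex_prod (fun y : A × A => ind (_ = y.2)), ex_const, ex_ind_eq]
  have h3 : ex (fun x : A × A × A => ind (x.2.1 = x.2.2)) = 1 / Fintype.card A := by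
    rw [ex_prod]
    simp only [pr_pair, ex_const]
  calc _ ≤ ex (fun x : A × A × A => ind (x.1 = x.2.1) + (ind (x.1 = x.2.2) + ind (x.2.1 = x.2.2))) :=
        ex_mono fun x => le_trans (ind_or_le _ _) (add_le_add le_rfl (ind_or_le _ _))
    _ = _ := by rw [ex_add, ex_add, h1, h2, h3]; ring

lemma pr_all : ex (fun x : A × A × A => ind (x.1 = x.2.1 ∧ x.1 = x.2.2)) =
    1 / (Fintype.card A : ℝ) ^ 2 := by
  rw [ex_prod]
  have : ∀ a : A, ex (fun y : A × A => ind (a = y.1 ∧ a = y.2)) =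
      1 / (Fintype.card A : ℝ) ^ 2 := by
    intro a
    simp only [ind_and]
    rw [ex_prod_mul (fun b => ind (a = b)) (fun b => ind (a = b)), ex_ind_eq]
    ring
  simp only [this, ex_const]

end

namespace Par

variable {d : ℕ} (P : Par d)

lemma ex_cr (i : Fin d) (x : Fin 3 → ZMod (P.m i)) (hx : x 0 ≠ 0) (r : Fin (P.p ^ 3)) :
    ex (fun ξ : Fin 3 → Fin (P.p ^ 4) => ind (cr x (red (P.m i) (P.xi i r ξ)) = 0)) ≤
      1 / (P.p : ℝ) ^ 8 := by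
  classical
  have hp : (0 : ℝ) < P.p := by exact_mod_cast P.hp.pos
  have h := pr_eq_card (fun ξ : Fin 3 → Fin (P.p ^ 4) => cr x (red (P.m i) (P.xi i r ξ)) = 0)
  unfold pr at h
  rw [h]
  have h1 : (univ.filter fun ξ : Fin 3 → Fin (P.p ^ 4) =>
      cr x (red (P.m i) (P.xi i r ξ)) = 0).card ≤ P.p ^ 4 := by
    refine le_trans ?_ (le_of_eq ((Finset.card_univ (α := Fin (P.p ^ 4))).trans
      (Fintype.card_fin _)))
    refine Finset.card_le_card_of_injOn (fun ξ => ξ 0) (by simp) ?_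
    intro ξ hξ ξ' hξ' e
    have e1 : cr x (red (P.m i) (P.xi i r ξ)) = 0 := by simpa using hξ
    have e2 : cr x (red (P.m i) (P.xi i r ξ')) = 0 := by simpa using hξ'
    have e0 : red (P.m i) (P.xi i r ξ) 0 = red (P.m i) (P.xi i r ξ') 0 := by
      simp only at e
      simp only [red_apply, xi, e]
    funext k
    apply P.red_xi_inj i r ξ ξ' k
    apply mul_left_cancel₀ hx
    rw [cr_zero_mul e1 0 k, cr_zero_mul e2 0 k, e0]
  have h2 : ((univ.filter fun ξ : Fin 3 → Fin (P.p ^ 4) =>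
      cr x (red (P.m i) (P.xi i r ξ)) = 0).card : ℝ) ≤ (P.p : ℝ) ^ 4 := by exact_mod_cast h1
  simp only [Fintype.card_pi, Fintype.card_fin, Finset.prod_const, Finset.card_univ]
  push_cast
  calc _ ≤ (P.p : ℝ) ^ 4 / ((P.p : ℝ) ^ 4) ^ 3 := by gcongr
    _ = _ := by field_simp

lemma ex_W (i : Fin d) (r : Fin (P.p ^ 3) × Fin (P.p ^ 3) × Fin (P.p ^ 3)) :
    ex (fun t : (Fin 3 → Fin (P.p ^ 4)) × (Fin 3 → Fin (P.p ^ 4)) × (Fin 3 → Fin (P.p ^ 4)) =>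
      Wt (P.m i) (red (P.m i) (P.xi i r.1 t.1)) (red (P.m i) (P.xi i r.2.1 t.2.1))
        (red (P.m i) (P.xi i r.2.2 t.2.2))) ≤ 2 := by
  have hp : (0 : ℝ) < P.p := by exact_mod_cast P.hp.pos
  unfold Wt
  rw [ex_add, ex_const, ex_const_mul, ex_prod]
  have h1 : ∀ ξ : Fin 3 → Fin (P.p ^ 4),
      ex (fun t : (Fin 3 → Fin (P.p ^ 4)) × (Fin 3 → Fin (P.p ^ 4)) =>
        ind (cr (red (P.m i) (P.xi i r.1 ξ)) (red (P.m i) (P.xi i r.2.1 t.1)) = 0 ∧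
          cr (red (P.m i) (P.xi i r.1 ξ)) (red (P.m i) (P.xi i r.2.2 t.2)) = 0)) ≤
        1 / (P.p : ℝ) ^ 16 := by
    intro ξ
    have hx : red (P.m i) (P.xi i r.1 ξ) 0 ≠ 0 :=
      P.yi_ne i (0, r.1, fun _ => ξ, (0, 0)) 0
    simp only [ind_and]
    rw [ex_prod_mul
      (fun t => ind (cr (red (P.m i) (P.xi i r.1 ξ)) (red (P.m i) (P.xi i r.2.1 t)) = 0))
      (fun t => ind (cr (red (P.m i) (P.xi i r.1 ξ)) (red (P.m i) (P.xi i r.2.2 t)) = 0))]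
    calc _ ≤ 1 / (P.p : ℝ) ^ 8 * (1 / (P.p : ℝ) ^ 8) :=
          mul_le_mul (P.ex_cr i _ hx _) (P.ex_cr i _ hx _) (ex_nonneg fun _ => ind_nonneg _)
            (by positivity)
      _ = _ := by field_simp
  have h2 := ex_le_of_le h1
  have h3 : (P.m i : ℝ) ≤ (P.p : ℝ) ^ 16 := by exact_mod_cast P.m_hi i
  have h4 : (P.m i : ℝ) * (1 / (P.p : ℝ) ^ 16) ≤ 1 := by
    rw [mul_one_div, div_le_one (by positivity)]; exact h3
  have h5 := mul_le_mul_of_nonneg_left h2 (Nat.cast_nonneg (α := ℝ) (P.m i))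
  linarith

/-- The labels other than the conic label. -/
abbrev Rest := Fin (P.p ^ 3) × (Fin d → Fin 3 → Fin (P.p ^ 4)) × (ZMod P.Q × ZMod P.Q)

/-- The weight of a triple of labels. -/
noncomputable def WR (y : P.Rest × P.Rest × P.Rest) : ℝ :=
  ind (y.1.1 = y.2.1.1 ∨ y.1.1 = y.2.2.1 ∨ y.2.1.1 = y.2.2.1) *
    ∏ i, Wt (P.m i) (red (P.m i) (P.xi i y.1.1 (y.1.2.1 i)))
      (red (P.m i) (P.xi i y.2.1.1 (y.2.1.2.1 i))) (red (P.m i) (P.xi i y.2.2.1 (y.2.2.2.1 i)))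

lemma ex_WR : ex P.WR ≤ 3 / (P.p : ℝ) ^ 3 * 2 ^ d := by
  have h := ex_tri (fun (r : Fin (P.p ^ 3) × Fin (P.p ^ 3) × Fin (P.p ^ 3))
    (z : ((Fin d → Fin 3 → Fin (P.p ^ 4)) × (ZMod P.Q × ZMod P.Q)) ×
      ((Fin d → Fin 3 → Fin (P.p ^ 4)) × (ZMod P.Q × ZMod P.Q)) ×
      ((Fin d → Fin 3 → Fin (P.p ^ 4)) × (ZMod P.Q × ZMod P.Q))) =>
    ind (r.1 = r.2.1 ∨ r.1 = r.2.2 ∨ r.2.1 = r.2.2) *
      ∏ i, Wt (P.m i) (red (P.m i) (P.xi i r.1 (z.1.1 i)))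
        (red (P.m i) (P.xi i r.2.1 (z.2.1.1 i))) (red (P.m i) (P.xi i r.2.2 (z.2.2.1 i))))
  refine le_trans (le_of_eq h) ?_
  simp only [ex_const_mul]
  have h1 : ∀ r : Fin (P.p ^ 3) × Fin (P.p ^ 3) × Fin (P.p ^ 3),
      ex (fun z : ((Fin d → Fin 3 → Fin (P.p ^ 4)) × (ZMod P.Q × ZMod P.Q)) ×
        ((Fin d → Fin 3 → Fin (P.p ^ 4)) × (ZMod P.Q × ZMod P.Q)) ×
        ((Fin d → Fin 3 → Fin (P.p ^ 4)) × (ZMod P.Q × ZMod P.Q)) =>
        ∏ i, Wt (P.m i) (red (P.m i) (P.xi i r.1 (z.1.1 i)))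
          (red (P.m i) (P.xi i r.2.1 (z.2.1.1 i))) (red (P.m i) (P.xi i r.2.2 (z.2.2.1 i)))) ≤
        2 ^ d := by
    intro r
    have h2 := ex_tri (fun (ξ : (Fin d → Fin 3 → Fin (P.p ^ 4)) × (Fin d → Fin 3 → Fin (P.p ^ 4)) ×
        (Fin d → Fin 3 → Fin (P.p ^ 4)))
      (_ : (ZMod P.Q × ZMod P.Q) × (ZMod P.Q × ZMod P.Q) × (ZMod P.Q × ZMod P.Q)) =>
      ∏ i, Wt (P.m i) (red (P.m i) (P.xi i r.1 (ξ.1 i)))
          (red (P.m i) (P.xi i r.2.1 (ξ.2.1 i))) (red (P.m i) (P.xi i r.2.2 (ξ.2.2 i))))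
    refine le_trans (le_of_eq h2) ?_
    simp only [ex_const]
    have h3 := ex_pi3 (fun (i : Fin d)
      (t : (Fin 3 → Fin (P.p ^ 4)) × (Fin 3 → Fin (P.p ^ 4)) × (Fin 3 → Fin (P.p ^ 4))) =>
      Wt (P.m i) (red (P.m i) (P.xi i r.1 t.1)) (red (P.m i) (P.xi i r.2.1 t.2.1))
        (red (P.m i) (P.xi i r.2.2 t.2.2)))
    refine le_trans (le_of_eq h3) ?_
    calc _ ≤ ∏ _i : Fin d, (2 : ℝ) := Finset.prod_le_prod
          (fun i _ => ex_nonneg fun _ => le_trans zero_le_one (one_le_Wt _ _ _ _))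
          fun i _ => P.ex_W i r
      _ = _ := by simp
  calc _ ≤ ex (fun r : Fin (P.p ^ 3) × Fin (P.p ^ 3) × Fin (P.p ^ 3) =>
        ind (r.1 = r.2.1 ∨ r.1 = r.2.2 ∨ r.2.1 = r.2.2) * 2 ^ d) :=
        ex_mono fun r => mul_le_mul_of_nonneg_left (h1 r) (ind_nonneg _)
    _ ≤ _ := by
        rw [ex_mul_const]
        have := pr_coin (A := Fin (P.p ^ 3))
        rw [Fintype.card_fin, Nat.cast_pow] at this
        gcongr

theorem eps3 (J : ℕ) (hJ : 2 * (2 * P.N) ^ 2 ≤ 2 ^ J) :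
    ex (fun x : P.Pt × P.Pt × P.Pt => pr fun ω => P.B3 ω x.1 x.2.1 x.2.2) ≤
      10 ^ 12 * 12 ^ d * (J + 1) / ((P.p : ℝ) ^ 2 * (P.M : ℝ) ^ 2 * (P.Q : ℝ) ^ 3) := by
  have hp : (1 : ℝ) ≤ P.p := by exact_mod_cast P.hp.one_lt.le
  have hq : (0 : ℝ) < P.q := by exact_mod_cast P.hq.pos
  have hM : (0 : ℝ) < P.M := by exact_mod_cast P.M_pos
  have hQ : (0 : ℝ) < P.Q := by exact_mod_cast P.hQ.pos
  refine le_trans (ex_mono fun x => P.pointwise J hJ x.1 x.2.1 x.2.2) ?_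
  rw [ex_const_mul]
  have h := ex_tri (fun (s : ZMod P.q × ZMod P.q × ZMod P.q) (y : P.Rest × P.Rest × P.Rest) =>
    (1 + P.m0 * ind (s.1 = s.2.1 ∧ s.1 = s.2.2)) * P.WR y +
      ind (s.1 = s.2.1 ∨ s.1 = s.2.2 ∨ s.2.1 = s.2.2) * (P.M' : ℝ) ^ 5)
  have h1 : ex (fun x : P.Pt × P.Pt × P.Pt =>
      (1 + P.m0 * ind (x.1.1 = x.2.1.1 ∧ x.1.1 = x.2.2.1)) *
        (ind (P.rc x.1 x.2.1 x.2.2) * P.WW x.1 x.2.1 x.2.2) +
        ind (x.1.1 = x.2.1.1 ∨ x.1.1 = x.2.2.1 ∨ x.2.1.1 = x.2.2.1) * (P.M' : ℝ) ^ 5) ≤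
      54 * 2 ^ d / (P.p : ℝ) ^ 2 := by
    refine le_trans (le_of_eq h) ?_
    simp only [ex_add, ex_const_mul, ex_mul_const, ex_const]
    rw [pr_all]
    have a1 := pr_coin (A := ZMod P.q)
    rw [ZMod.card] at a1 ⊢
    have a2 := P.ex_WR
    have a3 : (P.m0 : ℝ) * (1 / (P.q : ℝ) ^ 2) ≤ 16 * P.p := by
      rw [mul_one_div, div_le_iff₀ (by positivity)]
      exact_mod_cast P.m0_hi
    have a4 : 3 / (P.q : ℝ) * (P.M' : ℝ) ^ 5 ≤ 3 / (P.p : ℝ) ^ 2 := by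
      rw [div_mul_eq_mul_div, div_le_div_iff₀ hq (by positivity)]
      have : (P.M' : ℝ) ^ 5 * (P.p : ℝ) ^ 2 ≤ P.q := by exact_mod_cast P.q_lo
      linarith
    have a5 : (1 : ℝ) ≤ 2 ^ d := one_le_pow₀ (by norm_num)
    have a6 : (1 + (P.m0 : ℝ) * (1 / (P.q : ℝ) ^ 2)) * ex P.WR ≤
        (17 * P.p) * (3 / (P.p : ℝ) ^ 3 * 2 ^ d) :=
      mul_le_mul (by linarith) a2 (ex_nonneg fun y => mul_nonneg (ind_nonneg _)
        (Finset.prod_nonneg fun _ _ => le_trans zero_le_one (one_le_Wt _ _ _ _))) (by positivity)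
    have a7 : (17 * P.p) * (3 / (P.p : ℝ) ^ 3 * 2 ^ d) = 51 * 2 ^ d / (P.p : ℝ) ^ 2 := by
      field_simp; ring
    have a8 : 3 / (P.p : ℝ) ^ 2 ≤ 3 * 2 ^ d / (P.p : ℝ) ^ 2 := by gcongr; linarith
    have a9 := mul_le_mul_of_nonneg_right a1 (show (0 : ℝ) ≤ (P.M' : ℝ) ^ 5 by positivity)
    have a10 : 54 * 2 ^ d / (P.p : ℝ) ^ 2 = 51 * 2 ^ d / (P.p : ℝ) ^ 2 + 3 * 2 ^ d / (P.p : ℝ) ^ 2 := by
      ring
    linarith
  refine le_trans (mul_le_mul_of_nonneg_left h1 (P.Th_nonneg J)) ?_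
  have e : P.Th J * (54 * 2 ^ d / (P.p : ℝ) ^ 2) =
      (10 ^ 8 * 64 * 54) * 12 ^ d * (J + 1) / ((P.p : ℝ) ^ 2 * (P.M : ℝ) ^ 2 * (P.Q : ℝ) ^ 3) := by
    rw [Th, N, show (12 : ℝ) ^ d = 6 ^ d * 2 ^ d by rw [← mul_pow]; norm_num]
    push_cast
    field_simp
    ring
  rw [e]
  gcongr
  norm_num

theorem eps2 : ex (fun x : P.Pt × P.Pt => pr fun ω => P.B2 ω x.1 x.2) ≤
    163 * (P.M : ℝ) ^ 4 / (P.Q : ℝ) ^ 2 := by
  have hM : (1 : ℝ) ≤ P.M := by exact_mod_cast P.M_pos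
  have hQ : (0 : ℝ) < P.Q := by exact_mod_cast P.hQ.pos
  have hN0 : (0 : ℤ) < P.N := by exact_mod_cast P.N_pos
  have h1 : ∀ a b : P.Pt, pr (fun ω => P.B2 ω a b) ≤
      ind (a.2.2.2 = b.2.2.2) + 162 * (P.M : ℝ) ^ 4 / (P.Q : ℝ) ^ 2 := by
    intro a b
    by_cases hab : a.2.2.2 = b.2.2.2
    · rw [ind_pos hab]
      have : 0 ≤ 162 * (P.M : ℝ) ^ 4 / (P.Q : ℝ) ^ 2 := by positivity
      linarith [pr_le_one (fun ω => P.B2 ω a b)]
    · rw [ind_neg hab, zero_add]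
      have h2 := pr_le_card_mul (par (2 * P.N)) (fun t ω => (P.V ω a, P.V ω b) = t)
        (fun ω => P.B2 ω a b) (2 / (P.Q : ℝ) ^ 6) (fun ω hω => ⟨_, by
          classical
          simp only [par, Finset.mem_filter, Finset.mem_product]
          refine ⟨⟨mem_pbox.mpr (P.V_range ω a), mem_pbox.mpr (P.V_range ω b)⟩, fun h0 => ?_,
            hω.resolve_left hab⟩
          have := (P.V_zero ω a).1
          rw [h0] at this
          simp only [Pi.zero_apply] at this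
          omega, rfl⟩) (fun t _ => by
          let E2 : Gs (ZMod P.Q) 1 × (Fin 3 → ZMod P.Q) → Prop := fun g =>
            g.1.1 *ᵥ P.cap a.2.2.2 + g.2 = red P.Q t.1 ∧ g.1.1 *ᵥ P.cap b.2.2.2 + g.2 = red P.Q t.2
          have a3 : pr E2 ≤ 2 / (P.Q : ℝ) ^ 6 := by
            have := pr_aff_two _ _ (red P.Q t.1) (red P.Q t.2) (P.cap_inj _ _ hab)
            rwa [ZMod.card] at this
          refine le_trans ?_ a3
          calc _ ≤ pr (fun ω : P.Om => E2 ω.2.2) := by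
                refine pr_mono fun ω hω => ?_
                subst hω
                exact ⟨(P.red_VQ ω a).symm, (P.red_VQ ω b).symm⟩
            _ = _ := by
                unfold pr
                rw [ex_prod]
                simp only [ex_prod (fun y : (∀ i, Gs (ZMod (P.m i)) (P.li i)) ×
                  (Gs (ZMod P.Q) 1 × (Fin 3 → ZMod P.Q)) => ind (E2 y.2)), ex_const])
      have h3 : ((par (2 * P.N)).card : ℝ) ≤ (3 * (P.M * P.Q)) ^ 4 := by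
        have a1 := card_par (2 * P.N)
        have a2 : (2 * P.N + 1) ^ 4 ≤ (3 * P.N) ^ 4 :=
          Nat.pow_le_pow_left (by have := P.N_pos; omega) 4
        have := le_trans a1 a2
        unfold N at this ⊢
        exact_mod_cast this
      calc _ ≤ _ := h2
        _ ≤ (3 * (P.M * P.Q)) ^ 4 * (2 / (P.Q : ℝ) ^ 6) := by gcongr
        _ = _ := by field_simp; ring
  refine le_trans (ex_mono fun x => h1 x.1 x.2) ?_
  rw [ex_add, ex_const]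
  have h2 : ex (fun x : P.Pt × P.Pt => ind (x.1.2.2.2 = x.2.2.2.2)) = 1 / (P.Q : ℝ) ^ 2 := by
    rw [ex_prod]
    have : ∀ a : P.Pt, ex (fun b : P.Pt => ind (a.2.2.2 = b.2.2.2)) = 1 / (P.Q : ℝ) ^ 2 := by
      intro a
      rw [ex_prod]
      simp only [ex_prod (fun y : P.Rest => ind (a.2.2.2 = y.2.2)),
        ex_prod (fun y : (Fin d → Fin 3 → Fin (P.p ^ 4)) × (ZMod P.Q × ZMod P.Q) =>
          ind (a.2.2.2 = y.2)), ex_const, ex_ind_eq]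
      simp [ZMod.card, sq]
    simp only [this, ex_const]
  rw [h2]
  have : 1 / (P.Q : ℝ) ^ 2 ≤ (P.M : ℝ) ^ 4 / (P.Q : ℝ) ^ 2 := by
    gcongr; exact one_le_pow₀ hM
  calc _ ≤ (P.M : ℝ) ^ 4 / (P.Q : ℝ) ^ 2 + 162 * (P.M : ℝ) ^ 4 / (P.Q : ℝ) ^ 2 := by linarith
    _ = _ := by ring

theorem core (J : ℕ) (hJ : 2 * (2 * P.N) ^ 2 ≤ 2 ^ J) (n : ℕ)
    (h2 : 1304 * n * P.M ^ 4 ≤ P.Q ^ 2)
    (h3 : 16 * (10 ^ 12 * 12 ^ d) * (J + 1) * n ^ 2 ≤ P.p ^ 2 * P.M ^ 2 * P.Q ^ 3) :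
    ∃ V : Fin n → V3, (∀ i, (P.N : ℤ) ≤ V i 0 ∧ V i 0 < 2 * P.N ∧ 0 ≤ V i 1 ∧ V i 1 < P.N ∧
      0 ≤ V i 2 ∧ V i 2 < P.N) ∧ (∀ i j, i ≠ j → cr (V i) (V j) ≠ 0) ∧
      ∀ i j k, i ≠ j → i ≠ k → j ≠ k → (P.M : ℤ) ≤ 2 * P.p * |dot (cr (V i) (V j)) (V k)| := by
  have hp : (0 : ℝ) < P.p := by exact_mod_cast P.hp.pos
  have hM : (0 : ℝ) < P.M := by exact_mod_cast P.M_pos
  have hQ : (0 : ℝ) < P.Q := by exact_mod_cast P.hQ.pos
  obtain ⟨ω, f, hf2, hf3⟩ := alteration n P.B2 P.B3 _ _ P.eps2 (P.eps3 J hJ) (by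
    have a2 : 4 * (n : ℝ) * (163 * (P.M : ℝ) ^ 4 / (P.Q : ℝ) ^ 2) ≤ 1 / 2 := by
      rw [← mul_div_assoc, div_le_div_iff₀ (by positivity) (by norm_num)]
      have : 1304 * (n : ℝ) * (P.M : ℝ) ^ 4 ≤ (P.Q : ℝ) ^ 2 := by exact_mod_cast h2
      linarith
    have a3 : 8 * (n : ℝ) ^ 2 * (10 ^ 12 * 12 ^ d * (J + 1) /
        ((P.p : ℝ) ^ 2 * (P.M : ℝ) ^ 2 * (P.Q : ℝ) ^ 3)) ≤ 1 / 2 := by
      rw [← mul_div_assoc, div_le_div_iff₀ (by positivity) (by norm_num)]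
      have : 16 * (10 ^ 12 * 12 ^ d) * ((J : ℝ) + 1) * (n : ℝ) ^ 2 ≤
          (P.p : ℝ) ^ 2 * (P.M : ℝ) ^ 2 * (P.Q : ℝ) ^ 3 := by exact_mod_cast h3
      linarith
    linarith)
  refine ⟨fun i => P.V ω (f i), fun i => ?_, fun i j hij h => hf2 i j hij (Or.inr h),
    fun i j k hij hik hjk => ?_⟩
  · have a0 := P.V_zero ω (f i)
    have a1 := P.V_ne ω (f i) 1 (by decide)
    have a2 := P.V_ne ω (f i) 2 (by decide)
    exact ⟨a0.1, a0.2, a1.1, a1.2, a2.1, a2.2⟩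
  · by_contra hc
    exact hf3 i j k hij hik hjk ⟨hf2 i j hij, hf2 i k hik, hf2 j k hjk, not_le.mp hc⟩

end Par

end Crest.Agent.R032
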