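import Crest.Agent.R032.Orbit

/-!
A sum of boundedly many determinants that does not vanish on distinct triples (row 32).
-/

set_option autoImplicit false

namespace Crest.Agent.R032

open Finset Matrix

/-- Tensor rank at most `D`. -/
def Rk {F S : Type} [CommRing S] (D : ℕ) (G : F → F → F → S) : Prop :=
  ∃ (ι : Type) (_ : Fintype ι), Fintype.card ι = D ∧ ∃ α β γ : ι → F → S,
    ∀ x y z, G x y z = ∑ i, α i x * β i y * γ i z

section
variable {F S : Type} [CommRing S]

lemma Rk.mono (a b c : F → S) : Rk 1 fun x y z => a x * b y * c z :=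
  ⟨Unit, inferInstance, by simp, fun _ => a, fun _ => b, fun _ => c, by simp⟩

lemma Rk.add {D D' : ℕ} {G G' : F → F → F → S} (h : Rk D G) (h' : Rk D' G') :
    Rk (D + D') fun x y z => G x y z + G' x y z := by
  obtain ⟨ι, _, rfl, α, β, γ, e⟩ := h
  obtain ⟨ι', _, rfl, α', β', γ', e'⟩ := h'
  refine ⟨ι ⊕ ι', inferInstance, by simp, Sum.elim α α', Sum.elim β β', Sum.elim γ γ', ?_⟩
  intro x y z
  simp [Fintype.sum_sum_type, e, e']

lemma Rk.neg {D : ℕ} {G : F → F → F → S} (h : Rk D G) : Rk D fun x y z => - G x y z := by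
  obtain ⟨ι, _, rfl, α, β, γ, e⟩ := h
  refine ⟨ι, inferInstance, rfl, fun i x => - α i x, β, γ, ?_⟩
  intro x y z
  simp [e]

lemma Rk.sub {D D' : ℕ} {G G' : F → F → F → S} (h : Rk D G) (h' : Rk D' G') :
    Rk (D + D') fun x y z => G x y z - G' x y z := by
  simpa [sub_eq_add_neg] using h.add h'.neg

lemma Rk.mul {D D' : ℕ} {G G' : F → F → F → S} (h : Rk D G) (h' : Rk D' G') :
    Rk (D * D') fun x y z => G x y z * G' x y z := by
  obtain ⟨ι, _, rfl, α, β, γ, e⟩ := h
  obtain ⟨ι', _, rfl, α', β', γ', e'⟩ := h'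
  refine ⟨ι × ι', inferInstance, by simp, fun i x => α i.1 x * α' i.2 x,
    fun i x => β i.1 x * β' i.2 x, fun i x => γ i.1 x * γ' i.2 x, ?_⟩
  intro x y z
  beta_reduce
  rw [e, e', Finset.sum_mul_sum, Fintype.sum_prod_type]
  refine Finset.sum_congr rfl fun i _ => Finset.sum_congr rfl fun j _ => by ring

lemma Rk.congr {D : ℕ} {G G' : F → F → F → S} (h : Rk D G) (e : ∀ x y z, G' x y z = G x y z) :
    Rk D G' := by
  have : G' = G := by funext x y z; exact e x y z
  rwa [this]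

lemma Rk.lin {K : Type} [CommRing K] [Algebra K S] (b : Module.Basis (Fin 3) K S) (l : S →ₗ[K] K)
    {D : ℕ} {G : F → F → F → S} (h : Rk D G) : Rk (D * 27) fun x y z => l (G x y z) := by
  obtain ⟨ι, _, rfl, α, β, γ, e⟩ := h
  refine ⟨ι × Fin 3 × Fin 3 × Fin 3, inferInstance, by simp,
    fun i x => b.repr (α i.1 x) i.2.1 * l (b i.2.1 * b i.2.2.1 * b i.2.2.2),
    fun i x => b.repr (β i.1 x) i.2.2.1, fun i x => b.repr (γ i.1 x) i.2.2.2, ?_⟩
  intro x y z
  beta_reduce
  rw [e, map_sum, Fintype.sum_prod_type]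
  refine Finset.sum_congr rfl fun i _ => ?_
  conv_lhs => rw [← b.sum_repr (α i x), ← b.sum_repr (β i y), ← b.sum_repr (γ i z)]
  simp only [Finset.sum_mul, Finset.mul_sum, map_sum, Fintype.sum_prod_type, smul_mul_smul_comm,
    map_smul, smul_eq_mul]
  simp only [Fin.sum_univ_three]
  ring

lemma Rk.vander : Rk 6 fun x y z : S => (y - x) * (z - x) * (z - y) := by
  have h := (((((Rk.mono (F := S) (S := S) (fun _ => 1) (fun y => y) (fun z => z ^ 2)).sub
    (Rk.mono (fun _ => 1) (fun y => y ^ 2) (fun z => z))).sub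
    (Rk.mono (fun x => x) (fun _ => 1) (fun z => z ^ 2))).add
    (Rk.mono (fun x => x) (fun y => y ^ 2) (fun _ => 1))).add
    (Rk.mono (fun x => x ^ 2) (fun _ => 1) (fun z => z))).sub
    (Rk.mono (fun x => x ^ 2) (fun y => y) (fun _ => 1))
  exact h.congr fun x y z => by ring

lemma Rk.norm {K : Type} [CommRing K] [Algebra K S] (b : Module.Basis (Fin 3) K S)
    {D : ℕ} {G : F → F → F → S} (h : Rk D G) :
    Rk (6 * (D * 27) ^ 3) fun x y z => Algebra.norm K (G x y z) := by
  have ent : ∀ k l : Fin 3, Rk (D * 27) fun x y z => Algebra.leftMulMatrix b (G x y z) k l := by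
    intro k l
    refine (Rk.lin b ((b.coord k).comp (LinearMap.mulRight K (b l))) h).congr fun x y z => ?_
    simp [Algebra.leftMulMatrix_eq_repr_mul]
  have h6 := (((((((ent 0 0).mul (ent 1 1)).mul (ent 2 2)).sub
    (((ent 0 0).mul (ent 1 2)).mul (ent 2 1))).sub
    (((ent 0 1).mul (ent 1 0)).mul (ent 2 2))).add
    (((ent 0 1).mul (ent 1 2)).mul (ent 2 0))).add
    (((ent 0 2).mul (ent 1 0)).mul (ent 2 1))).sub
    (((ent 0 2).mul (ent 1 1)).mul (ent 2 0))
  have e : 6 * (D * 27) ^ 3 = D * 27 * (D * 27) * (D * 27) + D * 27 * (D * 27) * (D * 27) +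
      D * 27 * (D * 27) * (D * 27) + D * 27 * (D * 27) * (D * 27) +
      D * 27 * (D * 27) * (D * 27) + D * 27 * (D * 27) * (D * 27) := by ring
  rw [e]
  exact h6.congr fun x y z => by
    rw [Algebra.norm_eq_matrix_det b, Matrix.det_fin_three]

lemma norm_neg3 {K : Type} [CommRing K] [Algebra K S] (b : Module.Basis (Fin 3) K S) (v : S) :
    Algebra.norm K (-v) = - Algebra.norm K v := by
  rw [Algebra.norm_eq_matrix_det b, Algebra.norm_eq_matrix_det b, map_neg, Matrix.det_neg]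
  simp only [Fintype.card_fin]
  ring

end

theorem exists_tensor : ∃ d : ℕ, ∀ (p : ℕ) [Fact p.Prime], 5 ≤ p →
    ∃ φ : Fin d → Fin (p ^ 3) → Fin 3 → ZMod p, ∀ x y z, x ≠ y → x ≠ z → y ≠ z →
      ∑ i, dot (cr (φ i x) (φ i y)) (φ i z) ≠ 0 := by
  refine ⟨6 * (6 * 27) ^ 3, fun p _ hp => ?_⟩
  let F := GaloisField p 3
  have b : Module.Basis (Fin 3) (ZMod p) F :=
    Module.finBasisOfFinrankEq (ZMod p) F (GaloisField.finrank p (by norm_num))
  have eF : F ≃ Fin (p ^ 3) := Finite.equivFinOfCardEq (GaloisField.card p 3 (by norm_num))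
  obtain ⟨ι, _, hι, α, β, γ, e⟩ := Rk.norm b (Rk.vander (S := F))
  let eι := Fintype.equivFinOfCardEq hι
  refine ⟨fun i r => ![α (eι.symm i) (eF.symm r), β (eι.symm i) (eF.symm r),
    γ (eι.symm i) (eF.symm r)], fun x y z hxy hxz hyz => ?_⟩
  set x' := eF.symm x
  set y' := eF.symm y
  set z' := eF.symm z
  have h1 : x' ≠ y' := eF.symm.injective.ne hxy
  have h2 : x' ≠ z' := eF.symm.injective.ne hxz
  have h3 : y' ≠ z' := eF.symm.injective.ne hyz
  rw [Equiv.sum_comp eι.symm (fun i => dot (cr ![α i x', β i x', γ i x'] ![α i y', β i y', γ i y'])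
    ![α i z', β i z', γ i z'])]
  set v := (y' - x') * (z' - x') * (z' - y') with hv
  have hv0 : v ≠ 0 := mul_ne_zero (mul_ne_zero (sub_ne_zero.mpr h1.symm) (sub_ne_zero.mpr h2.symm))
    (sub_ne_zero.mpr h3.symm)
  have a1 := e x' y' z'
  have a2 := e y' z' x'
  have a3 := e z' x' y'
  have a4 := e y' x' z'
  have a5 := e x' z' y'
  have a6 := e z' y' x'
  simp only at a1 a2 a3 a4 a5 a6
  rw [show (z' - y') * (x' - y') * (x' - z') = v by rw [hv]; ring] at a2
  rw [show (x' - z') * (y' - z') * (y' - x') = v by rw [hv]; ring] at a3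
  rw [show (x' - y') * (z' - y') * (z' - x') = -v by rw [hv]; ring, norm_neg3 b] at a4
  rw [show (z' - x') * (y' - x') * (y' - z') = -v by rw [hv]; ring, norm_neg3 b] at a5
  rw [show (y' - z') * (x' - z') * (x' - y') = -v by rw [hv]; ring, norm_neg3 b] at a6
  rw [← hv] at a1
  have key : ∑ i, dot (cr ![α i x', β i x', γ i x'] ![α i y', β i y', γ i y'])
      ![α i z', β i z', γ i z'] = 6 * Algebra.norm (ZMod p) v := by
    have : ∑ i, dot (cr ![α i x', β i x', γ i x'] ![α i y', β i y', γ i y'])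
        ![α i z', β i z', γ i z'] = ∑ i, α i x' * β i y' * γ i z' + ∑ i, α i y' * β i z' * γ i x' +
        ∑ i, α i z' * β i x' * γ i y' - ∑ i, α i y' * β i x' * γ i z' -
        ∑ i, α i x' * β i z' * γ i y' - ∑ i, α i z' * β i y' * γ i x' := by
      simp only [← Finset.sum_add_distrib, ← Finset.sum_sub_distrib]
      refine Finset.sum_congr rfl fun i _ => ?_
      simp [dot]; ring
    rw [this, ← a1, ← a2, ← a3, ← a4, ← a5, ← a6]; ring
  rw [key]
  refine mul_ne_zero ?_ ((Algebra.norm_ne_zero_iff_of_basis b).mpr hv0)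
  intro h6
  have : ((6 : ℕ) : ZMod p) = 0 := by exact_mod_cast h6
  rw [ZMod.natCast_eq_zero_iff] at this
  have hp' : p.Prime := Fact.out
  have h7 := Nat.le_of_dvd (by norm_num) this
  have h8 : p = 5 ∨ p = 6 := by omega
  rcases h8 with h8 | h8
  · rw [h8] at this; norm_num at this
  · rw [h8] at hp'; norm_num at hp'

end Crest.Agent.R032
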