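import Crest.Agent.R032.Expect
import Crest.Agent.R032.Tensor

/-!
Choice of the parameters and passage to points of the unit square (row 32).
-/

set_option autoImplicit false

namespace Crest.Agent.R032

open Finset

theorem exists_par : ∃ d : ℕ, ∀ p : ℕ, p.Prime → 5 ≤ p → 24 * d * 2 ^ d ≤ p →
    ∃ M : ℕ, p ≤ M ∧ M ≤ p ^ (176 * d + 8) ∧ ∀ Q : ℕ, Q.Prime → M ^ 14 ≤ Q →
      ∃ P : Par d, P.p = p ∧ P.M = M ∧ P.Q = Q := by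
  obtain ⟨d, hd⟩ := exists_tensor
  refine ⟨d, fun p hp h5 hpd => ?_⟩
  haveI : Fact p.Prime := ⟨hp⟩
  obtain ⟨φ, hφ⟩ := hd p h5
  have hp0 := hp.pos
  have hm : ∀ i : Fin d, ∃ m, Nat.Prime m ∧ 2 ^ (i : ℕ) * (24 * d * p ^ 15) < m ∧
      m ≤ 2 * (2 ^ (i : ℕ) * (24 * d * p ^ 15)) := fun i =>
    Nat.exists_prime_lt_and_le_two_mul _ (by have := i.pos; positivity)
  choose m hm hlo hhi using hm
  have hlt : ∀ i j : Fin d, i < j → m i < m j := by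
    intro i j hij
    have h1 : 2 ^ ((i : ℕ) + 1) ≤ 2 ^ (j : ℕ) := Nat.pow_le_pow_right (by norm_num) hij
    calc m i ≤ 2 * (2 ^ (i : ℕ) * (24 * d * p ^ 15)) := hhi i
      _ = 2 ^ ((i : ℕ) + 1) * (24 * d * p ^ 15) := by ring
      _ ≤ 2 ^ (j : ℕ) * (24 * d * p ^ 15) := Nat.mul_le_mul_right _ h1
      _ < m j := hlo j
  have hinj : Function.Injective m := StrictMono.injective fun i j hij => hlt i j hij
  have m_hi : ∀ i, m i ≤ p ^ 16 := by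
    intro i
    have h1 : 2 ^ ((i : ℕ) + 1) ≤ 2 ^ d := Nat.pow_le_pow_right (by norm_num) i.2
    calc m i ≤ 2 * (2 ^ (i : ℕ) * (24 * d * p ^ 15)) := hhi i
      _ = 2 ^ ((i : ℕ) + 1) * (24 * d * p ^ 15) := by ring
      _ ≤ 2 ^ d * (24 * d * p ^ 15) := Nat.mul_le_mul_right _ h1
      _ = (24 * d * 2 ^ d) * p ^ 15 := by ring
      _ ≤ p * p ^ 15 := Nat.mul_le_mul_right _ hpd
      _ = p ^ 16 := by ring
  have m_lo : ∀ i, 24 * d * p ^ 15 ≤ m i := fun i =>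
    le_trans (Nat.le_mul_of_pos_left _ (by positivity)) (hlo i).le
  have hM'0 : 0 < ∏ i, m i := Finset.prod_pos fun i _ => (hm i).pos
  have hM' : ∏ i, m i ≤ p ^ (16 * d) := by
    calc ∏ i, m i ≤ ∏ _i : Fin d, p ^ 16 := Finset.prod_le_prod' fun i _ => m_hi i
      _ = _ := by simp [pow_mul]
  obtain ⟨q, hq, q_lo, q_hi⟩ := Nat.exists_prime_lt_and_le_two_mul ((∏ i, m i) ^ 5 * p ^ 2)
    (by positivity)
  have hq0 := hq.pos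
  obtain ⟨m0, hm0, m0_lo, m0_hi⟩ := Nat.exists_prime_lt_and_le_two_mul (8 * p * q ^ 2)
    (by positivity)
  refine ⟨m0 * ∏ i, m i, ?_, ?_, fun Q hQ hQM => ?_⟩
  · have h1 : 1 ≤ q ^ 2 := Nat.one_le_pow _ _ hq0
    have h2 : p ≤ m0 := by nlinarith
    exact le_trans h2 (Nat.le_mul_of_pos_right _ hM'0)
  · have h1 : q ≤ 2 * ((p ^ (16 * d)) ^ 5 * p ^ 2) :=
      le_trans q_hi (by gcongr)
    have h2 : 64 ≤ p ^ 3 := le_trans (by norm_num) (Nat.pow_le_pow_left h5 3)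
    calc m0 * ∏ i, m i ≤ 2 * (8 * p * (2 * ((p ^ (16 * d)) ^ 5 * p ^ 2)) ^ 2) * p ^ (16 * d) :=
          Nat.mul_le_mul (le_trans m0_hi (by gcongr)) hM'
      _ = 64 * p ^ (176 * d + 5) := by ring
      _ ≤ p ^ 3 * p ^ (176 * d + 5) := Nat.mul_le_mul_right _ h2
      _ = _ := by ring
  · haveI : Fact Q.Prime := ⟨hQ⟩
    have hQ2 : Q ≠ 2 := by
      have h1 : 2 ≤ m0 * ∏ i, m i := le_trans hm0.two_le (Nat.le_mul_of_pos_right _ hM'0)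
      have h2 : 2 ^ 14 ≤ (m0 * ∏ i, m i) ^ 14 := Nat.pow_le_pow_left h1 14
      omega
    obtain ⟨ν, hν⟩ := FiniteField.exists_nonsquare (F := ZMod Q)
      (by rw [ZMod.ringChar_zmod_n]; exact hQ2)
    exact ⟨⟨p, q, m0, Q, m, hp, hq, hm0, hQ, hm, hinj, φ, hφ, ν, hν, m_lo, m_hi, q_lo.le,
      m0_lo.le, by linarith, hQM⟩, rfl, rfl, rfl⟩

theorem geom (n N : ℕ) (hN : 0 < N) (V : Fin n → V3)
    (hV : ∀ i, (N : ℤ) ≤ V i 0 ∧ V i 0 < 2 * N ∧ 0 ≤ V i 1 ∧ V i 1 < N ∧ 0 ≤ V i 2 ∧ V i 2 < N)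
    (h2 : ∀ i j, i ≠ j → cr (V i) (V j) ≠ 0) (δ : ℝ)
    (h3 : ∀ i j k, i ≠ j → i ≠ k → j ≠ k → δ ≤ |((dot (cr (V i) (V j)) (V k) : ℤ) : ℝ)|) :
    ∃ P : Finset (ℝ × ℝ), P.card = n ∧
      (∀ p ∈ P, 0 ≤ p.1 ∧ p.1 ≤ 1 ∧ 0 ≤ p.2 ∧ p.2 ≤ 1) ∧
      ∀ p ∈ P, ∀ q ∈ P, ∀ r ∈ P, p ≠ q → p ≠ r → q ≠ r →
        δ / (16 * (N : ℝ) ^ 3) ≤
          |(q.1 - p.1) * (r.2 - p.2) - (q.2 - p.2) * (r.1 - p.1)| / 2 := by
  classical
  have hN' : (0 : ℝ) < N := by exact_mod_cast hN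
  have hR : ∀ i, (N : ℝ) ≤ V i 0 ∧ (V i 0 : ℝ) < 2 * N ∧ (0 : ℝ) ≤ V i 1 ∧ (V i 1 : ℝ) < N ∧
      (0 : ℝ) ≤ V i 2 ∧ (V i 2 : ℝ) < N := fun i => by exact_mod_cast hV i
  have hZ : ∀ i, (0 : ℝ) < V i 0 := fun i => lt_of_lt_of_le hN' (hR i).1
  let f : Fin n → ℝ × ℝ := fun i => ((V i 1 : ℝ) / V i 0, (V i 2 : ℝ) / V i 0)
  have hf : Function.Injective f := by
    intro i j hij
    by_contra hne
    apply h2 i j hne
    obtain ⟨e1, e2⟩ := Prod.mk.inj hij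
    rw [div_eq_div_iff (hZ i).ne' (hZ j).ne'] at e1 e2
    have a1 : V i 1 * V j 0 = V j 1 * V i 0 := by exact_mod_cast e1
    have a2 : V i 2 * V j 0 = V j 2 * V i 0 := by exact_mod_cast e2
    have a0 : V i 0 ≠ 0 := by exact_mod_cast (hZ i).ne'
    rw [cr_eq_zero_iff]
    refine ⟨mul_left_cancel₀ a0 ?_, by linear_combination a2, by linear_combination -a1⟩
    linear_combination V i 2 * a1 - V i 1 * a2
  refine ⟨univ.image f, by rw [Finset.card_image_of_injective _ hf]; simp, ?_, ?_⟩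
  · intro p hp
    obtain ⟨i, -, rfl⟩ := Finset.mem_image.mp hp
    obtain ⟨a1, a2, a3, a4, a5, a6⟩ := hR i
    exact ⟨div_nonneg a3 (hZ i).le, (div_le_one (hZ i)).mpr (by linarith),
      div_nonneg a5 (hZ i).le, (div_le_one (hZ i)).mpr (by linarith)⟩
  · intro p hp q hq r hr hpq hpr hqr
    obtain ⟨i, -, rfl⟩ := Finset.mem_image.mp hp
    obtain ⟨j, -, rfl⟩ := Finset.mem_image.mp hq
    obtain ⟨k, -, rfl⟩ := Finset.mem_image.mp hr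
    have h4 := h3 i j k (fun h => hpq (by rw [h])) (fun h => hpr (by rw [h]))
      (fun h => hqr (by rw [h]))
    have zi := hZ i
    have zj := hZ j
    have zk := hZ k
    have e : ((f j).1 - (f i).1) * ((f k).2 - (f i).2) - ((f j).2 - (f i).2) * ((f k).1 - (f i).1) =
        ((dot (cr (V i) (V j)) (V k) : ℤ) : ℝ) / (V i 0 * V j 0 * V k 0) := by
      simp only [f, dot, cr_0, cr_1, cr_2]
      push_cast
      field_simp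
      ring
    rw [e, abs_div, abs_of_pos (show (0 : ℝ) < V i 0 * V j 0 * V k 0 by positivity), div_div]
    refine div_le_div₀ (abs_nonneg _) h4 (by positivity) ?_
    have b1 := (hR i).2.1.le
    have b2 := (hR j).2.1.le
    have b3 := (hR k).2.1.le
    calc (V i 0 : ℝ) * V j 0 * V k 0 * 2 ≤ (2 * N) * (2 * N) * (2 * N) * 2 := by gcongr
      _ = _ := by ring

lemma exists_b0 (k : ℕ) : ∃ b0 : ℕ, ∀ b, b0 ≤ b → 8 * (b + 1) ^ k ≤ 2 ^ b := by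
  have h := tendsto_pow_const_div_const_pow_of_one_lt k (r := 2) one_lt_two
  have h1 := h.eventually (gt_mem_nhds (show (0 : ℝ) < 1 / 16 by norm_num))
  obtain ⟨b0, hb0⟩ := Filter.eventually_atTop.mp h1
  refine ⟨b0, fun b hb => ?_⟩
  have h2 := hb0 (b + 1) (by omega)
  rw [div_lt_div_iff₀ (by positivity) (by norm_num), pow_succ (2 : ℝ)] at h2
  have h3 : (8 : ℝ) * ((b + 1 : ℕ) : ℝ) ^ k ≤ 2 ^ b := by linarith
  exact_mod_cast h3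

theorem main : ∃ E K b0 : ℕ, 0 < E ∧ 0 < K ∧ 0 < b0 ∧ ∀ n b : ℕ, b0 ≤ b → b ^ E ≤ n →
    n < (b + 1) ^ E → ∃ P : Finset (ℝ × ℝ), P.card = n ∧
      (∀ p ∈ P, 0 ≤ p.1 ∧ p.1 ≤ 1 ∧ 0 ≤ p.2 ∧ p.2 ≤ 1) ∧
      ∀ p ∈ P, ∀ q ∈ P, ∀ r ∈ P, p ≠ q → p ≠ r → q ≠ r →
        (b + 1) / (K * (n : ℝ) ^ 2) ≤
          |(q.1 - p.1) * (r.2 - p.2) - (q.2 - p.2) * (r.1 - p.1)| / 2 := by
  obtain ⟨d, hd⟩ := exists_par
  obtain ⟨C, hC⟩ : ∃ C, C = 176 * d + 8 := ⟨_, rfl⟩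
  rw [← hC] at hd
  obtain ⟨K, hK0, hcore⟩ : ∃ K : ℕ, 0 < K ∧ ∀ (P : Par d) (J : ℕ), 2 * (2 * P.N) ^ 2 ≤ 2 ^ J →
      ∀ n : ℕ, 1304 * n * P.M ^ 4 ≤ P.Q ^ 2 →
      16 * K * (J + 1) * n ^ 2 ≤ P.p ^ 2 * P.M ^ 2 * P.Q ^ 3 →
      ∃ V : Fin n → V3, (∀ i, (P.N : ℤ) ≤ V i 0 ∧ V i 0 < 2 * P.N ∧ 0 ≤ V i 1 ∧ V i 1 < P.N ∧
        0 ≤ V i 2 ∧ V i 2 < P.N) ∧ (∀ i j, i ≠ j → cr (V i) (V j) ≠ 0) ∧
        ∀ i j k, i ≠ j → i ≠ k → j ≠ k → (P.M : ℤ) ≤ 2 * P.p * |dot (cr (V i) (V j)) (V k)| :=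
    ⟨10 ^ 12 * 12 ^ d, by positivity, fun P J hJ n h2 h3 => P.core J hJ n h2 h3⟩
  obtain ⟨b1, hb1⟩ := exists_b0 (2 * (69 * C))
  refine ⟨69 * C, 2 ^ 17 * K, b1 + 24 * d * 2 ^ d + 1024 * K + 1304, by omega, by positivity,
    by omega, fun n b hb hlo hhi => ?_⟩
  have hb0 : 1304 ≤ b := by omega
  obtain ⟨p, hp, p_lo, p_hi⟩ := Nat.exists_prime_lt_and_le_two_mul (b ^ 2) (by positivity)
  have hbp : b + 1 ≤ p := by nlinarith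
  obtain ⟨M, hpM, hMp, hpar⟩ := hd p hp (by omega) (by omega)
  have hM0 : 0 < M := by omega
  have hp0 := hp.pos
  have hMn : M ^ 23 ≤ n := by
    have h1 : p ≤ b ^ 3 := by nlinarith
    calc M ^ 23 ≤ ((b ^ 3) ^ C) ^ 23 :=
          Nat.pow_le_pow_left (le_trans hMp (Nat.pow_le_pow_left h1 C)) 23
      _ = b ^ (69 * C) := by rw [← pow_mul, ← pow_mul]; congr 1; ring
      _ ≤ n := hlo
  have hn0 : 0 < n := lt_of_lt_of_le (by positivity) hMn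
  obtain ⟨X, hX⟩ : ∃ X, X = 16 * K * (b + 1) * n ^ 2 := ⟨_, rfl⟩
  have hXn : n ^ 2 ≤ X := by rw [hX]; exact Nat.le_mul_of_pos_left _ (by positivity)
  have hex : ∃ T : ℕ, X ≤ p ^ 2 * M ^ 2 * T ^ 3 :=
    ⟨X, le_trans (Nat.le_self_pow (by norm_num) X) (Nat.le_mul_of_pos_left _ (by positivity))⟩
  obtain ⟨T, hT1, hTmin⟩ : ∃ T : ℕ, X ≤ p ^ 2 * M ^ 2 * T ^ 3 ∧
      ∀ T' < T, ¬ X ≤ p ^ 2 * M ^ 2 * T' ^ 3 :=
    ⟨Nat.find hex, Nat.find_spec hex, fun _ h => Nat.find_min hex h⟩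
  have hpM2 : p ^ 2 * M ^ 2 ≤ M ^ 4 := by
    calc p ^ 2 * M ^ 2 ≤ M ^ 2 * M ^ 2 := by gcongr
      _ = _ := by ring
  have hTM : M ^ 14 ≤ T := by
    have h1 : M ^ 4 * (M ^ 14) ^ 3 ≤ M ^ 4 * T ^ 3 := by
      calc M ^ 4 * (M ^ 14) ^ 3 = (M ^ 23) ^ 2 := by ring
        _ ≤ n ^ 2 := Nat.pow_le_pow_left hMn 2
        _ ≤ p ^ 2 * M ^ 2 * T ^ 3 := le_trans hXn hT1
        _ ≤ _ := Nat.mul_le_mul_right _ hpM2
    exact (Nat.pow_le_pow_iff_left (by norm_num)).mp (Nat.le_of_mul_le_mul_left h1 (by positivity))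
  have hT2 : 2 ≤ T := le_trans (le_trans (by omega) (Nat.le_self_pow (by norm_num) M)) hTM
  have hT3 : p ^ 2 * M ^ 2 * (T - 1) ^ 3 < X :=
    not_le.mp (hTmin _ (show T - 1 < T by omega))
  obtain ⟨Q, hQ, Q_lo, Q_hi⟩ := Nat.exists_prime_lt_and_le_two_mul T (by omega)
  have hQ1 : X ≤ p ^ 2 * M ^ 2 * Q ^ 3 := le_trans hT1 (by gcongr)
  have hQ2 : p ^ 2 * M ^ 2 * Q ^ 3 ≤ 64 * X := by
    calc p ^ 2 * M ^ 2 * Q ^ 3 ≤ p ^ 2 * M ^ 2 * (4 * (T - 1)) ^ 3 := by gcongr; omega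
      _ = 64 * (p ^ 2 * M ^ 2 * (T - 1) ^ 3) := by ring
      _ ≤ _ := by omega
  obtain ⟨P, rfl, rfl, rfl⟩ := hpar Q hQ (by omega)
  have hNn : P.N ≤ n := by
    have h1 : P.N ^ 3 ≤ n ^ 3 := by
      have a1 : 1 ≤ P.p ^ 2 := Nat.one_le_pow _ _ hp0
      calc P.N ^ 3 = P.M * (1 * P.M ^ 2 * P.Q ^ 3) := by rw [Par.N]; ring
        _ ≤ P.M * (P.p ^ 2 * P.M ^ 2 * P.Q ^ 3) := by gcongr
        _ ≤ P.M * (64 * X) := by gcongr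
        _ = (P.M * (1024 * K) * (b + 1)) * n ^ 2 := by rw [hX]; ring
        _ ≤ (P.M * P.M * P.M) * n ^ 2 := by gcongr <;> omega
        _ = P.M ^ 3 * n ^ 2 := by ring
        _ ≤ n * n ^ 2 := Nat.mul_le_mul_right _
            (le_trans (Nat.pow_le_pow_right hM0 (by norm_num)) hMn)
        _ = n ^ 3 := by ring
    exact (Nat.pow_le_pow_iff_left (by norm_num)).mp h1
  have hJ : 2 * (2 * P.N) ^ 2 ≤ 2 ^ b := by
    calc 2 * (2 * P.N) ^ 2 = 8 * P.N ^ 2 := by ring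
      _ ≤ 8 * ((b + 1) ^ (69 * C)) ^ 2 := by gcongr; omega
      _ = 8 * (b + 1) ^ (2 * (69 * C)) := by rw [← pow_mul, mul_comm (69 * C)]
      _ ≤ _ := hb1 b (by omega)
  have h2 : 1304 * n * P.M ^ 4 ≤ P.Q ^ 2 := by
    have a1 : n ^ 2 ≤ P.M ^ 4 * P.Q ^ 3 :=
      le_trans hXn (le_trans hQ1 (Nat.mul_le_mul_right _ hpM2))
    have a2 : P.M ^ 8 * (1304 * n * P.M ^ 4) ^ 3 ≤ P.M ^ 8 * (P.Q ^ 2) ^ 3 := by
      calc P.M ^ 8 * (1304 * n * P.M ^ 4) ^ 3 ≤ P.M ^ 8 * (P.M * n * P.M ^ 4) ^ 3 := by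
            gcongr; omega
        _ = P.M ^ 23 * n ^ 3 := by ring
        _ ≤ n * n ^ 3 := Nat.mul_le_mul_right _ hMn
        _ = (n ^ 2) ^ 2 := by ring
        _ ≤ (P.M ^ 4 * P.Q ^ 3) ^ 2 := Nat.pow_le_pow_left a1 2
        _ = _ := by ring
    exact (Nat.pow_le_pow_iff_left (by norm_num)).mp (Nat.le_of_mul_le_mul_left a2 (by positivity))
  obtain ⟨V, hV, hV2, hV3⟩ := hcore P b hJ n h2 (hX ▸ hQ1)
  have hp' : (0 : ℝ) < P.p := by exact_mod_cast hp0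
  have hM' : (0 : ℝ) < P.M := by exact_mod_cast hM0
  have hQ' : (0 : ℝ) < P.Q := by exact_mod_cast hQ.pos
  have hn' : (0 : ℝ) < n := by exact_mod_cast hn0
  have hK' : (0 : ℝ) < K := by exact_mod_cast hK0
  obtain ⟨S, hS1, hS2, hS3⟩ := geom n P.N P.N_pos V hV hV2 (P.M / (2 * P.p)) (by
    intro i j k hij hik hjk
    rw [div_le_iff₀ (by positivity)]
    have : (P.M : ℝ) ≤ 2 * P.p * |((dot (cr (V i) (V j)) (V k) : ℤ) : ℝ)| := by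
      exact_mod_cast hV3 i j k hij hik hjk
    linarith)
  refine ⟨S, hS1, hS2, fun p hp q hq r hr h1 h2 h3 => le_trans ?_ (hS3 p hp q hq r hr h1 h2 h3)⟩
  have e : (P.M : ℝ) / (2 * P.p) / (16 * (P.N : ℝ) ^ 3) =
      P.p / (32 * ((P.p : ℝ) ^ 2 * (P.M : ℝ) ^ 2 * (P.Q : ℝ) ^ 3)) := by
    rw [Par.N]; push_cast; field_simp; ring
  rw [e, div_le_div_iff₀ (by positivity) (by positivity)]
  have a1 : (b + 1) * (32 * (P.p ^ 2 * P.M ^ 2 * P.Q ^ 3)) ≤ P.p * (2 ^ 17 * K * n ^ 2) := by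
    calc (b + 1) * (32 * (P.p ^ 2 * P.M ^ 2 * P.Q ^ 3)) ≤ (b + 1) * (32 * (64 * X)) := by gcongr
      _ = (b + 1) ^ 2 * (2 ^ 15 * K * n ^ 2) := by rw [hX]; ring
      _ ≤ (4 * P.p) * (2 ^ 15 * K * n ^ 2) := by gcongr; nlinarith
      _ = _ := by ring
  exact_mod_cast a1

end Crest.Agent.R032
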