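import Mathlib

/-!
Integer vectors in three-space: cross products, boxes, lattice points in planes (row 32).
-/

set_option autoImplicit false

namespace Crest.Agent.R032

open Finset

section ring
variable {R : Type} [CommRing R]

/-- Cross product. -/
def cr (a b : Fin 3 → R) : Fin 3 → R :=
  ![a 1 * b 2 - a 2 * b 1, a 2 * b 0 - a 0 * b 2, a 0 * b 1 - a 1 * b 0]

/-- Dot product. -/
def dot (a b : Fin 3 → R) : R := a 0 * b 0 + a 1 * b 1 + a 2 * b 2

@[simp] lemma cr_0 (a b : Fin 3 → R) : cr a b 0 = a 1 * b 2 - a 2 * b 1 := rfl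
@[simp] lemma cr_1 (a b : Fin 3 → R) : cr a b 1 = a 2 * b 0 - a 0 * b 2 := rfl
@[simp] lemma cr_2 (a b : Fin 3 → R) : cr a b 2 = a 0 * b 1 - a 1 * b 0 := rfl

lemma ext3 {α : Type} {a b : Fin 3 → α} (h0 : a 0 = b 0) (h1 : a 1 = b 1) (h2 : a 2 = b 2) :
    a = b := by
  funext k; fin_cases k <;> assumption

lemma eq_zero_iff3 (a : Fin 3 → R) : a = 0 ↔ a 0 = 0 ∧ a 1 = 0 ∧ a 2 = 0 :=
  ⟨fun h => by simp [h], fun h => ext3 h.1 h.2.1 h.2.2⟩

lemma cr_eq_zero_iff (a b : Fin 3 → R) : cr a b = 0 ↔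
    a 1 * b 2 - a 2 * b 1 = 0 ∧ a 2 * b 0 - a 0 * b 2 = 0 ∧ a 0 * b 1 - a 1 * b 0 = 0 := by
  rw [eq_zero_iff3]; simp

lemma dot_cr_left (a b : Fin 3 → R) : dot (cr a b) a = 0 := by simp [dot]; ring
lemma dot_cr_right (a b : Fin 3 → R) : dot (cr a b) b = 0 := by simp [dot]; ring
lemma dot_comm (a b : Fin 3 → R) : dot a b = dot b a := by simp [dot]; ring
lemma dot_sub (n a b : Fin 3 → R) : dot n (a - b) = dot n a - dot n b := by simp [dot]; ring
lemma dot_smul_left (k : R) (n a : Fin 3 → R) : dot (k • n) a = k * dot n a := by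
  simp [dot]; ring
lemma cr_sub (a b c : Fin 3 → R) : cr a (b - c) = cr a b - cr a c := by
  apply ext3 <;> simp <;> ring

lemma det_eq_dot (V : Matrix (Fin 3) (Fin 3) R) : V.det = dot (cr (V 0) (V 1)) (V 2) := by
  rw [Matrix.det_fin_three]; simp [dot]; ring

/-- If `cr a b = 0` then `a k * b l = a l * b k`. -/
lemma cr_zero_mul {a b : Fin 3 → R} (h : cr a b = 0) (k l : Fin 3) : a k * b l = a l * b k := by
  rw [cr_eq_zero_iff] at h
  obtain ⟨h0, h1, h2⟩ := h
  fin_cases k <;> fin_cases l <;> simp <;> first | linear_combination h0 | linear_combination h1 | linear_combination h2 | linear_combination -h0 | linear_combination -h1 | linear_combination -h2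

end ring

/-- Primitive integer vectors. -/
def Prim (n : Fin 3 → ℤ) : Prop := ∃ β : Fin 3 → ℤ, dot β n = 1

lemma Prim.ne_zero {n : Fin 3 → ℤ} (h : Prim n) : n ≠ 0 := by
  rintro rfl
  obtain ⟨β, hβ⟩ := h
  simp [dot] at hβ

lemma exists_prim (ν : Fin 3 → ℤ) (hν : ν ≠ 0) : ∃ g : ℤ, ∃ n, g ≠ 0 ∧ Prim n ∧ ν = g • n := by
  set g1 : ℤ := (Int.gcd (ν 0) (ν 1) : ℤ) with hg1
  set g : ℤ := (Int.gcd g1 (ν 2) : ℤ) with hg
  have d1 : g ∣ g1 := Int.gcd_dvd_left _ _
  have d0 : g ∣ ν 0 := dvd_trans d1 (Int.gcd_dvd_left _ _)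
  have d01 : g ∣ ν 1 := dvd_trans d1 (Int.gcd_dvd_right _ _)
  have d2 : g ∣ ν 2 := Int.gcd_dvd_right _ _
  obtain ⟨a, ha⟩ := d0
  obtain ⟨b, hb⟩ := d01
  obtain ⟨c, hc⟩ := d2
  have hg0 : g ≠ 0 := by
    intro h0
    apply hν
    apply ext3 <;> simp [ha, hb, hc, h0]
  refine ⟨g, ![a, b, c], hg0, ?_, ?_⟩
  · have e1 := Int.gcd_eq_gcd_ab (ν 0) (ν 1)
    have e2 := Int.gcd_eq_gcd_ab g1 (ν 2)
    rw [← hg1] at e1
    rw [← hg] at e2
    refine ⟨![Int.gcdA (ν 0) (ν 1) * Int.gcdA g1 (ν 2), Int.gcdB (ν 0) (ν 1) * Int.gcdA g1 (ν 2),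
      Int.gcdB g1 (ν 2)], ?_⟩
    apply mul_left_cancel₀ hg0
    simp only [dot, Matrix.cons_val_zero, Matrix.cons_val_one, Matrix.cons_val_two,
      Matrix.head_cons, Matrix.tail_cons]
    generalize Int.gcdA (ν 0) (ν 1) = A1 at *
    generalize Int.gcdB (ν 0) (ν 1) = B1 at *
    generalize Int.gcdA g1 (ν 2) = A2 at *
    generalize Int.gcdB g1 (ν 2) = B2 at *
    rw [ha, hb] at e1
    rw [hc] at e2
    linear_combination (-A2) * e1 - e2
  · apply ext3 <;> simp [ha, hb, hc]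

lemma Prim.exists_smul {n y : Fin 3 → ℤ} (hn : Prim n) (h : cr y n = 0) : ∃ κ : ℤ, y = κ • n := by
  obtain ⟨β, hβ⟩ := hn
  refine ⟨dot β y, ?_⟩
  rw [cr_eq_zero_iff] at h
  obtain ⟨h0, h1, h2⟩ := h
  simp only [dot] at hβ ⊢
  apply ext3 <;> simp only [Pi.smul_apply, smul_eq_mul]
  · linear_combination (-y 0) * hβ + β 1 * h2 - β 2 * h1
  · linear_combination (-y 1) * hβ - β 0 * h2 + β 2 * h0
  · linear_combination (-y 2) * hβ + β 0 * h1 - β 1 * h0

lemma Prim.exists_cr {n u w : Fin 3 → ℤ} (hn : Prim n) (hu : dot n u = 0) (hw : dot n w = 0) :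
    ∃ κ : ℤ, cr u w = κ • n := by
  apply hn.exists_smul
  simp only [dot] at hu hw
  apply ext3 <;> simp
  · linear_combination (w 0) * hu - (u 0) * hw
  · linear_combination (w 1) * hu - (u 1) * hw
  · linear_combination (w 2) * hu - (u 2) * hw

/-- Sup norm. -/
def nrm (r : Fin 3 → ℤ) : ℕ := max (max (r 0).natAbs (r 1).natAbs) (r 2).natAbs

lemma nrm_le_iff (r : Fin 3 → ℤ) (H : ℕ) : nrm r ≤ H ↔ ∀ k, |r k| ≤ (H : ℤ) := by
  unfold nrm
  rw [Fin.forall_fin_succ, Fin.forall_fin_two]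
  simp only [max_le_iff, Fin.succ_zero_eq_one, Fin.succ_one_eq_two]
  rw [← Int.natCast_natAbs, ← Int.natCast_natAbs, ← Int.natCast_natAbs]
  omega

lemma abs_le_nrm (r : Fin 3 → ℤ) (k : Fin 3) : |r k| ≤ (nrm r : ℤ) :=
  (nrm_le_iff r _).mp le_rfl k

lemma exists_nrm (r : Fin 3 → ℤ) : ∃ k, |r k| = (nrm r : ℤ) := by
  unfold nrm
  rcases le_total (r 0).natAbs (r 1).natAbs with h | h
  · rcases le_total (r 1).natAbs (r 2).natAbs with h' | h'
    · exact ⟨2, by rw [← Int.natCast_natAbs]; congr 1; omega⟩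
    · exact ⟨1, by rw [← Int.natCast_natAbs]; congr 1; omega⟩
  · rcases le_total (r 0).natAbs (r 2).natAbs with h' | h'
    · exact ⟨2, by rw [← Int.natCast_natAbs]; congr 1; omega⟩
    · exact ⟨0, by rw [← Int.natCast_natAbs]; congr 1; omega⟩

lemma nrm_eq_zero {r : Fin 3 → ℤ} (h : nrm r = 0) : r = 0 := by
  have := (nrm_le_iff r 0).mp h.le
  funext k
  have hk := this k
  simpa using hk

lemma nrm_pos {r : Fin 3 → ℤ} (h : r ≠ 0) : 0 < nrm r :=
  Nat.pos_of_ne_zero fun h0 => h (nrm_eq_zero h0)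

lemma nrm_smul (κ : ℤ) (r : Fin 3 → ℤ) : nrm (κ • r) = κ.natAbs * nrm r := by
  unfold nrm
  simp only [Pi.smul_apply, smul_eq_mul, Int.natAbs_mul]
  rw [Nat.mul_max_mul_left, Nat.mul_max_mul_left]

lemma nrm_cr_le (a b : Fin 3 → ℤ) : nrm (cr a b) ≤ 2 * nrm a * nrm b := by
  rw [nrm_le_iff]
  have ha := abs_le_nrm a
  have hb := abs_le_nrm b
  have key : ∀ k l : Fin 3, |a k * b l| ≤ (nrm a : ℤ) * nrm b := fun k l => by
    rw [abs_mul]
    exact mul_le_mul (ha k) (hb l) (abs_nonneg _) (by positivity)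
  intro k
  push_cast
  fin_cases k
  · have := abs_sub (a 1 * b 2) (a 2 * b 1)
    have := key 1 2; have := key 2 1
    simp only [Fin.zero_eta, cr_0]; linarith
  · have := abs_sub (a 2 * b 0) (a 0 * b 2)
    have := key 2 0; have := key 0 2
    simp only [Fin.mk_one, cr_1]; linarith
  · have := abs_sub (a 0 * b 1) (a 1 * b 0)
    have := key 0 1; have := key 1 0
    simp only [Fin.reduceFinMk, cr_2]; linarith

/-- Symmetric box. -/
noncomputable def box (H : ℕ) : Finset (Fin 3 → ℤ) := Fintype.piFinset fun _ => Finset.Icc (-(H : ℤ)) H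

lemma mem_box {r : Fin 3 → ℤ} {H : ℕ} : r ∈ box H ↔ nrm r ≤ H := by
  rw [nrm_le_iff]
  simp [box, abs_le]

lemma card_box (H : ℕ) : (box H).card = (2 * H + 1) ^ 3 := by
  simp only [box, Fintype.card_piFinset, Int.card_Icc, Finset.prod_const, Finset.card_univ,
    Fintype.card_fin]
  congr 1
  omega

/-- Nonnegative box. -/
noncomputable def pbox (R : ℕ) : Finset (Fin 3 → ℤ) := Fintype.piFinset fun _ => Finset.Icc (0 : ℤ) R

lemma mem_pbox {r : Fin 3 → ℤ} {R : ℕ} : r ∈ pbox R ↔ ∀ k, 0 ≤ r k ∧ r k ≤ R := by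
  simp [pbox]

lemma card_pbox (R : ℕ) : (pbox R).card = (R + 1) ^ 3 := by
  simp only [pbox, Fintype.card_piFinset, Int.card_Icc, Finset.prod_const, Finset.card_univ,
    Fintype.card_fin]
  congr 1

lemma pbox_sub {a b : Fin 3 → ℤ} {R : ℕ} (ha : a ∈ pbox R) (hb : b ∈ pbox R) :
    a - b ∈ box R := by
  rw [mem_box, nrm_le_iff]
  rw [mem_pbox] at ha hb
  intro k
  have := ha k; have := hb k
  simp only [Pi.sub_apply, abs_le]
  omega

lemma pbox_subset {a : Fin 3 → ℤ} {R : ℕ} (ha : a ∈ pbox R) : a ∈ box R := by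
  rw [mem_box, nrm_le_iff]
  rw [mem_pbox] at ha
  intro k
  have := ha k
  simp only [abs_le]
  omega

open Classical in
/-- Lattice points of `Λ` in the plane orthogonal to `n` and in the box. -/
noncomputable def plane (Λ : AddSubgroup (Fin 3 → ℤ)) (n : Fin 3 → ℤ) (R : ℕ) :
    Finset (Fin 3 → ℤ) := (box R).filter fun u => u ∈ Λ ∧ dot n u = 0

lemma mem_plane {Λ : AddSubgroup (Fin 3 → ℤ)} {n u : Fin 3 → ℤ} {R : ℕ} :
    u ∈ plane Λ n R ↔ nrm u ≤ R ∧ u ∈ Λ ∧ dot n u = 0 := by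
  classical
  simp [plane, mem_box]

/-- Integers in an interval that are pairwise `l` apart. -/
lemma card_sep (S : Finset ℤ) (R l : ℕ) (hl : 0 < l) (hS : ∀ x ∈ S, |x| ≤ R)
    (hsep : ∀ x ∈ S, ∀ y ∈ S, x ≠ y → (l : ℤ) ≤ |x - y|) : S.card * l ≤ 2 * R + l := by
  have hl' : (0 : ℤ) < l := by exact_mod_cast hl
  have h1 : S.card ≤ (Finset.Icc (0 : ℤ) ((2 * R : ℤ) / l)).card := by
    refine Finset.card_le_card_of_injOn (fun x => (x + R) / l) ?_ ?_
    · intro x hx
      have := abs_le.mp (hS x hx)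
      simp only [Finset.coe_Icc, Set.mem_Icc]
      exact ⟨Int.ediv_nonneg (by omega) hl'.le, Int.ediv_le_ediv hl' (by omega)⟩
    · intro x hx y hy hxy
      by_contra hne
      have h2 := hsep x hx y hy hne
      simp only at hxy
      have e1 := Int.mul_ediv_add_emod (x + R) l
      have e2 := Int.mul_ediv_add_emod (y + R) l
      have b1 := Int.emod_nonneg (x + R) hl'.ne'
      have b2 := Int.emod_nonneg (y + R) hl'.ne'
      have c1 := Int.emod_lt_of_pos (x + R) hl'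
      have c2 := Int.emod_lt_of_pos (y + R) hl'
      rw [hxy] at e1
      have : |x - y| < l := by rw [abs_lt]; constructor <;> omega
      omega
  rw [Int.card_Icc] at h1
  have h3 : (0 : ℤ) ≤ (2 * R : ℤ) / l := Int.ediv_nonneg (by omega) hl'.le
  have h4 : (S.card : ℤ) ≤ (2 * R : ℤ) / l + 1 := by omega
  have h5 : (2 * R : ℤ) / l * l ≤ 2 * R := Int.ediv_mul_le _ hl'.ne'
  have : (S.card : ℤ) * l ≤ 2 * R + l := by nlinarith
  exact_mod_cast this

/-- Lattice points in a plane: at most `15 R² / covolume` once two independent ones exist. -/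
theorem plane_count (Λ : AddSubgroup (Fin 3 → ℤ)) (n : Fin 3 → ℤ) (j R : ℕ) (hn : Prim n)
    (hj : ∀ u ∈ Λ, ∀ w ∈ Λ, dot n u = 0 → dot n w = 0 → ∀ κ : ℤ, cr u w = κ • n → (j : ℤ) ∣ κ)
    (hind : ∃ u ∈ plane Λ n R, ∃ w ∈ plane Λ n R, cr u w ≠ 0) :
    (plane Λ n R).card * (j * nrm n) ≤ 18 * R ^ 2 := by
  classical
  obtain ⟨u1, hu1, w1, hw1, hne⟩ := hind
  have hu1ne : u1 ≠ 0 := by
    rintro rfl; apply hne; apply ext3 <;> simp
  obtain ⟨u, huS, humin⟩ := Finset.exists_min_image ((plane Λ n R).filter fun u => u ≠ 0) nrm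
    ⟨u1, Finset.mem_filter.mpr ⟨hu1, hu1ne⟩⟩
  obtain ⟨huP, hu0⟩ := Finset.mem_filter.mp huS
  obtain ⟨huR, huΛ, hun⟩ := mem_plane.mp huP
  set l := nrm u with hl
  have hlpos : 0 < l := nrm_pos hu0
  have hmin : ∀ v ∈ Λ, dot n v = 0 → v ≠ 0 → l ≤ nrm v := by
    intro v hv hvn hv0
    by_cases hvR : nrm v ≤ R
    · exact humin v (Finset.mem_filter.mpr ⟨mem_plane.mpr ⟨hvR, hv, hvn⟩, hv0⟩)
    · omega
  -- the multiplier
  have hκ : ∀ w ∈ plane Λ n R, ∃ t : ℤ, cr u w = ((j : ℤ) * t) • n := by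
    intro w hw
    obtain ⟨_, hwΛ, hwn⟩ := mem_plane.mp hw
    obtain ⟨κ, hκ⟩ := hn.exists_cr hun hwn
    obtain ⟨t, ht⟩ := hj u huΛ w hwΛ hun hwn κ hκ
    exact ⟨t, by rw [hκ, ht]⟩
  choose! τ hτ using hκ
  have hbound : ∀ w ∈ plane Λ n R, (τ w).natAbs * (j * nrm n) ≤ 2 * l * R := by
    intro w hw
    have h1 := nrm_cr_le u w
    rw [hτ w hw, nrm_smul, Int.natAbs_mul, Int.natAbs_natCast] at h1
    have h2 : nrm w ≤ R := (mem_plane.mp hw).1
    calc (τ w).natAbs * (j * nrm n) = j * (τ w).natAbs * nrm n := by ring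
      _ ≤ 2 * l * nrm w := h1
      _ ≤ 2 * l * R := Nat.mul_le_mul_left _ h2
  -- some vector independent of u
  have hex : ∃ w ∈ plane Λ n R, τ w ≠ 0 := by
    by_contra hcon
    push Not at hcon
    have a1 : cr u u1 = 0 := by rw [hτ u1 hu1, hcon u1 hu1]; simp
    have a2 : cr u w1 = 0 := by rw [hτ w1 hw1, hcon w1 hw1]; simp
    obtain ⟨k, hk⟩ := exists_nrm u
    have hk0 : u k ≠ 0 := by
      intro h0; rw [h0] at hk; simp at hk; omega
    apply hne
    have b1 := cr_zero_mul a1 k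
    have b2 := cr_zero_mul a2 k
    have key : ∀ s t : Fin 3, u1 s * w1 t - u1 t * w1 s = 0 := by
      intro s t
      apply mul_left_cancel₀ (mul_ne_zero hk0 hk0)
      linear_combination (u k * w1 t) * b1 s + (u s * u1 k) * b2 t - (u k * w1 s) * b1 t
        - (u t * u1 k) * b2 s
    rw [cr_eq_zero_iff]
    exact ⟨key 1 2, key 2 0, key 0 1⟩
  obtain ⟨w2, hw2, hτ2⟩ := hex
  set D := j * nrm n with hD
  have hD1 : D ≤ 2 * l * R := by
    have := hbound w2 hw2
    have h1 : 1 ≤ (τ w2).natAbs := Int.natAbs_pos.mpr hτ2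
    nlinarith
  rcases Nat.eq_zero_or_pos D with hD0 | hDpos
  · rw [hD0]; simp
  -- fibres
  obtain ⟨k, hk⟩ := exists_nrm u
  have hfib : ∀ t : ℤ, ((plane Λ n R).filter fun w => τ w = t).card * l ≤ 3 * R := by
    intro t
    set S := (plane Λ n R).filter fun w => τ w = t
    have hsep : ∀ x ∈ S, ∀ y ∈ S, x ≠ y → (l : ℤ) ≤ |x k - y k| := by
      intro x hx y hy hxy
      obtain ⟨hxP, hxt⟩ := Finset.mem_filter.mp hx
      obtain ⟨hyP, hyt⟩ := Finset.mem_filter.mp hy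
      have c0 : cr u (x - y) = 0 := by
        rw [cr_sub, hτ x hxP, hτ y hyP, hxt, hyt, sub_self]
      have hvΛ : x - y ∈ Λ := Λ.sub_mem (mem_plane.mp hxP).2.1 (mem_plane.mp hyP).2.1
      have hvn : dot n (x - y) = 0 := by
        rw [dot_sub, (mem_plane.mp hxP).2.2, (mem_plane.mp hyP).2.2, sub_self]
      have h1 := hmin _ hvΛ hvn (sub_ne_zero.mpr hxy)
      obtain ⟨s, hs⟩ := exists_nrm (x - y)
      have h2 := cr_zero_mul c0 k s
      have h3 : |u k| * |(x - y) s| = |u s| * |(x - y) k| := by rw [← abs_mul, ← abs_mul, h2]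
      have h4 : |u s| ≤ l := abs_le_nrm u s
      rw [hk, hs] at h3
      have h5 : (l : ℤ) ≤ nrm (x - y) := by exact_mod_cast h1
      have h6 : (0 : ℤ) < l := by exact_mod_cast hlpos
      have h7 : (0 : ℤ) ≤ |(x - y) k| := abs_nonneg _
      have : (l : ℤ) * l ≤ l * |(x - y) k| := by nlinarith
      exact le_of_mul_le_mul_left this h6
    have hinj : Set.InjOn (fun x : Fin 3 → ℤ => x k) S := by
      intro x hx y hy hxy
      by_contra hne'
      have := hsep x hx y hy hne'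
      simp only at hxy
      rw [hxy] at this
      simp at this
      omega
    have h1 := card_sep (S.image fun x => x k) R l hlpos (by
      intro x hx
      obtain ⟨y, hy, rfl⟩ := Finset.mem_image.mp hx
      have := (mem_plane.mp (Finset.mem_filter.mp hy).1).1
      exact (nrm_le_iff y R).mp this k) (by
      intro x hx y hy hxy
      obtain ⟨x', hx', rfl⟩ := Finset.mem_image.mp hx
      obtain ⟨y', hy', rfl⟩ := Finset.mem_image.mp hy
      exact hsep x' hx' y' hy' fun h => hxy (by rw [h]))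
    rw [Finset.card_image_of_injOn hinj] at h1
    omega
  -- number of fibres
  set T := (plane Λ n R).image τ
  have hT : T.card * D ≤ 6 * l * R := by
    have h1 := card_sep (T.image fun t => t * D) (2 * l * R) D hDpos (by
      intro x hx
      obtain ⟨t, ht, rfl⟩ := Finset.mem_image.mp hx
      obtain ⟨w, hw, rfl⟩ := Finset.mem_image.mp ht
      have := hbound w hw
      rw [abs_mul, ← Int.natCast_natAbs]
      simp only [Nat.abs_cast]
      exact_mod_cast this) (by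
      intro x hx y hy hxy
      obtain ⟨s, _, rfl⟩ := Finset.mem_image.mp hx
      obtain ⟨t, _, rfl⟩ := Finset.mem_image.mp hy
      have hst : s - t ≠ 0 := fun h => hxy (by rw [sub_eq_zero.mp h])
      rw [← sub_mul, abs_mul]
      simp only [Nat.abs_cast]
      have : 1 ≤ |s - t| := Int.one_le_abs hst
      have h0 : (0 : ℤ) ≤ D := by positivity
      nlinarith)
    rw [Finset.card_image_of_injective _ (mul_left_injective₀ (by exact_mod_cast hDpos.ne'))]
      at h1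
    have e6 : 6 * l * R = 3 * (2 * l * R) := by ring
    rw [e6]
    generalize 2 * l * R = X at h1 hD1
    omega
  have hsum : (plane Λ n R).card * l ≤ T.card * (3 * R) := by
    rw [Finset.card_eq_sum_card_image τ, Finset.sum_mul]
    calc ∑ t ∈ T, ((plane Λ n R).filter fun w => τ w = t).card * l ≤ ∑ _t ∈ T, 3 * R :=
          Finset.sum_le_sum fun t _ => hfib t
      _ = T.card * (3 * R) := by simp
  have : (plane Λ n R).card * D * l ≤ 18 * R ^ 2 * l := by
    calc (plane Λ n R).card * D * l = (plane Λ n R).card * l * D := by ring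
      _ ≤ T.card * (3 * R) * D := Nat.mul_le_mul_right _ hsum
      _ = T.card * D * (3 * R) := by ring
      _ ≤ 6 * l * R * (3 * R) := Nat.mul_le_mul_right _ hT
      _ = 18 * R ^ 2 * l := by ring
  exact Nat.le_of_mul_le_mul_right this hlpos

end Crest.Agent.R032
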