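import Crest.Agent.R032.Orbit
import Crest.Agent.R032.Count

/-!
Local data at one prime: lattice index, density and probability (row 32).
-/

set_option autoImplicit false

namespace Crest.Agent.R032

open Finset Matrix

/-- Reduction of an integer vector. -/
def red (m : ℕ) (u : V3) : Fin 3 → ZMod m := fun k => (u k : ZMod m)

@[simp] lemma red_apply (m : ℕ) (u : V3) (k : Fin 3) : red m u k = (u k : ZMod m) := rfl

lemma red_dot (m : ℕ) (u w : V3) : dot (red m u) (red m w) = ((dot u w : ℤ) : ZMod m) := by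
  simp [dot]

lemma red_cr (m : ℕ) (u w : V3) : cr (red m u) (red m w) = red m (cr u w) := by
  apply ext3 <;> simp

lemma red_smul (m : ℕ) (κ : ℤ) (u : V3) : red m (κ • u) = (κ : ZMod m) • red m u := by
  funext k; simp

lemma Prim.red_ne_zero {n : V3} (hn : Prim n) (m : ℕ) [Fact m.Prime] : red m n ≠ 0 := by
  obtain ⟨β, hβ⟩ := hn
  intro h
  have := red_dot m β n
  rw [h, hβ] at this
  simp [dot] at this

section field
variable {K : Type} [Field K]

lemma smul_eq_zero3 {κ : K} {r : Fin 3 → K} (h : κ • r = 0) (hr : r ≠ 0) : κ = 0 := by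
  rcases smul_eq_zero.mp h with h | h
  · exact h
  · exact absurd h hr

lemma exists_smul_of_cr {a b : Fin 3 → K} (ha : a ≠ 0) (h : cr a b = 0) : ∃ t : K, b = t • a := by
  have ha' : ∃ k, a k ≠ 0 := by
    by_contra hc; push Not at hc; exact ha (funext hc)
  obtain ⟨k, hk⟩ := ha'
  refine ⟨b k / a k, funext fun l => ?_⟩
  have := cr_zero_mul h k l
  simp only [Pi.smul_apply, smul_eq_mul]
  field_simp
  linear_combination this

end field

/-- Row space. -/
def RowSp {R : Type} [CommRing R] (X : Matrix (Fin 3) (Fin 3) R) (u : Fin 3 → R) : Prop :=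
  ∃ y : Fin 3 → R, u = y ᵥ* X

variable {m : ℕ} [hm : Fact m.Prime]

lemma rank2_dvd (ϱ : Fin 3 → ZMod m) (n u w : V3) (κ : ℤ) (hn : cr ϱ (red m n) ≠ 0)
    (hu : dot ϱ (red m u) = 0) (hw : dot ϱ (red m w) = 0) (h : cr u w = κ • n) :
    (m : ℤ) ∣ κ := by
  have h1 : cr ϱ (cr (red m u) (red m w)) = 0 := by
    simp only [dot] at hu hw
    apply ext3 <;> simp only [cr_0, cr_1, cr_2, Pi.zero_apply]
    · linear_combination (red m u 0) * hw - (red m w 0) * hu
    · linear_combination (red m u 1) * hw - (red m w 1) * hu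
    · linear_combination (red m u 2) * hw - (red m w 2) * hu
  rw [red_cr, h, red_smul] at h1
  have h2 : (κ : ZMod m) • cr ϱ (red m n) = 0 := by
    rw [← h1]; apply ext3 <;> simp <;> ring
  exact (ZMod.intCast_zmod_eq_zero_iff_dvd κ m).mp (smul_eq_zero3 h2 hn)

lemma rank1_dvd (ρ : Fin 3 → ZMod m) (n u w : V3) (κ : ℤ) (hn : red m n ≠ 0)
    (hu : ∃ s : ZMod m, red m u = s • ρ) (hw : ∃ s : ZMod m, red m w = s • ρ)
    (h : cr u w = κ • n) : (m : ℤ) ∣ κ := by
  obtain ⟨s, hs⟩ := hu
  obtain ⟨t, ht⟩ := hw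
  have h1 : cr (red m u) (red m w) = 0 := by
    rw [hs, ht]; apply ext3 <;> simp <;> ring
  rw [red_cr, h, red_smul] at h1
  exact (ZMod.intCast_zmod_eq_zero_iff_dvd κ m).mp (smul_eq_zero3 h1 hn)

lemma rank1_dvd2 (ρ : Fin 3 → ZMod m) (n u w : V3) (κ : ℤ) (hn : red m n ≠ 0)
    (hρ : dot ρ (red m n) ≠ 0)
    (hu : ∃ s : ZMod m, red m u = s • ρ) (hw : ∃ s : ZMod m, red m w = s • ρ)
    (hnu : dot n u = 0) (hnw : dot n w = 0)
    (h : cr u w = κ • n) : (m : ℤ) ^ 2 ∣ κ := by
  have key : ∀ v : V3, (∃ s : ZMod m, red m v = s • ρ) → dot n v = 0 → ∀ k, (m : ℤ) ∣ v k := by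
    rintro v ⟨s, hs⟩ hv k
    have h1 := red_dot m n v
    rw [hv, hs, dot_comm, dot_smul_left] at h1
    have h2 : s = 0 := by
      rcases mul_eq_zero.mp (h1.trans Int.cast_zero) with h | h
      · exact h
      · exact absurd h hρ
    have h3 := congrFun hs k
    rw [h2] at h3
    exact (ZMod.intCast_zmod_eq_zero_iff_dvd _ m).mp (by simpa using h3)
  choose u' hu' using key u hu hnu
  choose w' hw' using key w hw hnw
  have hk : ∃ k, ¬ (m : ℤ) ∣ n k := by
    by_contra hc
    push Not at hc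
    exact hn (funext fun k => (ZMod.intCast_zmod_eq_zero_iff_dvd _ m).mpr (hc k))
  obtain ⟨k, hk⟩ := hk
  have h1 : cr u w = ((m : ℤ) ^ 2) • cr u' w' := by
    apply ext3 <;> simp [hu', hw'] <;> ring
  have h2 : (m : ℤ) ^ 2 ∣ κ * n k := by
    have := congrFun (h.symm.trans h1) k
    simp only [Pi.smul_apply, smul_eq_mul] at this
    exact ⟨_, this⟩
  have hp : Prime (m : ℤ) := Nat.prime_iff_prime_int.mp hm.out
  exact hp.pow_dvd_of_dvd_mul_right 2 hk h2

/-- The third coordinate on a slice. -/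
def sl {R : Type} [CommRing R] (σ : R) (x : R × R) : Fin 3 → R := ![x.1, x.2, σ - x.1 - x.2]

@[simp] lemma sl_0 {R : Type} [CommRing R] (σ : R) (x : R × R) : sl σ x 0 = x.1 := rfl
@[simp] lemma sl_1 {R : Type} [CommRing R] (σ : R) (x : R × R) : sl σ x 1 = x.2 := rfl
@[simp] lemma sl_2 {R : Type} [CommRing R] (σ : R) (x : R × R) : sl σ x 2 = σ - x.1 - x.2 := rfl

lemma slice2 (ϱ : Fin 3 → ZMod m) (hϱ : ϱ ≠ 0) (σ : ZMod m) :
    ∑ x : ZMod m × ZMod m, ind (cr ϱ (sl σ x) = 0) ≤ 1 + m * ind (σ = 0) := by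
  classical
  rw [sum_ind_eq_card]
  by_cases hσ : σ = 0
  · rw [ind_pos hσ]
    have h1 : (univ.filter fun x : ZMod m × ZMod m => cr ϱ (sl σ x) = 0).card ≤ m := by
      refine le_trans ?_ (le_trans (card_cr_zero ϱ hϱ) (le_of_eq (ZMod.card m)))
      refine Finset.card_le_card_of_injOn (sl σ) ?_ ?_
      · intro x hx; simpa using hx
      · intro x _ y _ hxy
        exact Prod.ext (congrFun hxy 0) (congrFun hxy 1)
    have : ((univ.filter fun x : ZMod m × ZMod m => cr ϱ (sl σ x) = 0).card : ℝ) ≤ m := by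
      exact_mod_cast h1
    linarith
  · rw [ind_neg hσ]
    have h1 : (univ.filter fun x : ZMod m × ZMod m => cr ϱ (sl σ x) = 0).card ≤ 1 := by
      rw [Finset.card_le_one]
      intro x hx y hy
      obtain ⟨s, hs⟩ := exists_smul_of_cr hϱ (Finset.mem_filter.mp hx).2
      obtain ⟨t, ht⟩ := exists_smul_of_cr hϱ (Finset.mem_filter.mp hy).2
      have s0 := congrFun hs 0
      have s1 := congrFun hs 1
      have s2 := congrFun hs 2
      have t0 := congrFun ht 0
      have t1 := congrFun ht 1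
      have t2 := congrFun ht 2
      simp only [sl_0, sl_1, sl_2, Pi.smul_apply, smul_eq_mul] at s0 s1 s2 t0 t1 t2
      have hst : s = t := by
        apply mul_right_cancel₀ hσ
        linear_combination s * (t0 + t1 + t2) - t * (s0 + s1 + s2)
      exact Prod.ext (by rw [s0, t0, hst]) (by rw [s1, t1, hst])
    have : ((univ.filter fun x : ZMod m × ZMod m => cr ϱ (sl σ x) = 0).card : ℝ) ≤ 1 := by
      exact_mod_cast h1
    linarith

lemma slice1 (α β σ : ZMod m) :
    ∑ x : ZMod m × ZMod m, ind (dot ![1, α, β] (sl σ x) = 0) ≤ m + m ^ 2 * ind (σ = 0) := by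
  classical
  have hm0 : (0 : ℝ) ≤ m := Nat.cast_nonneg m
  rw [sum_ind_eq_card]
  set S := univ.filter fun x : ZMod m × ZMod m => dot ![1, α, β] (sl σ x) = 0
  have hS : ∀ x ∈ S, (1 - β) * x.1 + (α - β) * x.2 + β * σ = 0 := by
    intro x hx
    have := (Finset.mem_filter.mp hx).2
    simp only [dot, sl_0, sl_1, sl_2, Matrix.cons_val_zero, Matrix.cons_val_one,
      Matrix.cons_val_two, Matrix.head_cons, Matrix.tail_cons] at this
    linear_combination this
  have hi := mul_nonneg (pow_nonneg hm0 2) (ind_nonneg (σ = 0))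
  by_cases h1 : 1 - β = 0
  · by_cases h2 : α - β = 0
    · by_cases hσ : σ = 0
      · rw [ind_pos hσ]
        have : S.card ≤ m ^ 2 := by
          refine le_trans (Finset.card_le_univ _) ?_
          simp [ZMod.card, sq]
        have : (S.card : ℝ) ≤ m ^ 2 := by exact_mod_cast this
        linarith
      · have : S = ∅ := by
          rw [Finset.eq_empty_iff_forall_notMem]
          intro x hx
          have h3 := hS x hx
          apply hσ
          linear_combination h3 + (σ - x.1) * h1 - x.2 * h2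
        rw [this]; simp only [Finset.card_empty, Nat.cast_zero]; linarith
    · have : S.card ≤ m := by
        refine le_trans ?_ (le_of_eq ((Finset.card_univ (α := ZMod m)).trans (ZMod.card m)))
        refine Finset.card_le_card_of_injOn (fun x => x.1) (by simp) ?_
        intro x hx y hy hxy
        simp only at hxy
        refine Prod.ext hxy (mul_left_cancel₀ h2 ?_)
        linear_combination hS x hx - hS y hy - (1 - β) * hxy
      have : (S.card : ℝ) ≤ m := by exact_mod_cast this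
      linarith
  · have : S.card ≤ m := by
      refine le_trans ?_ (le_of_eq ((Finset.card_univ (α := ZMod m)).trans (ZMod.card m)))
      refine Finset.card_le_card_of_injOn (fun x => x.2) (by simp) ?_
      intro x hx y hy hxy
      simp only at hxy
      refine Prod.ext (mul_left_cancel₀ h1 ?_) hxy
      linear_combination hS x hx - hS y hy - (α - β) * hxy
    have : (S.card : ℝ) ≤ m := by exact_mod_cast this
    linarith

/-- Weight of rank-one configurations. -/
noncomputable def Wt (m : ℕ) (x y z : Fin 3 → ZMod m) : ℝ :=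
  1 + m * ind (cr x y = 0 ∧ cr x z = 0)

lemma one_le_Wt (m : ℕ) (x y z : Fin 3 → ZMod m) : 1 ≤ Wt m x y z := by
  have := mul_nonneg (Nat.cast_nonneg (α := ℝ) m) (ind_nonneg (cr x y = 0 ∧ cr x z = 0))
  unfold Wt; linarith

lemma mul_cols_eq {R : Type} [CommRing R] {g V : Matrix (Fin 3) (Fin 3) R} {x y z : Fin 3 → R}
    (h : g * cols x y z = V) :
    g *ᵥ x = (fun k => V k 0) ∧ g *ᵥ y = (fun k => V k 1) ∧ g *ᵥ z = (fun k => V k 2) := by
  rw [mul_cols] at h
  subst h
  exact ⟨rfl, rfl, rfl⟩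

theorem local_data (x y z : Fin 3 → ZMod m) (hx : x ≠ 0) :
    ∃ e : (Fin 3 → ZMod m) → ℕ, ∃ E : ℝ, 1 / (m : ℝ) ^ 4 ≤ E ∧
      (∀ (n u w : V3) (κ : ℤ), red m n ≠ 0 → RowSp (cols x y z) (red m u) →
        RowSp (cols x y z) (red m w) → dot n u = 0 → dot n w = 0 → cr u w = κ • n →
        (m : ℤ) ^ e (red m n) ∣ κ) ∧
      (∀ σ : ZMod m, ∑ t : ZMod m × ZMod m, 1 / ((m : ℝ) ^ e (sl σ t)) ^ 3 ≤
        (m : ℝ) ^ 2 * E * (2 + m * ind (σ = 0))) ∧
      (∀ l : ZMod m, l ≠ 0 → ∀ V : Matrix (Fin 3) (Fin 3) (ZMod m),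
        pr (fun g : Gs (ZMod m) l => g.1 * cols x y z = V) * E ≤ 2 * Wt m x y z / (m : ℝ) ^ 8) := by
  classical
  have hm2 : (2 : ℝ) ≤ m := by exact_mod_cast hm.out.two_le
  have hm0 : (0 : ℝ) < m := by linarith
  have hm1 : (1 : ℝ) ≤ m := by linarith
  have hcard : (Fintype.card (ZMod m) : ℝ) = m := by rw [ZMod.card]
  have hW := one_le_Wt m x y z
  have hsum : ∀ c : ℝ, ∑ _t : ZMod m × ZMod m, c = (m : ℝ) ^ 2 * c := by
    intro c; simp [ZMod.card, sq]
  by_cases hdet : (cols x y z).det = 0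
  · by_cases h1 : cr x y = 0 ∧ cr x z = 0
    · -- rank one
      obtain ⟨α, hα⟩ := exists_smul_of_cr hx h1.1
      obtain ⟨β, hβ⟩ := exists_smul_of_cr hx h1.2
      have hrow : ∀ u, RowSp (cols x y z) u → ∃ s : ZMod m, u = s • ![1, α, β] := by
        rintro u ⟨v, rfl⟩
        refine ⟨dot v x, ?_⟩
        apply ext3 <;> simp [Matrix.vecMul, dotProduct, Fin.sum_univ_three, dot, hα, hβ] <;> ring
      refine ⟨fun r => if dot ![1, α, β] r = 0 then 1 else 2, 1 / (m : ℝ) ^ 4, le_rfl, ?_, ?_, ?_⟩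
      · intro n u w κ hn hu hw hnu hnw h
        by_cases h2 : dot ![1, α, β] (red m n) = 0
        · simp only [h2, if_true, pow_one]
          exact rank1_dvd _ n u w κ hn (hrow _ hu) (hrow _ hw) h
        · simp only [h2, if_false]
          exact rank1_dvd2 _ n u w κ hn h2 (hrow _ hu) (hrow _ hw) hnu hnw h
      · intro σ
        have e1 : ∀ t : ZMod m × ZMod m,
            1 / ((m : ℝ) ^ (if dot ![1, α, β] (sl σ t) = 0 then 1 else 2)) ^ 3 ≤
              1 / (m : ℝ) ^ 3 * ind (dot ![1, α, β] (sl σ t) = 0) + 1 / (m : ℝ) ^ 6 := by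
          intro t
          by_cases h2 : dot ![1, α, β] (sl σ t) = 0
          · rw [if_pos h2, ind_pos h2, pow_one, mul_one]
            have : 0 ≤ 1 / (m : ℝ) ^ 6 := by positivity
            linarith
          · rw [if_neg h2, ind_neg h2, ← pow_mul]; simp
        refine le_trans (Finset.sum_le_sum fun t _ => e1 t) ?_
        rw [Finset.sum_add_distrib, ← Finset.mul_sum, hsum]
        have e2 := slice1 α β σ
        have e3 : 1 / (m : ℝ) ^ 3 * ∑ t : ZMod m × ZMod m, ind (dot ![1, α, β] (sl σ t) = 0) ≤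
            1 / (m : ℝ) ^ 3 * (m + m ^ 2 * ind (σ = 0)) :=
          mul_le_mul_of_nonneg_left e2 (by positivity)
        have e4 : (m : ℝ) ^ 2 * (1 / (m : ℝ) ^ 6) ≤ 1 / (m : ℝ) ^ 2 := by
          rw [mul_one_div, div_le_div_iff₀ (by positivity) (by positivity)]
          calc (m : ℝ) ^ 2 * (m : ℝ) ^ 2 = (m : ℝ) ^ 4 := by ring
            _ ≤ (m : ℝ) ^ 6 := pow_le_pow_right₀ hm1 (by norm_num)
            _ = 1 * (m : ℝ) ^ 6 := by ring
        have e5 : (m : ℝ) ^ 2 * (1 / (m : ℝ) ^ 4) * (2 + m * ind (σ = 0)) =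
            1 / (m : ℝ) ^ 3 * (m + m ^ 2 * ind (σ = 0)) + 1 / (m : ℝ) ^ 2 := by
          field_simp; ring
        linarith
      · intro l hl V
        have e1 : pr (fun g : Gs (ZMod m) l => g.1 * cols x y z = V) ≤ 2 / (m : ℝ) ^ 3 := by
          refine le_trans (pr_mono fun g hg => (mul_cols_eq hg).1) ?_
          have := pr_one l hl x (fun k => V k 0) hx
          rwa [hcard] at this
        have e2 : Wt m x y z = 1 + m := by unfold Wt; rw [ind_pos h1, mul_one]
        rw [e2]
        calc _ ≤ 2 / (m : ℝ) ^ 3 * (1 / (m : ℝ) ^ 4) := by gcongr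
          _ = 2 * m / (m : ℝ) ^ 8 := by field_simp
          _ ≤ _ := by gcongr; linarith
    · -- rank two
      obtain ⟨ϱ, hϱ0, hϱ⟩ := Matrix.exists_mulVec_eq_zero_iff.mpr hdet
      have hrow : ∀ u, RowSp (cols x y z) u → dot ϱ u = 0 := by
        rintro u ⟨v, rfl⟩
        rw [dot_comm, dot_eq_dotProduct, ← Matrix.dotProduct_mulVec, hϱ]; simp
      refine ⟨fun r => if cr ϱ r = 0 then 0 else 1, 1 / (m : ℝ) ^ 2, ?_, ?_, ?_, ?_⟩
      · exact one_div_le_one_div_of_le (by positivity) (pow_le_pow_right₀ hm1 (by norm_num))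
      · intro n u w κ hn hu hw hnu hnw h
        by_cases h2 : cr ϱ (red m n) = 0
        · simp [h2]
        · simp only [h2, if_false, pow_one]
          exact rank2_dvd ϱ n u w κ h2 (hrow _ hu) (hrow _ hw) h
      · intro σ
        have e1 : ∀ t : ZMod m × ZMod m,
            1 / ((m : ℝ) ^ (if cr ϱ (sl σ t) = 0 then 0 else 1)) ^ 3 ≤
              ind (cr ϱ (sl σ t) = 0) + 1 / (m : ℝ) ^ 3 := by
          intro t
          by_cases h2 : cr ϱ (sl σ t) = 0
          · rw [if_pos h2, ind_pos h2]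
            have : 0 ≤ 1 / (m : ℝ) ^ 3 := by positivity
            simp only [pow_zero, one_pow, div_one]
            linarith
          · rw [if_neg h2, ind_neg h2, pow_one]; simp
        refine le_trans (Finset.sum_le_sum fun t _ => e1 t) ?_
        rw [Finset.sum_add_distrib, hsum]
        have e2 := slice2 ϱ hϱ0 σ
        have e4 : (m : ℝ) ^ 2 * (1 / (m : ℝ) ^ 3) ≤ 1 := by
          rw [mul_one_div, div_le_one (by positivity)]
          exact pow_le_pow_right₀ hm1 (by norm_num)
        have e5 : (m : ℝ) ^ 2 * (1 / (m : ℝ) ^ 2) = 1 := by field_simp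
        rw [e5]
        linarith
      · intro l hl V
        have e1 : pr (fun g : Gs (ZMod m) l => g.1 * cols x y z = V) ≤ 2 / (m : ℝ) ^ 6 := by
          rcases not_and_or.mp h1 with h2 | h2
          · have := pr_two l hl x y (fun k => V k 0) (fun k => V k 1) h2
            rw [hcard] at this
            exact le_trans (pr_mono fun g hg => ⟨(mul_cols_eq hg).1, (mul_cols_eq hg).2.1⟩) this
          · have := pr_two l hl x z (fun k => V k 0) (fun k => V k 2) h2
            rw [hcard] at this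
            exact le_trans (pr_mono fun g hg => ⟨(mul_cols_eq hg).1, (mul_cols_eq hg).2.2⟩) this
        calc _ ≤ 2 / (m : ℝ) ^ 6 * (1 / (m : ℝ) ^ 2) := by gcongr
          _ = 2 * 1 / (m : ℝ) ^ 8 := by field_simp
          _ ≤ _ := by gcongr
  · -- rank three
    refine ⟨fun _ => 0, 1, ?_, ?_, ?_, ?_⟩
    · rw [div_le_one (by positivity)]; exact one_le_pow₀ hm1
    · intros; simp
    · intro σ
      simp only [pow_zero, one_pow, div_one]
      rw [hsum]
      have := mul_nonneg hm0.le (ind_nonneg (σ = 0))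
      have h2 : (0 : ℝ) ≤ (m : ℝ) ^ 2 := by positivity
      nlinarith
    · intro l _ V
      have := pr_three l (cols x y z) V hdet
      rw [hcard] at this
      calc _ ≤ 2 * 1 / (m : ℝ) ^ 8 := by simpa using this
        _ ≤ _ := by gcongr

end Crest.Agent.R032
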