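import Crest.Agent.R032.Prob
import Crest.Agent.R032.Lattice

/-!
Random matrices of prescribed determinant over a finite field (row 32).
-/

set_option autoImplicit false

namespace Crest.Agent.R032

open Finset Matrix

section ring
variable {R : Type} [CommRing R]

/-- Matrix with three given columns. -/
def cols (x y z : Fin 3 → R) : Matrix (Fin 3) (Fin 3) R := Matrix.of fun k j => ![x, y, z] j k

@[simp] lemma cols_0 (x y z : Fin 3 → R) (k : Fin 3) : cols x y z k 0 = x k := rfl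
@[simp] lemma cols_1 (x y z : Fin 3 → R) (k : Fin 3) : cols x y z k 1 = y k := rfl
@[simp] lemma cols_2 (x y z : Fin 3 → R) (k : Fin 3) : cols x y z k 2 = z k := rfl

lemma det_cols (x y z : Fin 3 → R) : (cols x y z).det = dot (cr x y) z := by
  rw [Matrix.det_fin_three]; simp [dot]; ring

lemma mul_cols (g : Matrix (Fin 3) (Fin 3) R) (x y z : Fin 3 → R) :
    g * cols x y z = cols (g *ᵥ x) (g *ᵥ y) (g *ᵥ z) := by
  ext k j
  fin_cases j <;> simp [Matrix.mul_apply, Matrix.mulVec, dotProduct]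

lemma cols_inj {x y z x' y' z' : Fin 3 → R} (h : cols x y z = cols x' y' z') :
    x = x' ∧ y = y' ∧ z = z' :=
  ⟨funext fun k => congrFun (congrFun h k) 0, funext fun k => congrFun (congrFun h k) 1,
    funext fun k => congrFun (congrFun h k) 2⟩

lemma dot_eq_dotProduct (a b : Fin 3 → R) : dot a b = a ⬝ᵥ b := by
  simp [dot, dotProduct, Fin.sum_univ_three]

end ring

variable {K : Type} [Field K] [Fintype K] [DecidableEq K]

lemma card_hyper (ν : Fin 3 → K) (hν : ν ≠ 0) (c : K) :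
    (univ.filter fun u : Fin 3 → K => dot ν u = c).card = Fintype.card K ^ 2 := by
  have hν' : ν 0 ≠ 0 ∨ ν 1 ≠ 0 ∨ ν 2 ≠ 0 := by
    by_contra hc; push Not at hc; exact hν ((eq_zero_iff3 ν).mpr hc)
  have hc : Fintype.card K ^ 2 = (univ : Finset (K × K)).card := by simp [sq]
  rw [hc]
  rcases hν' with h0 | h0 | h0
  · refine Finset.card_nbij' (fun u => (u 1, u 2))
      (fun p => ![(c - ν 1 * p.1 - ν 2 * p.2) / ν 0, p.1, p.2]) (by simp) ?_ ?_ ?_
    · intro p _; simp [dot]; field_simp; ring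
    · intro u hu
      have : dot ν u = c := by simpa using hu
      apply ext3 <;> simp
      rw [← this, dot]; field_simp; ring
    · intro p _; simp
  · refine Finset.card_nbij' (fun u => (u 0, u 2))
      (fun p => ![p.1, (c - ν 0 * p.1 - ν 2 * p.2) / ν 1, p.2]) (by simp) ?_ ?_ ?_
    · intro p _; simp [dot]; field_simp; ring
    · intro u hu
      have : dot ν u = c := by simpa using hu
      apply ext3 <;> simp
      rw [← this, dot]; field_simp; ring
    · intro p _; simp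
  · refine Finset.card_nbij' (fun u => (u 0, u 1))
      (fun p => ![p.1, p.2, (c - ν 0 * p.1 - ν 1 * p.2) / ν 2]) (by simp) ?_ ?_ ?_
    · intro p _; simp [dot]; field_simp; ring
    · intro u hu
      have : dot ν u = c := by simpa using hu
      apply ext3 <;> simp
      rw [← this, dot]; field_simp; ring
    · intro p _; simp

lemma card_cr_zero (a : Fin 3 → K) (ha : a ≠ 0) :
    (univ.filter fun b : Fin 3 → K => cr a b = 0).card ≤ Fintype.card K := by
  have ha' : ∃ k, a k ≠ 0 := by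
    by_contra hc; push Not at hc; exact ha (funext hc)
  obtain ⟨k, hk⟩ := ha'
  rw [← Finset.card_univ]
  refine Finset.card_le_card_of_injOn (fun b => b k) (by simp) ?_
  intro x hx y hy hxy
  have e1 : cr a x = 0 := by simpa using hx
  have e2 : cr a y = 0 := by simpa using hy
  have e3 : cr a (x - y) = 0 := by rw [cr_sub, e1, e2, sub_self]
  funext l
  have := cr_zero_mul e3 k l
  simp only at hxy
  simp only [Pi.sub_apply, hxy, sub_self, mul_zero, mul_eq_zero] at this
  rcases this with h | h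
  · exact absurd h hk
  · exact sub_eq_zero.mp h

/-- Matrices with determinant `l`. -/
abbrev Gs (K : Type) [Field K] (l : K) := {g : Matrix (Fin 3) (Fin 3) K // g.det = l}

lemma card_Gs (l : K) : Fintype.card K ^ 8 ≤ 2 * Fintype.card (Gs K l) := by
  set q := Fintype.card K with hq
  have hq2 : 2 ≤ q := Fintype.one_lt_card
  let P : Finset ((Fin 3 → K) × (Fin 3 → K)) := univ.filter fun p => cr p.1 p.2 ≠ 0
  have h1 : P.card * q ^ 2 ≤ Fintype.card (Gs K l) := by
    have e : P.card * q ^ 2 =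
        (P.sigma fun p => univ.filter fun u : Fin 3 → K => dot (cr p.1 p.2) u = l).card := by
      rw [Finset.card_sigma, ← smul_eq_mul, ← Finset.sum_const]
      refine Finset.sum_congr rfl fun p hp => ?_
      rw [card_hyper _ (by simpa [P] using hp)]
    rw [e, Fintype.card_subtype]
    refine Finset.card_le_card_of_injOn (fun x => cols x.1.1 x.1.2 x.2) ?_ ?_
    · intro x hx
      have := (Finset.mem_sigma.mp hx).2
      simp only [Finset.coe_filter, Finset.mem_univ, true_and, Set.mem_setOf_eq]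
      rw [det_cols]; simpa using this
    · rintro ⟨⟨a, b⟩, c⟩ _ ⟨⟨a', b'⟩, c'⟩ _ h
      obtain ⟨rfl, rfl, rfl⟩ := cols_inj h
      rfl
  have h2 : (univ.filter fun p : (Fin 3 → K) × (Fin 3 → K) => cr p.1 p.2 = 0).card ≤
      q ^ 3 + q ^ 4 := by
    have hsub : (univ.filter fun p : (Fin 3 → K) × (Fin 3 → K) => cr p.1 p.2 = 0) ⊆
        (({0} : Finset (Fin 3 → K)) ×ˢ univ) ∪
          ((univ.filter fun a : Fin 3 → K => a ≠ 0).biUnion fun a =>
            ({a} : Finset (Fin 3 → K)) ×ˢ (univ.filter fun b => cr a b = 0)) := by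
      rintro ⟨a, b⟩ hp
      have hp' : cr a b = 0 := by simpa using hp
      by_cases ha : a = 0
      · simp [ha]
      · simp [ha, hp']
    refine le_trans (Finset.card_le_card hsub) (le_trans (Finset.card_union_le _ _) ?_)
    refine add_le_add (by simp [hq]) (le_trans Finset.card_biUnion_le ?_)
    have h3 : ∀ a ∈ univ.filter fun a : Fin 3 → K => a ≠ 0,
        (({a} : Finset (Fin 3 → K)) ×ˢ (univ.filter fun b => cr a b = 0)).card ≤ q := by
      intro a ha
      rw [Finset.card_product, Finset.card_singleton, one_mul]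
      exact card_cr_zero a (by simpa using ha)
    refine le_trans (Finset.sum_le_card_nsmul _ _ _ h3) ?_
    have h4 : (univ.filter fun a : Fin 3 → K => a ≠ 0).card ≤ q ^ 3 := by
      refine le_trans (Finset.card_le_univ _) ?_
      simp [hq]
    rw [smul_eq_mul]
    calc _ ≤ q ^ 3 * q := Nat.mul_le_mul_right _ h4
      _ = _ := by ring
  have h3 : P.card + (univ.filter fun p : (Fin 3 → K) × (Fin 3 → K) => cr p.1 p.2 = 0).card =
      q ^ 6 := by
    have := Finset.card_filter_add_card_filter_not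
      (s := (univ : Finset ((Fin 3 → K) × (Fin 3 → K)))) (fun p => cr p.1 p.2 = 0)
    rw [add_comm] at this
    rw [this]
    simp [hq]; ring
  have h4 : 2 * (q ^ 3 + q ^ 4) ≤ q ^ 6 := by
    have : 2 * (1 + q) ≤ q ^ 3 := by nlinarith [Nat.mul_le_mul hq2 hq2]
    calc 2 * (q ^ 3 + q ^ 4) = 2 * (1 + q) * q ^ 3 := by ring
      _ ≤ q ^ 3 * q ^ 3 := Nat.mul_le_mul_right _ this
      _ = _ := by ring
  have h5 : q ^ 6 ≤ 2 * P.card := by omega
  calc q ^ 8 = q ^ 6 * q ^ 2 := by ring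
    _ ≤ 2 * P.card * q ^ 2 := Nat.mul_le_mul_right _ h5
    _ = 2 * (P.card * q ^ 2) := by ring
    _ ≤ _ := Nat.mul_le_mul_left _ h1

instance (l : K) : Nonempty (Gs K l) := by
  have h := card_Gs l
  have : 0 < Fintype.card K ^ 8 := pow_pos Fintype.card_pos 8
  exact Fintype.card_pos_iff.mp (by omega)

lemma pr_Gs_le (l : K) (E : Gs K l → Prop) [DecidablePred E] (c : ℕ)
    (h : (univ.filter E).card ≤ c) : pr E ≤ 2 * c / (Fintype.card K : ℝ) ^ 8 := by
  rw [pr_eq_card]
  have h1 : (Fintype.card K : ℝ) ^ 8 ≤ 2 * Fintype.card (Gs K l) := by exact_mod_cast card_Gs l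
  have h2 : (0 : ℝ) < Fintype.card K := by exact_mod_cast Fintype.card_pos
  have h3 : (0 : ℝ) < Fintype.card (Gs K l) := by exact_mod_cast Fintype.card_pos
  have h4 : ((univ.filter E).card : ℝ) ≤ c := by exact_mod_cast h
  rw [div_le_div_iff₀ h3 (by positivity)]
  have h5 : (0 : ℝ) ≤ c := Nat.cast_nonneg c
  nlinarith [mul_le_mul_of_nonneg_left h1 h5, mul_le_mul_of_nonneg_right h4 (pow_pos h2 8).le]

lemma count3 (l : K) (X V : Matrix (Fin 3) (Fin 3) K) (hX : X.det ≠ 0) :
    (univ.filter fun g : Gs K l => g.1 * X = V).card ≤ 1 := by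
  rw [Finset.card_le_one]
  intro a ha b hb
  have e1 : a.1 * X = V := by simpa using ha
  have e2 : b.1 * X = V := by simpa using hb
  apply Subtype.ext
  have hu : IsUnit X := (Matrix.isUnit_iff_isUnit_det X).mpr (Ne.isUnit hX)
  exact hu.mul_right_cancel (e1.trans e2.symm)

lemma count2 (l : K) (hl : l ≠ 0) (x y v w : Fin 3 → K) (hxy : cr x y ≠ 0) :
    (univ.filter fun g : Gs K l => g.1 *ᵥ x = v ∧ g.1 *ᵥ y = w).card ≤ Fintype.card K ^ 2 := by
  have he : ∃ e, dot (cr x y) e ≠ 0 := by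
    by_contra hc
    push Not at hc
    apply hxy
    have a0 := hc ![1, 0, 0]
    have a1 := hc ![0, 1, 0]
    have a2 := hc ![0, 0, 1]
    simp only [dot] at a0 a1 a2
    apply ext3
    · simpa using a0
    · simpa using a1
    · simpa using a2
  obtain ⟨e, he⟩ := he
  have key : ∀ g : Gs K l, g.1 *ᵥ x = v → g.1 *ᵥ y = w →
      dot (cr v w) (g.1 *ᵥ e) = l * dot (cr x y) e := by
    intro g h1 h2
    rw [← det_cols, ← h1, ← h2, ← mul_cols, Matrix.det_mul, g.2, det_cols]
  by_cases hvw : cr v w = 0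
  · have : (univ.filter fun g : Gs K l => g.1 *ᵥ x = v ∧ g.1 *ᵥ y = w) = ∅ := by
      rw [Finset.filter_eq_empty_iff]
      rintro g - ⟨h1, h2⟩
      have := key g h1 h2
      rw [hvw] at this
      simp only [dot, Pi.zero_apply, zero_mul, add_zero] at this
      exact mul_ne_zero hl he this.symm
    rw [this]; simp
  rw [← card_hyper (cr v w) hvw (l * dot (cr x y) e)]
  refine Finset.card_le_card_of_injOn (fun g => g.1 *ᵥ e) ?_ ?_
  · intro g hg
    have hg' : g.1 *ᵥ x = v ∧ g.1 *ᵥ y = w := by simpa using hg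
    simpa using key g hg'.1 hg'.2
  · intro a ha b hb hab
    have ha' : a.1 *ᵥ x = v ∧ a.1 *ᵥ y = w := by simpa using ha
    have hb' : b.1 *ᵥ x = v ∧ b.1 *ᵥ y = w := by simpa using hb
    apply Subtype.ext
    have hu : IsUnit (cols x y e) :=
      (Matrix.isUnit_iff_isUnit_det _).mpr (Ne.isUnit (by rwa [det_cols]))
    apply hu.mul_right_cancel
    simp only at hab
    rw [mul_cols, mul_cols, ha'.1, ha'.2, hb'.1, hb'.2, hab]

lemma exists_cr_ne (x : Fin 3 → K) (hx : x ≠ 0) : ∃ y, cr x y ≠ 0 := by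
  by_contra hc
  push Not at hc
  apply hx
  have a0 := (cr_eq_zero_iff _ _).mp (hc ![1, 0, 0])
  have a1 := (cr_eq_zero_iff _ _).mp (hc ![0, 1, 0])
  apply ext3
  · simpa using a1.2.2
  · simpa using a0.2.2
  · simpa using a0.2.1

lemma count1 (l : K) (hl : l ≠ 0) (x v : Fin 3 → K) (hx : x ≠ 0) :
    (univ.filter fun g : Gs K l => g.1 *ᵥ x = v).card ≤ Fintype.card K ^ 5 := by
  obtain ⟨y, hy⟩ := exists_cr_ne x hx
  rw [Finset.card_eq_sum_card_fiberwise (f := fun g : Gs K l => g.1 *ᵥ y) (t := univ) (by simp)]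
  have : ∀ w ∈ (univ : Finset (Fin 3 → K)),
      ((univ.filter fun g : Gs K l => g.1 *ᵥ x = v).filter fun g => g.1 *ᵥ y = w).card ≤
        Fintype.card K ^ 2 := by
    intro w _
    rw [Finset.filter_filter]
    exact count2 l hl x y v w hy
  refine le_trans (Finset.sum_le_card_nsmul _ _ _ this) ?_
  simp only [Finset.card_univ, Fintype.card_pi, Finset.prod_const, Fintype.card_fin, smul_eq_mul]
  exact le_of_eq (by ring)

lemma pr_one (l : K) (hl : l ≠ 0) (x v : Fin 3 → K) (hx : x ≠ 0) :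
    pr (fun g : Gs K l => g.1 *ᵥ x = v) ≤ 2 / (Fintype.card K : ℝ) ^ 3 := by
  have h := pr_Gs_le l _ _ (count1 l hl x v hx)
  have h2 : (0 : ℝ) < Fintype.card K := by exact_mod_cast Fintype.card_pos
  refine le_trans h (le_of_eq ?_)
  push_cast; field_simp

lemma pr_two (l : K) (hl : l ≠ 0) (x y v w : Fin 3 → K) (hxy : cr x y ≠ 0) :
    pr (fun g : Gs K l => g.1 *ᵥ x = v ∧ g.1 *ᵥ y = w) ≤ 2 / (Fintype.card K : ℝ) ^ 6 := by
  have h := pr_Gs_le l _ _ (count2 l hl x y v w hxy)
  have h2 : (0 : ℝ) < Fintype.card K := by exact_mod_cast Fintype.card_pos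
  refine le_trans h (le_of_eq ?_)
  push_cast; field_simp

lemma pr_three (l : K) (X V : Matrix (Fin 3) (Fin 3) K) (hX : X.det ≠ 0) :
    pr (fun g : Gs K l => g.1 * X = V) ≤ 2 / (Fintype.card K : ℝ) ^ 8 := by
  have h := pr_Gs_le l _ _ (count3 l X V hX)
  simpa using h

/-- One translate: an affine image of a point is uniform. -/
lemma pr_aff (l : K) (E : Gs K l → Prop) (x v : Fin 3 → K) :
    pr (fun a : Gs K l × (Fin 3 → K) => E a.1 ∧ a.1.1 *ᵥ x + a.2 = v) =
      pr E / (Fintype.card K : ℝ) ^ 3 := by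
  unfold pr
  rw [ex_prod]
  have : ∀ a : Gs K l, ex (fun b : Fin 3 → K => ind (E a ∧ a.1 *ᵥ x + b = v)) =
      ind (E a) * (1 / (Fintype.card K : ℝ) ^ 3) := by
    intro a
    simp only [ind_and]
    rw [ex_const_mul]
    congr 1
    have h := pr_eq_le (v - a.1 *ᵥ x)
    simp only [Fintype.card_pi, Finset.prod_const, Finset.card_univ, Fintype.card_fin,
      Nat.cast_pow] at h
    rw [← h]
    exact ex_congr fun b => ind_congr ⟨fun hb => by rw [← hb]; simp, fun hb => by rw [hb]; simp⟩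
  simp only [this]
  rw [ex_mul_const]; ring

lemma pr_aff_two (x y v w : Fin 3 → K) (hxy : x ≠ y) :
    pr (fun a : Gs K 1 × (Fin 3 → K) => a.1.1 *ᵥ x + a.2 = v ∧ a.1.1 *ᵥ y + a.2 = w) ≤
      2 / (Fintype.card K : ℝ) ^ 6 := by
  have h2 : (0 : ℝ) < Fintype.card K := by exact_mod_cast Fintype.card_pos
  calc _ ≤ pr (fun a : Gs K 1 × (Fin 3 → K) => a.1.1 *ᵥ (y - x) = w - v ∧
          a.1.1 *ᵥ x + a.2 = v) := by
        refine pr_mono fun a ha => ⟨?_, ha.1⟩
        rw [Matrix.mulVec_sub, ← ha.1, ← ha.2]; simp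
    _ = pr (fun g : Gs K 1 => g.1 *ᵥ (y - x) = w - v) / (Fintype.card K : ℝ) ^ 3 :=
        pr_aff 1 (fun g => g.1 *ᵥ (y - x) = w - v) x v
    _ ≤ (2 / (Fintype.card K : ℝ) ^ 3) / (Fintype.card K : ℝ) ^ 3 := by
        gcongr
        exact pr_one 1 one_ne_zero _ _ (sub_ne_zero.mpr hxy.symm)
    _ = _ := by field_simp

lemma pr_aff_three (x y z u v w : Fin 3 → K) (h : cr (y - x) (z - x) ≠ 0) :
    pr (fun a : Gs K 1 × (Fin 3 → K) => a.1.1 *ᵥ x + a.2 = u ∧ a.1.1 *ᵥ y + a.2 = v ∧
      a.1.1 *ᵥ z + a.2 = w) ≤ 2 / (Fintype.card K : ℝ) ^ 9 := by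
  have h2 : (0 : ℝ) < Fintype.card K := by exact_mod_cast Fintype.card_pos
  calc _ ≤ pr (fun a : Gs K 1 × (Fin 3 → K) => (a.1.1 *ᵥ (y - x) = v - u ∧
          a.1.1 *ᵥ (z - x) = w - u) ∧ a.1.1 *ᵥ x + a.2 = u) := by
        refine pr_mono fun a ha => ⟨⟨?_, ?_⟩, ha.1⟩
        · rw [Matrix.mulVec_sub, ← ha.1, ← ha.2.1]; simp
        · rw [Matrix.mulVec_sub, ← ha.1, ← ha.2.2]; simp
    _ = pr (fun g : Gs K 1 => g.1 *ᵥ (y - x) = v - u ∧ g.1 *ᵥ (z - x) = w - u) /
          (Fintype.card K : ℝ) ^ 3 :=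
        pr_aff 1 (fun g => g.1 *ᵥ (y - x) = v - u ∧ g.1 *ᵥ (z - x) = w - u) x u
    _ ≤ (2 / (Fintype.card K : ℝ) ^ 6) / (Fintype.card K : ℝ) ^ 3 := by
        gcongr
        exact pr_two 1 one_ne_zero _ _ _ _ h
    _ = _ := by field_simp

end Crest.Agent.R032
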