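import Crest.Agent.R032.Bad

/-!
The three cases for a fixed triple of labels (row 32).
-/

set_option autoImplicit false
set_option linter.unusedSectionVars false

namespace Crest.Agent.R032

open Finset Matrix

/-- Swap of the last two rows. -/
def sw (t : V3 × V3 × V3) : V3 × V3 × V3 := (t.1, t.2.2, t.2.1)

lemma mem_image_sw {S : Finset (V3 × V3 × V3)} {a b c : V3} (h : (a, c, b) ∈ S) :
    (a, b, c) ∈ S.image sw := Finset.mem_image.mpr ⟨_, h, rfl⟩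

namespace Par

variable {d : ℕ} (P : Par d)

/-- The basic size of the probability of a bad triple. -/
noncomputable def Th (J : ℕ) : ℝ :=
  10 ^ 8 * (J + 1) * 6 ^ d * ((2 * P.N : ℕ) : ℝ) ^ 6 / ((P.M : ℝ) ^ 8 * (P.Q : ℝ) ^ 9)

/-- Product of the rank-one weights. -/
noncomputable def WW (a b c : P.Pt) : ℝ := ∏ i, Wt (P.m i) (P.yi i a) (P.yi i b) (P.yi i c)

lemma WW_nonneg (a b c : P.Pt) : 0 ≤ P.WW a b c :=
  Finset.prod_nonneg fun _ _ => le_trans zero_le_one (one_le_Wt _ _ _ _)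

lemma Th_nonneg (J : ℕ) : 0 ≤ P.Th J := by unfold Th; positivity

lemma exists_local (a b c : P.Pt) :
    ∃ (e : ∀ i, (Fin 3 → ZMod (P.m i)) → ℕ) (E : Fin d → ℝ) (θ : Fin d → ℝ),
      (∀ i, 1 / (P.m i : ℝ) ^ 4 ≤ E i) ∧
      (∀ i, ∀ (n u w : V3) (κ : ℤ), red (P.m i) n ≠ 0 → RowSp (P.Xi a b c i) (red (P.m i) u) →
        RowSp (P.Xi a b c i) (red (P.m i) w) → dot n u = 0 → dot n w = 0 → cr u w = κ • n →
        (P.m i : ℤ) ^ e i (red (P.m i) n) ∣ κ) ∧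
      (∀ i, ∀ σ : ZMod (P.m i), ∑ t : ZMod (P.m i) × ZMod (P.m i),
        1 / ((P.m i : ℝ) ^ e i (sl σ t)) ^ 3 ≤ (P.m i : ℝ) ^ 2 * E i * (2 + P.m i * ind (σ = 0))) ∧
      (∀ i W, pr (fun g : Gs (ZMod (P.m i)) (P.li i) => g.1 * P.Xi a b c i = W) ≤ θ i) ∧
      0 < ∏ i, E i ∧ 1 / (P.M : ℝ) ^ 4 ≤ ∏ i, E i ∧
      ∏ i, θ i = 2 ^ d * P.WW a b c / (P.M' : ℝ) ^ 8 / ∏ i, E i := by
  choose e E hE hL1 hL2 hL3 using fun i =>
    local_data (P.yi i a) (P.yi i b) (P.yi i c) (P.yi_ne_zero i a)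
  have hm : ∀ i, (0 : ℝ) < P.m i := fun i => by exact_mod_cast (P.hm i).pos
  have hE0 : ∀ i, 0 < E i := fun i => lt_of_lt_of_le (by have := hm i; positivity) (hE i)
  refine ⟨e, E, fun i => 2 * Wt (P.m i) (P.yi i a) (P.yi i b) (P.yi i c) / (P.m i : ℝ) ^ 8 / E i,
    hE, hL1, hL2, fun i W => ?_, Finset.prod_pos fun i _ => hE0 i, ?_, ?_⟩
  · rw [le_div_iff₀ (hE0 i)]
    exact hL3 i _ (P.li_ne i) W
  · have b1 : ∏ i, 1 / (P.m i : ℝ) ^ 4 ≤ ∏ i, E i :=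
      Finset.prod_le_prod (fun i _ => by positivity) fun i _ => hE i
    rw [Finset.prod_div_distrib, Finset.prod_const_one, Finset.prod_pow] at b1
    refine le_trans (one_div_le_one_div_of_le ?_ ?_) b1
    · have : (0 : ℝ) < ∏ i, (P.m i : ℝ) := Finset.prod_pos fun i _ => hm i
      positivity
    · have : P.M' ^ 4 ≤ P.M ^ 4 := Nat.pow_le_pow_left P.M'_le_M 4
      unfold M' at this
      exact_mod_cast this
  · rw [Finset.prod_div_distrib, Finset.prod_div_distrib, Finset.prod_mul_distrib,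
      Finset.prod_pow, Finset.prod_const, Finset.card_univ, Fintype.card_fin]
    simp [WW, M']

lemma M_cast : (P.M : ℝ) = P.m0 * P.M' := by simp [M]

theorem caseA (J : ℕ) (hJ : 2 * (2 * P.N) ^ 2 ≤ 2 ^ J) (a b c : P.Pt) (hab : a.1 ≠ b.1)
    (hac : a.1 ≠ c.1) (hbc : b.1 ≠ c.1) :
    pr (fun ω : P.Om => P.B3 ω a b c) ≤ P.Th J * P.WW a b c := by
  classical
  obtain ⟨e, E, θ, hE, hL1, hL2, hL3, hP, hPM, hθ⟩ := P.exists_local a b c
  have hm0 : (0 : ℝ) < P.m0 := by exact_mod_cast P.hm0.pos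
  have hM' : (0 : ℝ) < P.M' := by exact_mod_cast P.M'_pos
  have hQ : (0 : ℝ) < P.Q := by exact_mod_cast P.hQ.pos
  have hdet : ((P.det0 a b c : ℤ) : ZMod P.m0) ≠ 0 := P.det0_ne _ _ _ hab hac hbc
  have h1 := P.pr_B3_le a b c (2 / (P.m0 : ℝ) ^ 8) θ (fun W => by
    have := pr_three P.l0 (cols (P.y0 a) (P.y0 b) (P.y0 c)) W (by
      rw [det_cols, y0, y0, y0, ← red_det]; exact hdet)
    rwa [ZMod.card] at this) hL3
    (trip (LamP P.m (P.Xi a b c)) (2 * P.N) (P.hh a b c) (fun n => ∏ i, P.m i ≤ nrm n) ∪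
      small (2 * P.N) (P.M * P.M') (P.hh a b c)) (fun ω hω => by
      refine Finset.mem_union.mpr (cover_ne _ _ _ _ P.M P.M' _ _ _ (P.row_mem ω a b c 0)
        (P.row_mem ω a b c 1) (P.row_mem ω a b c 2) (P.row_LamP ω a b c 0) (P.row_LamP ω a b c 1)
        (P.row_LamP ω a b c 2) (by rw [det_rows, P.B3_det hω]) ?_ ?_ fun n hn => hn)
      · intro h0
        have := P.det_mod0 ω a b c
        rw [P.B3_det hω, h0] at this
        exact mul_ne_zero P.l0_ne hdet (this.symm.trans Int.cast_zero)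
      · rw [← P.B3_det hω]; exact (P.B3_abs hω).le)
  have h2 := countA P.m P.hinj (P.Xi a b c) e E hE hL1 hL2 (2 * P.N) (P.hh a b c) J hJ
  have h3 := P.small_le (P.M * P.M') (by rw [sq]; exact Nat.mul_le_mul_left _ P.M'_le_M)
    (P.hh a b c)
  rw [Fintype.card_fin] at h2
  set A : ℝ := ((2 * P.N : ℕ) : ℝ) ^ 6 with hA
  have hA0 : 0 ≤ A := by positivity
  have h4 : A / (P.M : ℝ) ^ 4 ≤ A * ((J + 1) * 3 ^ d * ∏ i, E i) := by
    rw [div_eq_mul_one_div]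
    refine mul_le_mul_of_nonneg_left (le_trans hPM (le_mul_of_one_le_left hP.le ?_)) hA0
    have : (1 : ℝ) ≤ 3 ^ d := one_le_pow₀ (by norm_num)
    have : (0 : ℝ) ≤ J := Nat.cast_nonneg _
    nlinarith
  have h5 : (((trip (LamP P.m (P.Xi a b c)) (2 * P.N) (P.hh a b c) (fun n => ∏ i, P.m i ≤ nrm n) ∪
      small (2 * P.N) (P.M * P.M') (P.hh a b c)).card : ℕ) : ℝ) ≤
      25 * 10 ^ 6 * (A * ((J + 1) * 3 ^ d * ∏ i, E i)) := by
    have := Finset.card_union_le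
      (trip (LamP P.m (P.Xi a b c)) (2 * P.N) (P.hh a b c) (fun n => ∏ i, P.m i ≤ nrm n))
      (small (2 * P.N) (P.M * P.M') (P.hh a b c))
    have h6 := (Nat.cast_le (α := ℝ)).mpr this
    rw [Nat.cast_add] at h6
    have h7 : 0 ≤ A * ((J + 1) * 3 ^ d * ∏ i, E i) := by positivity
    nlinarith
  have hW := P.WW_nonneg a b c
  refine le_trans h1 (le_trans (mul_le_mul_of_nonneg_right h5 (by rw [hθ]; positivity))
    (le_of_eq ?_))
  rw [hθ, Th, ← hA, M_cast, show (6 : ℝ) ^ d = 3 ^ d * 2 ^ d by rw [← mul_pow]; norm_num]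
  field_simp
  ring

theorem caseB (J : ℕ) (hJ : 2 * (2 * P.N) ^ 2 ≤ 2 ^ J) (a b c : P.Pt) (hab : a.1 = b.1)
    (hac : a.1 ≠ c.1) :
    pr (fun ω : P.Om => P.B3 ω a b c) ≤ P.Th J * (P.M' : ℝ) ^ 5 := by
  classical
  have hm0 : (0 : ℝ) < P.m0 := by exact_mod_cast P.hm0.pos
  have hM' : (0 : ℝ) < P.M' := by exact_mod_cast P.M'_pos
  have hQ : (0 : ℝ) < P.Q := by exact_mod_cast P.hQ.pos
  have hN0 : (0 : ℤ) < P.N := by exact_mod_cast P.N_pos
  have h1 := P.pr_B3_le a b c (2 / (P.m0 : ℝ) ^ 6) (fun i => 2 / (P.m i : ℝ) ^ 3) (fun W => by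
    have := pr_two P.l0 P.l0_ne (P.y0 a) (P.y0 c) (fun k => W k 0) (fun k => W k 2)
      (P.cr0_ne _ _ hac)
    rw [ZMod.card] at this
    exact le_trans (pr_mono fun g hg => ⟨(mul_cols_eq hg).1, (mul_cols_eq hg).2.2⟩) this)
    (fun i W => by
      have := pr_one (P.li i) (P.li_ne i) (P.yi i a) (fun k => W k 0) (P.yi_ne_zero i a)
      rw [ZMod.card] at this
      exact le_trans (pr_mono fun g hg => (mul_cols_eq hg).1) this)
    ((trip (LamB P.m0) (2 * P.N) (P.hh a b c) (fun n => P.m0 ≤ nrm n ∨ n 2 ≠ 0) ∪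
      small (2 * P.N) (P.M * P.m0) (P.hh a b c)) ∪
      (trip (LamB P.m0) (2 * P.N) 0 (fun n => P.m0 ≤ nrm n ∨ n 2 ≠ 0)).image sw) (fun ω hω => by
      have hΛ : ∀ k, cols (P.V ω a) (P.V ω b) (P.V ω c) k ∈ LamB P.m0 := fun k =>
        P.V_cong ω hab k
      have hcr : cr (P.V ω a) (P.V ω b) ≠ 0 := fun h => hω.1 (Or.inr h)
      by_cases h0 : P.hh a b c = 0
      · rcases cover_zero (LamB P.m0) (2 * P.N) (fun n => P.m0 ≤ nrm n ∨ n 2 ≠ 0) _ _ _
          (P.row_mem ω a b c 0) (P.row_mem ω a b c 1) (P.row_mem ω a b c 2) (hΛ 0) (hΛ 1) (hΛ 2)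
          (by rw [det_rows, P.B3_det hω, h0])
          (rows_indep _ _ _ (by have := (P.V_zero ω a).1; omega) hcr)
          (fun n hn e0 e1 e2 => Or.inr (rel_two _ _ _ n hn.ne_zero hcr e0 e1 e2)) with h | h
        · rw [h0]
          exact Finset.mem_union_left _ (Finset.mem_union_left _ h)
        · exact Finset.mem_union_right _ (mem_image_sw h)
      · refine Finset.mem_union_left _ (Finset.mem_union.mpr (cover_ne _ _ _ _ P.M P.m0 _ _ _
          (P.row_mem ω a b c 0) (P.row_mem ω a b c 1) (P.row_mem ω a b c 2) (hΛ 0) (hΛ 1) (hΛ 2)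
          (by rw [det_rows, P.B3_det hω]) h0 ?_ fun n hn => Or.inl hn))
        rw [← P.B3_det hω]; exact (P.B3_abs hω).le)
  have h2 := countB P.m0 P.hm0 (2 * P.N) (P.hh a b c) J hJ
  have h2' := countB P.m0 P.hm0 (2 * P.N) 0 J hJ
  have h3 := P.small_le (P.M * P.m0) (by rw [sq]; exact Nat.mul_le_mul_left _ P.m0_le_M)
    (P.hh a b c)
  set A : ℝ := ((2 * P.N : ℕ) : ℝ) ^ 6 with hA
  have hA0 : 0 ≤ A := by positivity
  have hJ0 : (0 : ℝ) ≤ J := Nat.cast_nonneg _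
  have h4 : A / (P.M : ℝ) ^ 4 ≤ A * ((J + 1) / (P.m0 : ℝ) ^ 2) := by
    rw [div_eq_mul_one_div]
    refine mul_le_mul_of_nonneg_left ?_ hA0
    have a1 : (P.m0 : ℝ) ^ 2 ≤ (P.M : ℝ) ^ 4 := by
      have : P.m0 ^ 2 ≤ P.M ^ 4 := le_trans (Nat.pow_le_pow_left P.m0_le_M 2)
        (Nat.pow_le_pow_right P.M_pos (by norm_num))
      exact_mod_cast this
    exact div_le_div₀ (by linarith) (by linarith) (by positivity) a1
  have h5 : ((((trip (LamB P.m0) (2 * P.N) (P.hh a b c) (fun n => P.m0 ≤ nrm n ∨ n 2 ≠ 0) ∪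
      small (2 * P.N) (P.M * P.m0) (P.hh a b c)) ∪
      (trip (LamB P.m0) (2 * P.N) 0 (fun n => P.m0 ≤ nrm n ∨ n 2 ≠ 0)).image sw).card : ℕ) : ℝ) ≤
      25 * 10 ^ 6 * (A * ((J + 1) / (P.m0 : ℝ) ^ 2)) := by
    have := le_trans (Finset.card_union_le
      (trip (LamB P.m0) (2 * P.N) (P.hh a b c) (fun n => P.m0 ≤ nrm n ∨ n 2 ≠ 0) ∪
        small (2 * P.N) (P.M * P.m0) (P.hh a b c))
      ((trip (LamB P.m0) (2 * P.N) 0 (fun n => P.m0 ≤ nrm n ∨ n 2 ≠ 0)).image sw))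
      (add_le_add (Finset.card_union_le _ _) Finset.card_image_le)
    have h6 := (Nat.cast_le (α := ℝ)).mpr this
    rw [Nat.cast_add, Nat.cast_add] at h6
    have h7 : 0 ≤ A * ((J + 1) / (P.m0 : ℝ) ^ 2) := by positivity
    have h8 : 18 ^ 3 * A * (8 * (54 / (P.m0 : ℝ) ^ 2) * (J + 1)) =
        18 ^ 3 * 8 * 54 * (A * ((J + 1) / (P.m0 : ℝ) ^ 2)) := by ring
    rw [h8] at h2 h2'
    linarith
  have hθ : ∏ i, 2 / (P.m i : ℝ) ^ 3 = 2 ^ d / (P.M' : ℝ) ^ 3 := by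
    rw [Finset.prod_div_distrib, Finset.prod_pow, Finset.prod_const, Finset.card_univ,
      Fintype.card_fin]
    simp [M']
  rw [hθ] at h1
  refine le_trans h1 (le_trans (mul_le_mul_of_nonneg_right h5 (by positivity)) ?_)
  have h6 : (2 : ℝ) ^ d ≤ 6 ^ d := pow_le_pow_left₀ (by norm_num) (by norm_num) d
  calc _ ≤ 25 * 10 ^ 6 * (A * ((J + 1) / (P.m0 : ℝ) ^ 2)) *
        (2 / (P.m0 : ℝ) ^ 6 * (6 ^ d / (P.M' : ℝ) ^ 3 * (2 / (P.Q : ℝ) ^ 9))) := by gcongr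
    _ = _ := by
      rw [Th, ← hA, M_cast]
      field_simp
      ring

lemma rel_sum (ω : P.Om) (a b c : P.Pt) (hab : a.2.2.2 ≠ b.2.2.2) (hac : a.2.2.2 ≠ c.2.2.2)
    (hbc : b.2.2.2 ≠ c.2.2.2) (n : V3) (hn : Prim n)
    (h : ∀ k, dot n (cols (P.V ω a) (P.V ω b) (P.V ω c) k) = 0) : sm n ≠ 0 := by
  intro hs
  have hs' : (n 0 : ZMod P.Q) + n 1 + n 2 = 0 := by
    have := congrArg (Int.cast : ℤ → ZMod P.Q) hs
    simpa [sm] using this
  have h1 : ω.2.2.1.1 *ᵥ ((n 1 : ZMod P.Q) • (P.cap b.2.2.2 - P.cap a.2.2.2) +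
      (n 2 : ZMod P.Q) • (P.cap c.2.2.2 - P.cap a.2.2.2)) = 0 := by
    funext k
    have e := congrArg (Int.cast : ℤ → ZMod P.Q) (h k)
    have ea := congrFun (P.red_VQ ω a) k
    have eb := congrFun (P.red_VQ ω b) k
    have ec := congrFun (P.red_VQ ω c) k
    simp only [dot, cols_0, cols_1, cols_2, Int.cast_add, Int.cast_mul, Int.cast_zero] at e
    simp only [red_apply, Pi.add_apply] at ea eb ec
    rw [ea, eb, ec] at e
    simp only [Matrix.mulVec_add, Matrix.mulVec_smul, Matrix.mulVec_sub, Pi.add_apply,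
      Pi.smul_apply, Pi.sub_apply, smul_eq_mul, Pi.zero_apply]
    linear_combination e - ((ω.2.2.1.1 *ᵥ P.cap a.2.2.2) k + ω.2.2.2 k) * hs'
  have h2 := Matrix.eq_zero_of_mulVec_eq_zero (by rw [ω.2.2.1.2]; exact one_ne_zero) h1
  have h3 := P.cap_cr _ _ _ hab hac hbc
  generalize P.cap b.2.2.2 - P.cap a.2.2.2 = u at h2 h3
  generalize P.cap c.2.2.2 - P.cap a.2.2.2 = w at h2 h3
  have e0 := congrFun h2 0
  have e1 := congrFun h2 1
  have e2 := congrFun h2 2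
  simp only [Pi.add_apply, Pi.smul_apply, smul_eq_mul, Pi.zero_apply] at e0 e1 e2
  have a1 : (n 1 : ZMod P.Q) • cr u w = 0 := by
    apply ext3 <;> simp only [Pi.smul_apply, smul_eq_mul, cr_0, cr_1, cr_2, Pi.zero_apply]
    · linear_combination w 2 * e1 - w 1 * e2
    · linear_combination w 0 * e2 - w 2 * e0
    · linear_combination w 1 * e0 - w 0 * e1
  have a2 : (n 2 : ZMod P.Q) • cr u w = 0 := by
    apply ext3 <;> simp only [Pi.smul_apply, smul_eq_mul, cr_0, cr_1, cr_2, Pi.zero_apply]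
    · linear_combination u 1 * e2 - u 2 * e1
    · linear_combination u 2 * e0 - u 0 * e2
    · linear_combination u 0 * e1 - u 1 * e0
  have b1 := smul_eq_zero3 a1 h3
  have b2 := smul_eq_zero3 a2 h3
  apply hn.red_ne_zero P.Q
  refine ext3 ?_ b1 b2
  simp only [red_apply, Pi.zero_apply]
  linear_combination hs' - b1 - b2

theorem caseC (J : ℕ) (hJ : 2 * (2 * P.N) ^ 2 ≤ 2 ^ J) (a b c : P.Pt) (hab : a.1 = b.1)
    (hac : a.1 = c.1) :
    pr (fun ω : P.Om => P.B3 ω a b c) ≤ P.Th J * (P.m0 * P.WW a b c) := by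
  classical
  obtain ⟨e, E, θ, hE, hL1, hL2, hL3, hP, hPM, hθ⟩ := P.exists_local a b c
  have hm0 : (0 : ℝ) < P.m0 := by exact_mod_cast P.hm0.pos
  have hM' : (0 : ℝ) < P.M' := by exact_mod_cast P.M'_pos
  have hQ : (0 : ℝ) < P.Q := by exact_mod_cast P.hQ.pos
  have hN0 : (0 : ℤ) < P.N := by exact_mod_cast P.N_pos
  have h1 := P.pr_B3_le a b c (2 / (P.m0 : ℝ) ^ 3) θ (fun W => by
    have := pr_one P.l0 P.l0_ne (P.y0 a) (fun k => W k 0) (P.y0_ne_zero a)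
    rw [ZMod.card] at this
    exact le_trans (pr_mono fun g hg => (mul_cols_eq hg).1) this) hL3
    (trip (LamC P.m0 ⊓ LamP P.m (P.Xi a b c)) (2 * P.N) 0 (fun n => sm n ≠ 0) ∪
      (trip (LamC P.m0 ⊓ LamP P.m (P.Xi a b c)) (2 * P.N) 0 (fun n => sm n ≠ 0)).image sw)
    (fun ω hω => by
      have hΛ : ∀ k, cols (P.V ω a) (P.V ω b) (P.V ω c) k ∈ LamC P.m0 ⊓ LamP P.m (P.Xi a b c) :=
        fun k => ⟨⟨P.V_cong ω hab k, P.V_cong ω hac k⟩, P.row_LamP ω a b c k⟩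
      have hcr : cr (P.V ω a) (P.V ω b) ≠ 0 := fun h => hω.1 (Or.inr h)
      have h0 : dot (cr (P.V ω a) (P.V ω b)) (P.V ω c) = 0 := by
        choose u hu using P.V_cong ω hab
        choose w hw using P.V_cong ω hac
        have hdvd : (P.m0 : ℤ) ^ 2 ∣ dot (cr (P.V ω a) (P.V ω b)) (P.V ω c) := by
          refine ⟨dot (cr (P.V ω a) u) w, ?_⟩
          have hb : ∀ k, P.V ω b k = P.V ω a k - P.m0 * u k := fun k => by linear_combination -hu k
          have hc : ∀ k, P.V ω c k = P.V ω a k - P.m0 * w k := fun k => by linear_combination -hw k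
          simp only [dot, cr_0, cr_1, cr_2, hb, hc]
          ring
        refine Int.eq_zero_of_abs_lt_dvd hdvd (lt_of_lt_of_le (P.B3_abs hω) ?_)
        have : P.M ≤ P.m0 ^ 2 := by
          rw [sq]; exact Nat.mul_le_mul_left _ (by have := P.M'_le_m0; omega)
        exact_mod_cast this
      rcases cover_zero (LamC P.m0 ⊓ LamP P.m (P.Xi a b c)) (2 * P.N) (fun n => sm n ≠ 0) _ _ _
          (P.row_mem ω a b c 0) (P.row_mem ω a b c 1) (P.row_mem ω a b c 2) (hΛ 0) (hΛ 1) (hΛ 2)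
          (by rw [det_rows, h0])
          (rows_indep _ _ _ (by have := (P.V_zero ω a).1; omega) hcr)
          (fun n hn e0 e1 e2 => P.rel_sum ω a b c (fun e => hω.1 (Or.inl e))
            (fun e => hω.2.1 (Or.inl e)) (fun e => hω.2.2.1 (Or.inl e)) n hn (fun k => by
              fin_cases k
              · exact e0
              · exact e1
              · exact e2)) with h | h
      · exact Finset.mem_union_left _ h
      · exact Finset.mem_union_right _ (mem_image_sw h))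
  have h2 := countC P.m P.hinj (P.Xi a b c) e E hE hL1 hL2 P.m0 P.M'_le_m0 P.M'4_le (2 * P.N) J hJ
  rw [Fintype.card_fin] at h2
  set A : ℝ := ((2 * P.N : ℕ) : ℝ) ^ 6 with hA
  have hA0 : 0 ≤ A := by positivity
  have h5 : (((trip (LamC P.m0 ⊓ LamP P.m (P.Xi a b c)) (2 * P.N) 0 (fun n => sm n ≠ 0) ∪
      (trip (LamC P.m0 ⊓ LamP P.m (P.Xi a b c)) (2 * P.N) 0 (fun n => sm n ≠ 0)).image sw).card
        : ℕ) : ℝ) ≤ 25 * 10 ^ 6 * (A * ((J + 1) * 3 ^ d * (∏ i, E i) / (P.m0 : ℝ) ^ 4)) := by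
    have := le_trans (Finset.card_union_le
      (trip (LamC P.m0 ⊓ LamP P.m (P.Xi a b c)) (2 * P.N) 0 (fun n => sm n ≠ 0))
      ((trip (LamC P.m0 ⊓ LamP P.m (P.Xi a b c)) (2 * P.N) 0 (fun n => sm n ≠ 0)).image sw))
      (add_le_add le_rfl Finset.card_image_le)
    have h6 := (Nat.cast_le (α := ℝ)).mpr this
    rw [Nat.cast_add] at h6
    have h7 : 0 ≤ A * ((J + 1) * 3 ^ d * (∏ i, E i) / (P.m0 : ℝ) ^ 4) := by positivity
    have h8 : 18 ^ 3 * A * (8 * (81 * 3 ^ d * (∏ i, E i) / (P.m0 : ℝ) ^ 4) * (J + 1)) =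
        18 ^ 3 * 8 * 81 * (A * ((J + 1) * 3 ^ d * (∏ i, E i) / (P.m0 : ℝ) ^ 4)) := by ring
    rw [h8] at h2
    linarith
  have hW := P.WW_nonneg a b c
  refine le_trans h1 (le_trans (mul_le_mul_of_nonneg_right h5 (by rw [hθ]; positivity))
    (le_of_eq ?_))
  rw [hθ, Th, ← hA, M_cast, show (6 : ℝ) ^ d = 3 ^ d * 2 ^ d by rw [← mul_pow]; norm_num]
  field_simp
  ring

theorem pointwise (J : ℕ) (hJ : 2 * (2 * P.N) ^ 2 ≤ 2 ^ J) (a b c : P.Pt) :
    pr (fun ω : P.Om => P.B3 ω a b c) ≤ P.Th J *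
      ((1 + P.m0 * ind (a.1 = b.1 ∧ a.1 = c.1)) * (ind (P.rc a b c) * P.WW a b c) +
        ind (a.1 = b.1 ∨ a.1 = c.1 ∨ b.1 = c.1) * (P.M' : ℝ) ^ 5) := by
  have hT := P.Th_nonneg J
  have hW := P.WW_nonneg a b c
  have i1 := ind_nonneg (a.1 = b.1 ∧ a.1 = c.1)
  have i2 := ind_nonneg (a.1 = b.1 ∨ a.1 = c.1 ∨ b.1 = c.1)
  by_cases hrc : P.rc a b c
  swap
  · rw [pr_false fun ω hω => hrc (P.B3_rc hω)]
    have := ind_nonneg (P.rc a b c)
    positivity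
  rw [ind_pos hrc, one_mul]
  have t1 : 0 ≤ (1 + P.m0 * ind (a.1 = b.1 ∧ a.1 = c.1)) * P.WW a b c := by positivity
  have t2 : 0 ≤ ind (a.1 = b.1 ∨ a.1 = c.1 ∨ b.1 = c.1) * (P.M' : ℝ) ^ 5 := by positivity
  have hB : (a.1 = b.1 ∨ a.1 = c.1 ∨ b.1 = c.1) →
      pr (fun ω : P.Om => P.B3 ω a b c) ≤ P.Th J * (P.M' : ℝ) ^ 5 →
      pr (fun ω : P.Om => P.B3 ω a b c) ≤ P.Th J *
      ((1 + P.m0 * ind (a.1 = b.1 ∧ a.1 = c.1)) * P.WW a b c +
        ind (a.1 = b.1 ∨ a.1 = c.1 ∨ b.1 = c.1) * (P.M' : ℝ) ^ 5) := by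
    intro h1 h2
    refine le_trans h2 (mul_le_mul_of_nonneg_left ?_ hT)
    rw [ind_pos h1]; linarith
  by_cases hab : a.1 = b.1
  · by_cases hac : a.1 = c.1
    · refine le_trans (P.caseC J hJ a b c hab hac) (mul_le_mul_of_nonneg_left ?_ hT)
      rw [ind_pos ⟨hab, hac⟩]; linarith
    · exact hB (Or.inl hab) (P.caseB J hJ a b c hab hac)
  · by_cases hac : a.1 = c.1
    · exact hB (Or.inr (Or.inl hac))
        (le_trans (pr_mono fun ω hω => P.B3_swap12 hω) (P.caseB J hJ a c b hac hab))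
    · by_cases hbc : b.1 = c.1
      · exact hB (Or.inr (Or.inr hbc))
          (le_trans (pr_mono fun ω hω => P.B3_rot hω) (P.caseB J hJ b c a hbc (Ne.symm hab)))
      · refine le_trans (P.caseA J hJ a b c hab hac hbc) (mul_le_mul_of_nonneg_left ?_ hT)
        have : 0 ≤ P.m0 * ind (a.1 = b.1 ∧ a.1 = c.1) * P.WW a b c := by positivity
        linarith

end Par

end Crest.Agent.R032
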