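import Mathlib

/-!
Uniform averages on finite types and the alteration lemma (row 32).
-/

set_option autoImplicit false

namespace Crest.Agent.R032

open Finset

/-- Indicator of a proposition as a real number. -/
noncomputable def ind (p : Prop) : ℝ := by classical exact if p then 1 else 0

lemma ind_pos {p : Prop} (h : p) : ind p = 1 := by simp [ind, h]
lemma ind_neg {p : Prop} (h : ¬ p) : ind p = 0 := by simp [ind, h]
lemma ind_nonneg (p : Prop) : 0 ≤ ind p := by
  by_cases h : p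
  · simp [ind_pos h]
  · simp [ind_neg h]
lemma ind_le_one (p : Prop) : ind p ≤ 1 := by
  by_cases h : p
  · simp [ind_pos h]
  · simp [ind_neg h]
lemma ind_mono {p q : Prop} (h : p → q) : ind p ≤ ind q := by
  by_cases hp : p
  · rw [ind_pos hp, ind_pos (h hp)]
  · rw [ind_neg hp]; exact ind_nonneg q

lemma ind_congr {p q : Prop} (h : p ↔ q) : ind p = ind q := by
  rw [propext h]

lemma ind_and (p q : Prop) : ind (p ∧ q) = ind p * ind q := by
  by_cases hp : p
  · by_cases hq : q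
    · rw [ind_pos hp, ind_pos hq, ind_pos ⟨hp, hq⟩]; simp
    · rw [ind_neg hq, ind_neg (fun h => hq h.2)]; simp
  · rw [ind_neg hp, ind_neg (fun h => hp h.1)]; simp

lemma ind_or_le (p q : Prop) : ind (p ∨ q) ≤ ind p + ind q := by
  by_cases hp : p
  · rw [ind_pos hp]; linarith [ind_le_one (p ∨ q), ind_nonneg q]
  · by_cases hq : q
    · rw [ind_pos hq]; linarith [ind_le_one (p ∨ q), ind_nonneg p]
    · rw [ind_neg (by tauto), ind_neg hp, ind_neg hq]; simp

lemma ind_forall {κ : Type} [Fintype κ] (p : κ → Prop) : ind (∀ t, p t) = ∏ t, ind (p t) := by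
  by_cases h : ∀ t, p t
  · rw [ind_pos h]; exact (Finset.prod_eq_one fun t _ => ind_pos (h t)).symm
  · rw [ind_neg h]
    push Not at h
    obtain ⟨t, ht⟩ := h
    exact (Finset.prod_eq_zero (Finset.mem_univ t) (ind_neg ht)).symm

lemma sum_ind_eq_card {α : Type} (S : Finset α) (p : α → Prop) [DecidablePred p] :
    ∑ a ∈ S, ind (p a) = ((S.filter p).card : ℝ) := by
  rw [Finset.card_filter]
  push_cast
  refine Finset.sum_congr rfl fun a _ => ?_
  by_cases h : p a
  · rw [ind_pos h, if_pos h]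
  · rw [ind_neg h, if_neg h]

/-- Average of a real function on a finite type. -/
noncomputable def ex {Ω : Type} [Fintype Ω] (f : Ω → ℝ) : ℝ := (∑ ω, f ω) / Fintype.card Ω

/-- Probability of an event under the uniform law on a finite type. -/
noncomputable def pr {Ω : Type} [Fintype Ω] (E : Ω → Prop) : ℝ := ex fun ω => ind (E ω)

variable {Ω : Type} [Fintype Ω]

lemma ex_mono {f g : Ω → ℝ} (h : ∀ ω, f ω ≤ g ω) : ex f ≤ ex g := by
  unfold ex
  exact div_le_div_of_nonneg_right (Finset.sum_le_sum fun ω _ => h ω) (Nat.cast_nonneg _)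

lemma ex_congr {f g : Ω → ℝ} (h : ∀ ω, f ω = g ω) : ex f = ex g := by
  rw [funext h]

lemma ex_nonneg {f : Ω → ℝ} (h : ∀ ω, 0 ≤ f ω) : 0 ≤ ex f := by
  unfold ex
  exact div_nonneg (Finset.sum_nonneg fun ω _ => h ω) (Nat.cast_nonneg _)

lemma ex_const [Nonempty Ω] (c : ℝ) : ex (fun _ : Ω => c) = c := by
  unfold ex
  have : (Fintype.card Ω : ℝ) ≠ 0 := by exact_mod_cast Fintype.card_ne_zero
  simp only [Finset.sum_const, Finset.card_univ, nsmul_eq_mul]
  field_simp

lemma ex_le_of_le [Nonempty Ω] {f : Ω → ℝ} {c : ℝ} (h : ∀ ω, f ω ≤ c) : ex f ≤ c := by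
  have := ex_mono (f := f) (g := fun _ => c) h
  rwa [ex_const] at this

lemma ex_sum {κ : Type} (S : Finset κ) (f : κ → Ω → ℝ) :
    ex (fun ω => ∑ t ∈ S, f t ω) = ∑ t ∈ S, ex (f t) := by
  unfold ex
  rw [Finset.sum_comm, Finset.sum_div]

lemma ex_add (f g : Ω → ℝ) : ex (fun ω => f ω + g ω) = ex f + ex g := by
  unfold ex
  rw [Finset.sum_add_distrib, add_div]

lemma ex_const_mul (c : ℝ) (f : Ω → ℝ) : ex (fun ω => c * f ω) = c * ex f := by
  unfold ex
  rw [← Finset.mul_sum, mul_div_assoc]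

lemma ex_mul_const (c : ℝ) (f : Ω → ℝ) : ex (fun ω => f ω * c) = ex f * c := by
  unfold ex
  rw [← Finset.sum_mul]; ring

lemma ex_equiv {Ω' : Type} [Fintype Ω'] (e : Ω ≃ Ω') (f : Ω' → ℝ) :
    ex (fun ω => f (e ω)) = ex f := by
  unfold ex
  rw [Equiv.sum_comp e f, Fintype.card_congr e]

lemma ex_prod {A B : Type} [Fintype A] [Fintype B] (f : A × B → ℝ) :
    ex f = ex fun a => ex fun b => f (a, b) := by
  unfold ex
  rw [Fintype.sum_prod_type, Fintype.card_prod, ← Finset.sum_div]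
  push_cast
  rw [div_div, mul_comm]

lemma ex_comm {A B : Type} [Fintype A] [Fintype B] (f : A → B → ℝ) :
    (ex fun a => ex fun b => f a b) = ex fun b => ex fun a => f a b := by
  unfold ex
  simp only [← Finset.sum_div]
  rw [Finset.sum_comm, div_div, div_div, mul_comm]

lemma ex_prod_mul {A B : Type} [Fintype A] [Fintype B] (f : A → ℝ) (g : B → ℝ) :
    ex (fun x : A × B => f x.1 * g x.2) = ex f * ex g := by
  rw [ex_prod]
  simp only [ex_const_mul]
  rw [ex_mul_const]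

lemma ex_pi {ι : Type} [Fintype ι] [DecidableEq ι] {A : ι → Type} [∀ i, Fintype (A i)]
    (g : ∀ i, A i → ℝ) :
    ex (fun ω : (∀ i, A i) => ∏ i, g i (ω i)) = ∏ i, ex (g i) := by
  unfold ex
  rw [Finset.prod_div_distrib, Fintype.prod_sum]
  simp

lemma exists_le_ex [Nonempty Ω] (f : Ω → ℝ) : ∃ ω, f ω ≤ ex f := by
  by_contra h
  push Not at h
  have h1 : ∑ _ω : Ω, ex f < ∑ ω, f ω :=
    Finset.sum_lt_sum_of_nonempty Finset.univ_nonempty fun ω _ => h ω
  have : (Fintype.card Ω : ℝ) ≠ 0 := by exact_mod_cast Fintype.card_ne_zero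
  simp only [Finset.sum_const, Finset.card_univ, nsmul_eq_mul] at h1
  unfold ex at h1
  rw [mul_div_cancel₀ _ this] at h1
  exact lt_irrefl _ h1

lemma pr_nonneg (E : Ω → Prop) : 0 ≤ pr E := ex_nonneg fun _ => ind_nonneg _

lemma pr_le_one [Nonempty Ω] (E : Ω → Prop) : pr E ≤ 1 :=
  ex_le_of_le fun _ => ind_le_one _

lemma pr_mono {E F : Ω → Prop} (h : ∀ ω, E ω → F ω) : pr E ≤ pr F :=
  ex_mono fun ω => ind_mono (h ω)

lemma pr_or_le (E F : Ω → Prop) : pr (fun ω => E ω ∨ F ω) ≤ pr E + pr F := by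
  unfold pr
  rw [← ex_add]
  exact ex_mono fun ω => ind_or_le _ _

lemma pr_false {E : Ω → Prop} (h : ∀ ω, ¬ E ω) : pr E = 0 := by
  unfold pr ex
  simp only [fun ω => ind_neg (h ω)]
  simp

lemma pr_exists_le {κ : Type} (S : Finset κ) (E : κ → Ω → Prop) :
    pr (fun ω => ∃ t ∈ S, E t ω) ≤ ∑ t ∈ S, pr (E t) := by
  unfold pr
  rw [← ex_sum]
  refine ex_mono fun ω => ?_
  by_cases h : ∃ t ∈ S, E t ω
  · rw [ind_pos h]
    obtain ⟨t, ht, hE⟩ := h
    calc (1 : ℝ) = ind (E t ω) := (ind_pos hE).symm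
      _ ≤ _ := Finset.single_le_sum (f := fun t => ind (E t ω)) (fun t _ => ind_nonneg _) ht
  · rw [ind_neg h]; exact Finset.sum_nonneg fun t _ => ind_nonneg _

lemma pr_le_card_mul {κ : Type} (S : Finset κ) (E : κ → Ω → Prop) (F : Ω → Prop) (θ : ℝ)
    (hF : ∀ ω, F ω → ∃ t ∈ S, E t ω) (hθ : ∀ t ∈ S, pr (E t) ≤ θ) :
    pr F ≤ S.card * θ := by
  calc pr F ≤ pr (fun ω => ∃ t ∈ S, E t ω) := pr_mono hF
    _ ≤ ∑ t ∈ S, pr (E t) := pr_exists_le S E
    _ ≤ ∑ _t ∈ S, θ := Finset.sum_le_sum hθ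
    _ = S.card * θ := by simp

lemma pr_eq_card (E : Ω → Prop) [DecidablePred E] :
    pr E = ((Finset.univ.filter E).card : ℝ) / Fintype.card Ω := by
  unfold pr ex
  rw [sum_ind_eq_card]

lemma pr_prod_and {A B : Type} [Fintype A] [Fintype B] (E : A → Prop) (F : B → Prop) :
    pr (fun x : A × B => E x.1 ∧ F x.2) = pr E * pr F := by
  unfold pr
  rw [← ex_prod_mul]
  exact ex_congr fun x => ind_and _ _

lemma pr_pi {ι : Type} [Fintype ι] [DecidableEq ι] {A : ι → Type} [∀ i, Fintype (A i)]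
    (E : ∀ i, A i → Prop) :
    pr (fun ω : (∀ i, A i) => ∀ i, E i (ω i)) = ∏ i, pr (E i) := by
  unfold pr
  rw [← ex_pi]
  exact ex_congr fun x => ind_forall _

lemma pr_eq_le {A : Type} [Fintype A] (a : A) : pr (fun x => x = a) = 1 / Fintype.card A := by
  classical
  rw [pr_eq_card]
  have : (Finset.univ.filter fun x => x = a) = {a} := by ext x; simp
  rw [this]; simp

/-- Coordinates along an injection are jointly uniform. -/
lemma ex_comp_inj {ι κ A : Type} [Fintype ι] [DecidableEq ι] [Fintype κ] [DecidableEq κ]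
    [Fintype A] [Nonempty A] (σ : κ → ι) (hσ : Function.Injective σ) (F : (κ → A) → ℝ) :
    ex (fun f : ι → A => F (f ∘ σ)) = ex F := by
  classical
  let e1 := Equiv.piEquivPiSubtypeProd (fun i => i ∈ Set.range σ) (fun _ : ι => A)
  let e2 : (Set.range σ → A) ≃ (κ → A) :=
    Equiv.arrowCongr (Equiv.ofInjective σ hσ).symm (Equiv.refl A)
  have h1 : (fun f : ι → A => F (f ∘ σ)) = fun f => (fun y => F (e2 y.1)) (e1 f) := by
    funext f
    congr 1
  rw [h1, ex_equiv e1 (fun y => F (e2 y.1)), ex_prod]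
  simp only [ex_const]
  exact ex_equiv e2 F

lemma ex_pair {ι A : Type} [Fintype ι] [DecidableEq ι] [Fintype A] [Nonempty A]
    (i j : ι) (hij : i ≠ j) (F : A × A → ℝ) :
    ex (fun f : ι → A => F (f i, f j)) = ex F := by
  have hσ : Function.Injective (![i, j] : Fin 2 → ι) := by
    intro a b hab
    fin_cases a <;> fin_cases b <;> simp_all [eq_comm]
  have := ex_comp_inj (A := A) _ hσ (fun g => F (g 0, g 1))
  simp only [Function.comp, Matrix.cons_val_zero, Matrix.cons_val_one] at this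
  rw [this]
  exact ex_equiv (piFinTwoEquiv fun _ => A) F

/-- Functions on `Fin 3` as triples. -/
def fin3Equiv (A : Type) : (Fin 3 → A) ≃ A × A × A where
  toFun g := (g 0, g 1, g 2)
  invFun x := ![x.1, x.2.1, x.2.2]
  left_inv g := by funext k; fin_cases k <;> rfl
  right_inv x := rfl

lemma ex_triple {ι A : Type} [Fintype ι] [DecidableEq ι] [Fintype A] [Nonempty A]
    (i j k : ι) (hij : i ≠ j) (hik : i ≠ k) (hjk : j ≠ k) (F : A × A × A → ℝ) :
    ex (fun f : ι → A => F (f i, f j, f k)) = ex F := by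
  have hσ : Function.Injective (![i, j, k] : Fin 3 → ι) := by
    intro a b hab
    fin_cases a <;> fin_cases b <;> simp_all [eq_comm]
  have := ex_comp_inj (A := A) _ hσ (fun g => F (g 0, g 1, g 2))
  simp only [Function.comp, Matrix.cons_val_zero, Matrix.cons_val_one, Matrix.cons_val_two,
    Matrix.head_cons, Matrix.tail_cons] at this
  rw [this]
  exact ex_equiv (fin3Equiv A) F

/-- Alteration: with bad pairs and bad triples rare on average, there are `n` sample points with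
no bad pair and no bad triple. -/
theorem alteration {A : Type} [Fintype A] [Nonempty A] [Nonempty Ω] (n : ℕ)
    (B2 : Ω → A → A → Prop) (B3 : Ω → A → A → A → Prop) (ε2 ε3 : ℝ)
    (h2 : ex (fun x : A × A => pr fun ω => B2 ω x.1 x.2) ≤ ε2)
    (h3 : ex (fun x : A × A × A => pr fun ω => B3 ω x.1 x.2.1 x.2.2) ≤ ε3)
    (hn : 4 * n * ε2 + 8 * (n : ℝ) ^ 2 * ε3 ≤ 1) :
    ∃ ω : Ω, ∃ f : Fin n → A, (∀ i j, i ≠ j → ¬ B2 ω (f i) (f j)) ∧
      ∀ i j k, i ≠ j → i ≠ k → j ≠ k → ¬ B3 ω (f i) (f j) (f k) := by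
  classical
  have hε2 : 0 ≤ ε2 := le_trans (ex_nonneg fun _ => pr_nonneg _) h2
  have hε3 : 0 ≤ ε3 := le_trans (ex_nonneg fun _ => pr_nonneg _) h3
  set I := Fin (2 * n)
  let P2 : Finset (I × I) := univ.filter fun x => x.1 ≠ x.2
  let P3 : Finset (I × I × I) := univ.filter fun x => x.1 ≠ x.2.1 ∧ x.1 ≠ x.2.2 ∧ x.2.1 ≠ x.2.2
  let Z : Ω × (I → A) → ℝ := fun y =>
    ∑ x ∈ P2, ind (B2 y.1 (y.2 x.1) (y.2 x.2)) +
      ∑ x ∈ P3, ind (B3 y.1 (y.2 x.1) (y.2 x.2.1) (y.2 x.2.2))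
  have hZ : ex Z ≤ n := by
    have e2 : ∀ x ∈ P2, ex (fun y : Ω × (I → A) => ind (B2 y.1 (y.2 x.1) (y.2 x.2))) ≤ ε2 := by
      intro x hx
      have hx' : x.1 ≠ x.2 := by simpa [P2] using hx
      rw [ex_prod, ex_comm]
      exact le_trans (le_of_eq (ex_pair x.1 x.2 hx' (fun z => pr fun ω => B2 ω z.1 z.2))) h2
    have e3 : ∀ x ∈ P3, ex (fun y : Ω × (I → A) =>
        ind (B3 y.1 (y.2 x.1) (y.2 x.2.1) (y.2 x.2.2))) ≤ ε3 := by
      intro x hx
      have hx' : x.1 ≠ x.2.1 ∧ x.1 ≠ x.2.2 ∧ x.2.1 ≠ x.2.2 := by simpa [P3] using hx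
      rw [ex_prod, ex_comm]
      exact le_trans (le_of_eq (ex_triple x.1 x.2.1 x.2.2 hx'.1 hx'.2.1 hx'.2.2
        (fun z => pr fun ω => B3 ω z.1 z.2.1 z.2.2))) h3
    have c2 : (P2.card : ℝ) ≤ (2 * n) ^ 2 := by
      have : P2.card ≤ Fintype.card (I × I) := Finset.card_le_univ _
      simp only [Fintype.card_prod, I, Fintype.card_fin] at this
      have h' : (P2.card : ℝ) ≤ ((2 * n * (2 * n) : ℕ) : ℝ) := by exact_mod_cast this
      push_cast at h'; nlinarith
    have c3 : (P3.card : ℝ) ≤ (2 * n) ^ 3 := by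
      have : P3.card ≤ Fintype.card (I × I × I) := Finset.card_le_univ _
      simp only [Fintype.card_prod, I, Fintype.card_fin] at this
      have h' : (P3.card : ℝ) ≤ ((2 * n * (2 * n * (2 * n)) : ℕ) : ℝ) := by exact_mod_cast this
      push_cast at h'; nlinarith
    simp only [Z]
    rw [ex_add, ex_sum, ex_sum]
    have s2 := Finset.sum_le_card_nsmul _ _ _ e2
    have s3 := Finset.sum_le_card_nsmul _ _ _ e3
    rw [nsmul_eq_mul] at s2 s3
    have hn0 : (0 : ℝ) ≤ n := Nat.cast_nonneg n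
    have t2 := mul_le_mul_of_nonneg_right c2 hε2
    have t3 := mul_le_mul_of_nonneg_right c3 hε3
    have := mul_le_mul_of_nonneg_left hn hn0
    nlinarith
  obtain ⟨⟨ω, g⟩, hy⟩ := exists_le_ex Z
  let D2 := (P2.filter fun x => B2 ω (g x.1) (g x.2)).image fun x => x.1
  let D3 := (P3.filter fun x => B3 ω (g x.1) (g x.2.1) (g x.2.2)).image fun x => x.1
  have hD : (D2 ∪ D3).card ≤ n := by
    have h1 : ((D2 ∪ D3).card : ℝ) ≤ Z (ω, g) := by
      simp only [Z]
      rw [sum_ind_eq_card, sum_ind_eq_card]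
      have a1 := Finset.card_union_le D2 D3
      have a2 : D2.card ≤ _ := Finset.card_image_le
      have a3 : D3.card ≤ _ := Finset.card_image_le
      exact_mod_cast le_trans a1 (add_le_add a2 a3)
    exact_mod_cast le_trans h1 (le_trans hy hZ)
  have hS : n ≤ (univ \ (D2 ∪ D3)).card := by
    rw [Finset.card_univ_sdiff]
    simp only [I, Fintype.card_fin]
    omega
  obtain ⟨S, hSsub, hScard⟩ := Finset.exists_subset_card_eq hS
  let σ : Fin n ↪o I := S.orderEmbOfFin hScard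
  have hσ : ∀ i, σ i ∉ D2 ∪ D3 := fun i => by
    have := hSsub (S.orderEmbOfFin_mem hScard i)
    exact (Finset.mem_sdiff.mp this).2
  refine ⟨ω, fun i => g (σ i), fun i j hij hB => hσ i ?_, fun i j k hij hik hjk hB => hσ i ?_⟩
  · refine Finset.mem_union_left _ (Finset.mem_image.mpr ⟨(σ i, σ j), ?_, rfl⟩)
    simp only [P2, Finset.mem_filter, Finset.mem_univ, true_and]
    exact ⟨σ.injective.ne hij, hB⟩
  · refine Finset.mem_union_right _ (Finset.mem_image.mpr ⟨(σ i, σ j, σ k), ?_, rfl⟩)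
    simp only [P3, Finset.mem_filter, Finset.mem_univ, true_and]
    exact ⟨⟨σ.injective.ne hij, σ.injective.ne hik, σ.injective.ne hjk⟩, hB⟩

end Crest.Agent.R032
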