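import Crest.Agent.R032.Cases

/-!
Parameters and the random point configuration (row 32).
-/

set_option autoImplicit false
set_option linter.unusedSectionVars false

namespace Crest.Agent.R032

open Finset Matrix

/-- All parameters of the construction. -/
structure Par (d : ℕ) where
  p : ℕ
  q : ℕ
  m0 : ℕ
  Q : ℕ
  m : Fin d → ℕ
  hp : p.Prime
  hq : q.Prime
  hm0 : m0.Prime
  hQ : Q.Prime
  hm : ∀ i, (m i).Prime
  hinj : Function.Injective m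
  φ : Fin d → Fin (p ^ 3) → Fin 3 → ZMod p
  hφ : ∀ x y z, x ≠ y → x ≠ z → y ≠ z → ∑ i, dot (cr (φ i x) (φ i y)) (φ i z) ≠ 0
  ν : ZMod Q
  hν : ¬ IsSquare ν
  m_lo : ∀ i, 24 * d * p ^ 15 ≤ m i
  m_hi : ∀ i, m i ≤ p ^ 16
  q_lo : (∏ i, m i) ^ 5 * p ^ 2 ≤ q
  m0_lo : 8 * p * q ^ 2 ≤ m0
  m0_hi : m0 ≤ 16 * p * q ^ 2
  Q_lo : (m0 * ∏ i, m i) ^ 14 ≤ Q

namespace Par

variable {d : ℕ} (P : Par d)

instance : Fact P.p.Prime := ⟨P.hp⟩
instance : Fact P.q.Prime := ⟨P.hq⟩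
instance : Fact P.m0.Prime := ⟨P.hm0⟩
instance : Fact P.Q.Prime := ⟨P.hQ⟩
instance (i : Fin d) : Fact (P.m i).Prime := ⟨P.hm i⟩
instance : Nonempty (Fin (P.p ^ 3)) := ⟨⟨0, pow_pos P.hp.pos _⟩⟩
instance : Nonempty (Fin (P.p ^ 4)) := ⟨⟨0, pow_pos P.hp.pos _⟩⟩

/-- Product of the small primes. -/
def M' : ℕ := ∏ i, P.m i
/-- The modulus that fixes the determinant. -/
def M : ℕ := P.m0 * P.M'
/-- The size of the box. -/
def N : ℕ := P.M * P.Q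
/-- Cofactor. -/
def cof (i : Fin d) : ℕ := P.m0 * ∏ j ∈ univ.erase i, P.m j

lemma M'_pos : 0 < P.M' := Finset.prod_pos fun i _ => (P.hm i).pos

lemma m_dvd (i : Fin d) : P.m i ∣ P.M' := Finset.dvd_prod_of_mem _ (Finset.mem_univ i)

lemma m_le (i : Fin d) : P.m i ≤ P.M' := Nat.le_of_dvd P.M'_pos (P.m_dvd i)

lemma cof_mul (i : Fin d) : P.cof i * P.m i = P.M := by
  unfold cof M M'
  rw [mul_assoc, Finset.prod_erase_mul _ _ (Finset.mem_univ i)]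

lemma M'_le_q : P.M' ^ 5 * 4 ≤ P.q := by
  have h2 : 4 ≤ P.p ^ 2 := by nlinarith [P.hp.two_le]
  exact le_trans (Nat.mul_le_mul_left _ h2) P.q_lo

lemma M'_le_pow (k : ℕ) (hk : k ≠ 0) : P.M' ≤ P.M' ^ k := Nat.le_self_pow hk _

lemma q_sq_le : 16 * P.q ^ 2 ≤ P.m0 := by
  have h := P.m0_lo
  have h2 := P.hp.two_le
  nlinarith [Nat.zero_le (P.q ^ 2)]

lemma q_le_m0 : 16 * P.q ≤ P.m0 :=
  le_trans (Nat.mul_le_mul_left _ (Nat.le_self_pow two_ne_zero _)) P.q_sq_le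

lemma M'_le_m0 : 3 * P.M' ≤ P.m0 := by
  have h1 := P.M'_le_q
  have h2 := P.q_le_m0
  have h3 := P.M'_le_pow 5 (by norm_num)
  omega

lemma M'4_le : P.M' ^ 4 ≤ P.m0 ^ 2 := by
  have h1 := P.M'_le_q
  have h2 := P.q_le_m0
  have h3 : P.M' ^ 4 ≤ P.M' ^ 5 := Nat.pow_le_pow_right P.M'_pos (by norm_num)
  have h4 : P.m0 ≤ P.m0 ^ 2 := Nat.le_self_pow two_ne_zero _
  omega

lemma p_lt_m0 : P.p < P.m0 := by
  have h := P.m0_lo
  have h2 : 1 ≤ P.q ^ 2 := Nat.one_le_pow _ _ P.hq.pos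
  have h3 := P.hp.pos
  nlinarith

lemma m0_le_M : P.m0 ≤ P.M := Nat.le_mul_of_pos_right _ P.M'_pos

lemma M'_le_M : P.M' ≤ P.M := Nat.le_mul_of_pos_left _ P.hm0.pos

lemma M_ge : 64 ≤ P.M := by
  have h1 := P.q_sq_le
  have h2 : 4 ≤ P.q ^ 2 := by nlinarith [P.hq.two_le]
  have h3 := P.m0_le_M
  omega

lemma M_pos : 0 < P.M := lt_of_lt_of_le (by norm_num) P.M_ge

lemma M_lt_Q : P.M < P.Q := by
  have h1 : P.M ^ 14 ≤ P.Q := P.Q_lo
  have h2 : P.M ^ 1 < P.M ^ 14 := Nat.pow_lt_pow_right (by have := P.M_ge; omega) (by norm_num)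
  rw [pow_one] at h2
  omega

lemma N_pos : 0 < P.N := Nat.mul_pos P.M_pos P.hQ.pos

lemma p5_lt (i : Fin d) : P.p ^ 5 < P.m i := by
  have h1 := P.m_lo i
  have h2 : 1 ≤ d := i.pos
  have h3 : P.p ^ 5 ≤ P.p ^ 15 := Nat.pow_le_pow_right P.hp.pos (by norm_num)
  have h4 : 1 ≤ P.p ^ 15 := Nat.one_le_pow _ _ P.hp.pos
  nlinarith

lemma p_lt_m (i : Fin d) : P.p < P.m i :=
  lt_of_le_of_lt (Nat.le_self_pow (by norm_num) _) (P.p5_lt i)

lemma cop_m0 (i : Fin d) : Nat.Coprime P.m0 (P.m i) := by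
  refine (Nat.coprime_primes P.hm0 (P.hm i)).mpr fun h => ?_
  have h1 := P.m_le i
  have h2 := P.M'_le_m0
  have h3 := P.M'_pos
  omega

lemma cop_m0_M' : Nat.Coprime P.m0 P.M' := Nat.Coprime.prod_right fun i _ => P.cop_m0 i

lemma cop_M_Q : Nat.Coprime P.M P.Q :=
  ((Nat.coprime_of_lt_prime P.M_pos.ne' P.M_lt_Q P.hQ)).symm

lemma cop_cof_m (i : Fin d) : Nat.Coprime (P.cof i) (P.m i) := by
  refine Nat.Coprime.mul_left (P.cop_m0 i) (Nat.Coprime.prod_left fun j hj => ?_)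
  exact (Nat.coprime_primes (P.hm j) (P.hm i)).mpr fun h =>
    (Finset.mem_erase.mp hj).1 (P.hinj h)

lemma cop_cof_p (i : Fin d) : Nat.Coprime (P.cof i) P.p := by
  refine Nat.Coprime.mul_left ?_ (Nat.Coprime.prod_left fun j _ => ?_)
  · exact (Nat.coprime_primes P.hm0 P.hp).mpr P.p_lt_m0.ne'
  · exact (Nat.coprime_primes (P.hm j) P.hp).mpr (P.p_lt_m j).ne'

lemma cast_ne_zero_of_coprime {a m : ℕ} [hm : Fact m.Prime] (h : Nat.Coprime a m) :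
    (a : ZMod m) ≠ 0 := by
  rw [Ne, ZMod.natCast_eq_zero_iff]
  intro h1
  exact hm.out.one_lt.ne' (Nat.Coprime.eq_one_of_dvd h.symm h1)

lemma exists_crt (a : ZMod P.m0) (b : ∀ i, ZMod (P.m i)) (c : ZMod P.Q) :
    ∃ z : ℤ, 0 ≤ z ∧ z < P.N ∧ (z : ZMod P.m0) = a ∧ (∀ i, (z : ZMod (P.m i)) = b i) ∧
      (z : ZMod P.Q) = c := by
  obtain ⟨k1, hk1⟩ := Nat.chineseRemainderOfFinset (fun i => (b i).val) P.m univ
    (fun i _ => (P.hm i).ne_zero) (fun i _ j _ hij =>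
      (Nat.coprime_primes (P.hm i) (P.hm j)).mpr fun h => hij (P.hinj h))
  obtain ⟨k2, hk2, hk2'⟩ := Nat.chineseRemainder P.cop_m0_M' a.val k1
  obtain ⟨k3, hk3, hk3'⟩ := Nat.chineseRemainder P.cop_M_Q k2 c.val
  have h4 : k3 % P.N ≡ k3 [MOD P.N] := Nat.mod_modEq _ _
  have hMN : P.M ∣ P.N := dvd_mul_right _ _
  refine ⟨(k3 % P.N : ℕ), Nat.cast_nonneg _, by exact_mod_cast Nat.mod_lt _ P.N_pos, ?_, ?_, ?_⟩
  · rw [Int.cast_natCast, ← ZMod.natCast_zmod_val a, ZMod.natCast_eq_natCast_iff]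
    have h0 : P.m0 ∣ P.M := dvd_mul_right _ _
    exact ((h4.of_dvd (h0.trans hMN)).trans (hk3.of_dvd h0)).trans hk2
  · intro i
    rw [Int.cast_natCast, ← ZMod.natCast_zmod_val (b i), ZMod.natCast_eq_natCast_iff]
    have h0 : P.M' ∣ P.M := dvd_mul_left _ _
    have h1 := P.m_dvd i
    exact (((h4.of_dvd (h1.trans (h0.trans hMN))).trans (hk3.of_dvd (h1.trans h0))).trans
      (hk2'.of_dvd h1)).trans (hk1 i (Finset.mem_univ i))
  · rw [Int.cast_natCast, ← ZMod.natCast_zmod_val c, ZMod.natCast_eq_natCast_iff]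
    exact (h4.of_dvd (dvd_mul_left _ _)).trans hk3'

/-- The Chinese remainder lift. -/
noncomputable def crt (a : ZMod P.m0) (b : ∀ i, ZMod (P.m i)) (c : ZMod P.Q) : ℤ :=
  Classical.choose (P.exists_crt a b c)

lemma crt_spec (a : ZMod P.m0) (b : ∀ i, ZMod (P.m i)) (c : ZMod P.Q) :
    0 ≤ P.crt a b c ∧ P.crt a b c < P.N ∧ (P.crt a b c : ZMod P.m0) = a ∧
      (∀ i, (P.crt a b c : ZMod (P.m i)) = b i) ∧ (P.crt a b c : ZMod P.Q) = c :=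
  Classical.choose_spec (P.exists_crt a b c)

/-- Labels of points. -/
abbrev Pt := ZMod P.q × Fin (P.p ^ 3) × (Fin d → Fin 3 → Fin (P.p ^ 4)) × (ZMod P.Q × ZMod P.Q)

/-- Determinant used at the large prime. -/
def l0 : ZMod P.m0 := (P.M' : ZMod P.m0)
/-- Determinant used at a small prime. -/
noncomputable def li (i : Fin d) : ZMod (P.m i) := (P.cof i : ZMod (P.m i)) * (P.p : ZMod (P.m i))⁻¹

lemma l0_ne : P.l0 ≠ 0 := cast_ne_zero_of_coprime P.cop_m0_M'.symm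

lemma p_ne (i : Fin d) : (P.p : ZMod (P.m i)) ≠ 0 :=
  cast_ne_zero_of_coprime ((Nat.coprime_primes P.hp (P.hm i)).mpr (P.p_lt_m i).ne)

lemma li_ne (i : Fin d) : P.li i ≠ 0 :=
  mul_ne_zero (cast_ne_zero_of_coprime (P.cop_cof_m i)) (inv_ne_zero (P.p_ne i))

/-- The probability space. -/
abbrev Om := Gs (ZMod P.m0) P.l0 × (∀ i, Gs (ZMod (P.m i)) (P.li i)) ×
  (Gs (ZMod P.Q) 1 × (Fin 3 → ZMod P.Q))

/-- Conic points. -/
def x0 (s : ZMod P.q) : V3 := ![1, (s.val : ℤ), ((s ^ 2).val : ℤ)]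

/-- Rescaled residues. -/
noncomputable def ψ (i : Fin d) (r : Fin (P.p ^ 3)) : Fin 3 → ZMod P.p :=
  ![(P.cof i : ZMod P.p)⁻¹ * P.φ i r 0, P.φ i r 1, P.φ i r 2]

/-- Random lifts. -/
noncomputable def xi (i : Fin d) (r : Fin (P.p ^ 3)) (ξ : Fin 3 → Fin (P.p ^ 4)) : V3 :=
  fun k => P.p * ((ξ k : ℕ) + 1) - ((- P.ψ i r k).val : ℤ)

/-- Cap points. -/
def cap (c : ZMod P.Q × ZMod P.Q) : Fin 3 → ZMod P.Q := ![c.1, c.2, c.1 ^ 2 - P.ν * c.2 ^ 2]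

/-- Residue vector of a point at the large prime. -/
def y0 (π : P.Pt) : Fin 3 → ZMod P.m0 := red P.m0 (P.x0 π.1)
/-- Residue vector of a point at a small prime. -/
noncomputable def yi (i : Fin d) (π : P.Pt) : Fin 3 → ZMod (P.m i) :=
  red (P.m i) (P.xi i π.2.1 (π.2.2.1 i))

/-- The integer vector of a point. -/
noncomputable def V (ω : P.Om) (π : P.Pt) : V3 := fun k =>
  P.crt ((ω.1.1 *ᵥ P.y0 π) k) (fun i => ((ω.2.1 i).1 *ᵥ P.yi i π) k)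
    ((ω.2.2.1.1 *ᵥ P.cap π.2.2.2 + ω.2.2.2) k) + if k = 0 then P.N else 0

lemma V_zero (ω : P.Om) (π : P.Pt) : (P.N : ℤ) ≤ P.V ω π 0 ∧ P.V ω π 0 < 2 * P.N := by
  have := P.crt_spec ((ω.1.1 *ᵥ P.y0 π) 0) (fun i => ((ω.2.1 i).1 *ᵥ P.yi i π) 0)
    ((ω.2.2.1.1 *ᵥ P.cap π.2.2.2 + ω.2.2.2) 0)
  simp only [V, if_true]
  constructor <;> linarith [this.1, this.2.1]

lemma V_ne (ω : P.Om) (π : P.Pt) (k : Fin 3) (hk : k ≠ 0) : 0 ≤ P.V ω π k ∧ P.V ω π k < P.N := by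
  have := P.crt_spec ((ω.1.1 *ᵥ P.y0 π) k) (fun i => ((ω.2.1 i).1 *ᵥ P.yi i π) k)
    ((ω.2.2.1.1 *ᵥ P.cap π.2.2.2 + ω.2.2.2) k)
  simp only [V, if_neg hk, Nat.cast_zero, add_zero]
  constructor <;> linarith [this.1, this.2.1]

lemma V_range (ω : P.Om) (π : P.Pt) (k : Fin 3) :
    0 ≤ P.V ω π k ∧ P.V ω π k ≤ (2 * P.N : ℕ) := by
  push_cast
  have hN : (0 : ℤ) ≤ P.N := Nat.cast_nonneg _
  by_cases hk : k = 0
  · subst hk
    have := P.V_zero ω π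
    constructor <;> linarith [this.1, this.2]
  · have := P.V_ne ω π k hk
    constructor <;> linarith [this.1, this.2]

lemma red_V0 (ω : P.Om) (π : P.Pt) : red P.m0 (P.V ω π) = ω.1.1 *ᵥ P.y0 π := by
  funext k
  have := (P.crt_spec ((ω.1.1 *ᵥ P.y0 π) k) (fun i => ((ω.2.1 i).1 *ᵥ P.yi i π) k)
    ((ω.2.2.1.1 *ᵥ P.cap π.2.2.2 + ω.2.2.2) k)).2.2.1
  have hN : (P.N : ZMod P.m0) = 0 := (ZMod.natCast_eq_zero_iff _ _).mpr
    ((dvd_mul_right _ _).trans (dvd_mul_right P.M P.Q))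
  simp only [red_apply, V, Int.cast_add, this]
  split_ifs <;> simp [hN]

lemma red_Vi (ω : P.Om) (π : P.Pt) (i : Fin d) :
    red (P.m i) (P.V ω π) = (ω.2.1 i).1 *ᵥ P.yi i π := by
  funext k
  have := (P.crt_spec ((ω.1.1 *ᵥ P.y0 π) k) (fun i => ((ω.2.1 i).1 *ᵥ P.yi i π) k)
    ((ω.2.2.1.1 *ᵥ P.cap π.2.2.2 + ω.2.2.2) k)).2.2.2.1 i
  have hN : (P.N : ZMod (P.m i)) = 0 := (ZMod.natCast_eq_zero_iff _ _).mpr
    ((P.m_dvd i).trans ((dvd_mul_left _ _).trans (dvd_mul_right P.M P.Q)))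
  simp only [red_apply, V, Int.cast_add, this]
  split_ifs <;> simp [hN]

lemma red_VQ (ω : P.Om) (π : P.Pt) :
    red P.Q (P.V ω π) = ω.2.2.1.1 *ᵥ P.cap π.2.2.2 + ω.2.2.2 := by
  funext k
  have := (P.crt_spec ((ω.1.1 *ᵥ P.y0 π) k) (fun i => ((ω.2.1 i).1 *ᵥ P.yi i π) k)
    ((ω.2.2.1.1 *ᵥ P.cap π.2.2.2 + ω.2.2.2) k)).2.2.2.2
  have hN : (P.N : ZMod P.Q) = 0 := (ZMod.natCast_eq_zero_iff _ _).mpr (dvd_mul_left _ _)
  simp only [red_apply, V, Int.cast_add, this]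
  split_ifs <;> simp [hN]

lemma xi_range (i : Fin d) (r : Fin (P.p ^ 3)) (ξ : Fin 3 → Fin (P.p ^ 4)) (k : Fin 3) :
    1 ≤ P.xi i r ξ k ∧ P.xi i r ξ k ≤ (P.p ^ 5 : ℕ) := by
  have h1 : ((- P.ψ i r k).val : ℤ) < P.p := by exact_mod_cast ZMod.val_lt _
  have h2 : (0 : ℤ) ≤ ((- P.ψ i r k).val : ℤ) := Nat.cast_nonneg _
  have h3 : ((ξ k : ℕ) : ℤ) + 1 ≤ (P.p : ℤ) ^ 4 := by exact_mod_cast (ξ k).2
  have h4 : (0 : ℤ) ≤ ((ξ k : ℕ) : ℤ) := Nat.cast_nonneg _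
  have h5 : (0 : ℤ) < P.p := by exact_mod_cast P.hp.pos
  unfold xi
  push_cast
  constructor
  · nlinarith
  · nlinarith

lemma nrm_xi (i : Fin d) (r : Fin (P.p ^ 3)) (ξ : Fin 3 → Fin (P.p ^ 4)) :
    nrm (P.xi i r ξ) ≤ P.p ^ 5 := by
  rw [nrm_le_iff]
  intro k
  have := P.xi_range i r ξ k
  rw [abs_le]; constructor <;> linarith [this.1, this.2]

lemma red_xi (i : Fin d) (r : Fin (P.p ^ 3)) (ξ : Fin 3 → Fin (P.p ^ 4)) :
    red P.p (P.xi i r ξ) = P.ψ i r := by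
  funext k; simp [xi]

lemma yi_ne (i : Fin d) (π : P.Pt) (k : Fin 3) : P.yi i π k ≠ 0 := by
  intro h
  have h1 := (ZMod.intCast_zmod_eq_zero_iff_dvd _ _).mp h
  have h2 := P.xi_range i π.2.1 (π.2.2.1 i) k
  have h3 := Int.le_of_dvd (by linarith [h2.1]) h1
  have h4 : ((P.p ^ 5 : ℕ) : ℤ) < P.m i := by exact_mod_cast P.p5_lt i
  linarith [h2.2]

lemma yi_ne_zero (i : Fin d) (π : P.Pt) : P.yi i π ≠ 0 := fun h => P.yi_ne i π 0 (congrFun h 0)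

lemma red_xi_inj (i : Fin d) (r : Fin (P.p ^ 3)) (ξ ξ' : Fin 3 → Fin (P.p ^ 4)) (k : Fin 3)
    (h : red (P.m i) (P.xi i r ξ) k = red (P.m i) (P.xi i r ξ') k) : ξ k = ξ' k := by
  simp only [red_apply, xi] at h
  push_cast at h
  have h1 : (((ξ k : ℕ) : ℕ) : ZMod (P.m i)) = ((ξ' k : ℕ) : ZMod (P.m i)) := by
    apply mul_left_cancel₀ (P.p_ne i)
    linear_combination h
  rw [ZMod.natCast_eq_natCast_iff] at h1
  have h2 : P.p ^ 4 ≤ P.m i :=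
    le_trans (Nat.pow_le_pow_right P.hp.pos (by norm_num)) (P.p5_lt i).le
  exact Fin.ext (Nat.ModEq.eq_of_lt_of_lt h1 (lt_of_lt_of_le (ξ k).2 h2)
    (lt_of_lt_of_le (ξ' k).2 h2))

/-- Three distinct cap points are not collinear. -/
lemma cap_cr (a b c : ZMod P.Q × ZMod P.Q) (hab : a ≠ b) (hac : a ≠ c) (hbc : b ≠ c) :
    cr (P.cap b - P.cap a) (P.cap c - P.cap a) ≠ 0 := by
  intro h
  have h0 : P.cap b - P.cap a ≠ 0 := by
    intro h1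
    have e0 := congrFun h1 0
    have e1 := congrFun h1 1
    simp only [cap, Pi.sub_apply, Matrix.cons_val_zero, Matrix.cons_val_one, Pi.zero_apply,
      sub_eq_zero] at e0 e1
    exact hab (Prod.ext e0.symm e1.symm)
  obtain ⟨t, ht⟩ := exists_smul_of_cr h0 h
  have e0 := congrFun ht 0
  have e1 := congrFun ht 1
  have e2 := congrFun ht 2
  simp only [cap, Pi.sub_apply, Pi.smul_apply, smul_eq_mul, Matrix.cons_val_zero,
    Matrix.cons_val_one, Matrix.cons_val_two, Matrix.head_cons, Matrix.tail_cons] at e0 e1 e2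
  have t0 : t ≠ 0 := by
    rintro rfl
    exact hac (Prod.ext (by linear_combination -e0) (by linear_combination -e1))
  have t1 : t - 1 ≠ 0 := by
    intro h1
    have : t = 1 := by linear_combination h1
    subst this
    exact hbc (Prod.ext (by linear_combination -e0) (by linear_combination -e1))
  have c1 : c.1 = a.1 + t * (b.1 - a.1) := by linear_combination e0
  have c2 : c.2 = a.2 + t * (b.2 - a.2) := by linear_combination e1
  rw [c1, c2] at e2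
  have key : (b.1 - a.1) ^ 2 = P.ν * (b.2 - a.2) ^ 2 := by
    apply mul_left_cancel₀ (mul_ne_zero t0 t1)
    linear_combination e2
  by_cases h2 : b.2 - a.2 = 0
  · rw [h2] at key
    have h3 : b.1 - a.1 = 0 := by simpa using key
    exact hab (Prod.ext (by linear_combination -h3) (by linear_combination -h2))
  · apply P.hν
    refine ⟨(b.1 - a.1) / (b.2 - a.2), ?_⟩
    field_simp
    linear_combination -key

lemma cap_inj (a b : ZMod P.Q × ZMod P.Q) (hab : a ≠ b) : P.cap a ≠ P.cap b := fun h =>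
  hab (Prod.ext (congrFun h 0) (congrFun h 1))

lemma abs_det0 (s t u : ZMod P.q) : |dot (cr (P.x0 s) (P.x0 t)) (P.x0 u)| ≤ 2 * (P.q : ℤ) ^ 2 := by
  have hv : ∀ a b : ZMod P.q, |(a.val : ℤ) - b.val| ≤ P.q := by
    intro a b
    have h1 : (a.val : ℤ) < P.q := by exact_mod_cast ZMod.val_lt a
    have h2 : (b.val : ℤ) < P.q := by exact_mod_cast ZMod.val_lt b
    rw [abs_le]; constructor <;> omega
  have e : dot (cr (P.x0 s) (P.x0 t)) (P.x0 u) =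
      ((t.val : ℤ) - s.val) * (((u ^ 2).val : ℤ) - (s ^ 2).val) -
        ((u.val : ℤ) - s.val) * (((t ^ 2).val : ℤ) - (s ^ 2).val) := by
    simp only [dot, x0, cr_0, cr_1, cr_2, Matrix.cons_val_zero, Matrix.cons_val_one,
      Matrix.cons_val_two, Matrix.head_cons, Matrix.tail_cons]
    ring
  rw [e]
  refine le_trans (abs_sub _ _) ?_
  rw [abs_mul, abs_mul]
  have a1 := mul_le_mul (hv t s) (hv (u ^ 2) (s ^ 2)) (abs_nonneg _) (by positivity)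
  have a2 := mul_le_mul (hv u s) (hv (t ^ 2) (s ^ 2)) (abs_nonneg _) (by positivity)
  linarith

lemma det0_ne (s t u : ZMod P.q) (hst : s ≠ t) (hsu : s ≠ u) (htu : t ≠ u) :
    ((dot (cr (P.x0 s) (P.x0 t)) (P.x0 u) : ℤ) : ZMod P.m0) ≠ 0 := by
  intro h
  have h1 := (ZMod.intCast_zmod_eq_zero_iff_dvd _ _).mp h
  have h2 : dot (cr (P.x0 s) (P.x0 t)) (P.x0 u) ≠ 0 := by
    intro h3
    have h4 : ((dot (cr (P.x0 s) (P.x0 t)) (P.x0 u) : ℤ) : ZMod P.q) = (t - s) * (u - s) * (u - t) := by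
      simp [dot, x0]; ring
    rw [h3] at h4
    exact mul_ne_zero (mul_ne_zero (sub_ne_zero.mpr hst.symm) (sub_ne_zero.mpr hsu.symm))
      (sub_ne_zero.mpr htu.symm) (h4.symm.trans Int.cast_zero)
  have h3 := Int.le_of_dvd (abs_pos.mpr h2) ((dvd_abs _ _).mpr h1)
  have h4 := P.abs_det0 s t u
  have h5 : 16 * (P.q : ℤ) ^ 2 ≤ P.m0 := by exact_mod_cast P.q_sq_le
  have h6 : (0 : ℤ) < (P.q : ℤ) ^ 2 := by have := P.hq.pos; positivity
  linarith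

lemma cr0_ne (s t : ZMod P.q) (hst : s ≠ t) :
    cr (red P.m0 (P.x0 s)) (red P.m0 (P.x0 t)) ≠ 0 := by
  intro h
  have h1 := congrFun h 2
  simp only [cr_2, red_apply, x0, Matrix.cons_val_zero, Matrix.cons_val_one, Int.cast_one,
    Int.cast_natCast, Pi.zero_apply, one_mul, mul_one, sub_eq_zero] at h1
  rw [ZMod.natCast_eq_natCast_iff] at h1
  have h2 : P.q ≤ P.m0 := by have := P.q_le_m0; omega
  exact hst (ZMod.val_injective _ (Nat.ModEq.eq_of_lt_of_lt h1 (lt_of_lt_of_le (ZMod.val_lt _) h2)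
    (lt_of_lt_of_le (ZMod.val_lt _) h2))).symm

lemma y0_ne_zero (π : P.Pt) : P.y0 π ≠ 0 := by
  intro h
  have := congrFun h 0
  simp [y0, x0] at this

end Par

end Crest.Agent.R032
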