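import Crest.Agent.R032.Local

/-!
Sums of products of periodic weights over boxes (row 32).
-/

set_option autoImplicit false

namespace Crest.Agent.R032

open Finset

/-- Integers of an interval in one residue class. -/
lemma card_class (S : Finset ℤ) (H D : ℕ) (hD : 0 < D) (hDH : D ≤ H)
    (hS : ∀ x ∈ S, |x| ≤ H) (hc : ∀ x ∈ S, ∀ y ∈ S, (D : ℤ) ∣ x - y) :
    (S.card : ℝ) ≤ 3 * H / D := by
  have h1 := card_sep S H D hD hS fun x hx y hy hxy =>
    Int.le_of_dvd (abs_pos.mpr (sub_ne_zero.mpr hxy)) ((dvd_abs _ _).mpr (hc x hx y hy))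
  have h2 : S.card * D ≤ 3 * H := by omega
  have h3 : (0 : ℝ) < D := by exact_mod_cast hD
  rw [le_div_iff₀ h3]
  exact_mod_cast h2

variable {ι : Type} [Fintype ι] [DecidableEq ι]

lemma prod_dvd_int (m : ι → ℕ) (hm : ∀ i, (m i).Prime) (hinj : Function.Injective m)
    (e : ι → ℕ) (κ : ℤ) (h : ∀ i, (m i : ℤ) ^ e i ∣ κ) : ((∏ i, m i ^ e i : ℕ) : ℤ) ∣ κ := by
  push_cast
  refine Finset.prod_dvd_of_coprime ?_ fun i _ => h i
  intro i _ j _ hij
  refine IsCoprime.pow ?_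
  rw [Nat.isCoprime_iff_coprime]
  exact (Nat.coprime_primes (hm i) (hm j)).mpr fun h => hij (hinj h)

lemma prod_dvd_int' (m : ι → ℕ) (hm : ∀ i, (m i).Prime) (hinj : Function.Injective m)
    (κ : ℤ) (h : ∀ i, (m i : ℤ) ∣ κ) : ((∏ i, m i : ℕ) : ℤ) ∣ κ := by
  simpa using prod_dvd_int m hm hinj (fun _ => 1) κ (by simpa using h)

/-- The square `[-H, H]²`. -/
noncomputable def sq2 (H : ℕ) : Finset (ℤ × ℤ) := Icc (-(H : ℤ)) H ×ˢ Icc (-(H : ℤ)) H

lemma slice_prod (m : ι → ℕ) [∀ i, Fact (m i).Prime] (hinj : Function.Injective m)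
    (g : ∀ i, ZMod (m i) × ZMod (m i) → ℝ) (hg : ∀ i t, 0 ≤ g i t) (H : ℕ)
    (hH : ∏ i, m i ≤ H) :
    ∑ x ∈ sq2 H, ∏ i, g i ((x.1 : ZMod (m i)), (x.2 : ZMod (m i))) ≤
      (3 * H / (∏ i, m i : ℕ)) ^ 2 * ∏ i, ∑ t, g i t := by
  classical
  have hm : ∀ i, (m i).Prime := fun i => Fact.out
  have hpos : 0 < ∏ i, m i := Finset.prod_pos fun i _ => (hm i).pos
  let Φ : ℤ × ℤ → ∀ i, ZMod (m i) × ZMod (m i) := fun x i => ((x.1 : ZMod (m i)), (x.2 : ZMod (m i)))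
  have h1 : ∑ x ∈ sq2 H, ∏ i, g i (Φ x i) =
      ∑ t : (∀ i, ZMod (m i) × ZMod (m i)), ∑ x ∈ (sq2 H).filter (fun x => Φ x = t),
        ∏ i, g i (Φ x i) := (Finset.sum_fiberwise (sq2 H) Φ _).symm
  have h2 : ∀ t : (∀ i, ZMod (m i) × ZMod (m i)),
      (((sq2 H).filter (fun x => Φ x = t)).card : ℝ) ≤ (3 * H / (∏ i, m i : ℕ)) ^ 2 := by
    intro t
    set S := (sq2 H).filter (fun x => Φ x = t)
    have hsub : S ⊆ S.image Prod.fst ×ˢ S.image Prod.snd := Finset.subset_product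
    have hmem : ∀ x ∈ S, |x.1| ≤ H ∧ |x.2| ≤ H := by
      intro x hx
      have := (Finset.mem_filter.mp hx).1
      simp only [sq2, Finset.mem_product, Finset.mem_Icc] at this
      exact ⟨abs_le.mpr this.1, abs_le.mpr this.2⟩
    have hcong : ∀ x ∈ S, ∀ y ∈ S, ((∏ i, m i : ℕ) : ℤ) ∣ x.1 - y.1 ∧
        ((∏ i, m i : ℕ) : ℤ) ∣ x.2 - y.2 := by
      intro x hx y hy
      have e := (Finset.mem_filter.mp hx).2.trans (Finset.mem_filter.mp hy).2.symm
      refine ⟨prod_dvd_int' m hm hinj _ fun i => ?_, prod_dvd_int' m hm hinj _ fun i => ?_⟩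
      · have := (Prod.mk.inj (congrFun e i)).1
        exact (ZMod.intCast_eq_intCast_iff_dvd_sub _ _ _).mp this.symm
      · have := (Prod.mk.inj (congrFun e i)).2
        exact (ZMod.intCast_eq_intCast_iff_dvd_sub _ _ _).mp this.symm
    have a1 := card_class (S.image Prod.fst) H _ hpos hH (by
      intro a ha; obtain ⟨x, hx, rfl⟩ := Finset.mem_image.mp ha; exact (hmem x hx).1) (by
      intro a ha b hb
      obtain ⟨x, hx, rfl⟩ := Finset.mem_image.mp ha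
      obtain ⟨y, hy, rfl⟩ := Finset.mem_image.mp hb
      exact (hcong x hx y hy).1)
    have a2 := card_class (S.image Prod.snd) H _ hpos hH (by
      intro a ha; obtain ⟨x, hx, rfl⟩ := Finset.mem_image.mp ha; exact (hmem x hx).2) (by
      intro a ha b hb
      obtain ⟨x, hx, rfl⟩ := Finset.mem_image.mp ha
      obtain ⟨y, hy, rfl⟩ := Finset.mem_image.mp hb
      exact (hcong x hx y hy).2)
    have a3 : (S.card : ℝ) ≤ (S.image Prod.fst).card * (S.image Prod.snd).card := by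
      have := Finset.card_le_card hsub
      rw [Finset.card_product] at this
      exact_mod_cast this
    calc (S.card : ℝ) ≤ _ := a3
      _ ≤ (3 * H / (∏ i, m i : ℕ)) * (3 * H / (∏ i, m i : ℕ)) :=
          mul_le_mul a1 a2 (Nat.cast_nonneg _) (le_trans (Nat.cast_nonneg _) a1)
      _ = _ := by ring
  show ∑ x ∈ sq2 H, ∏ i, g i (Φ x i) ≤ _
  rw [h1, Fintype.prod_sum, Finset.mul_sum]
  refine Finset.sum_le_sum fun t _ => ?_
  rw [Finset.sum_congr rfl (g := fun _ => ∏ i, g i (t i))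
    (fun x hx => by rw [(Finset.mem_filter.mp hx).2])]
  rw [Finset.sum_const, nsmul_eq_mul]
  exact mul_le_mul_of_nonneg_right (h2 t) (Finset.prod_nonneg fun i _ => hg i _)

lemma card_mult (T D : ℕ) (hD : 0 < D) :
    ∑ σ ∈ Icc (-(T : ℤ)) T, ind (σ ≠ 0 ∧ (D : ℤ) ∣ σ) * D ≤ 2 * T := by
  classical
  rw [← Finset.sum_mul, sum_ind_eq_card]
  set S := (Icc (-(T : ℤ)) T).filter fun σ => σ ≠ 0 ∧ (D : ℤ) ∣ σ
  have h0 : (0 : ℤ) ∉ S := by simp [S]
  have h1 := card_sep (insert 0 S) T D hD (by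
    intro x hx
    rcases Finset.mem_insert.mp hx with rfl | hx
    · simp
    · exact abs_le.mpr (Finset.mem_Icc.mp (Finset.mem_filter.mp hx).1)) (by
    have hd : ∀ x ∈ insert 0 S, (D : ℤ) ∣ x := by
      intro x hx
      rcases Finset.mem_insert.mp hx with rfl | hx
      · simp
      · exact (Finset.mem_filter.mp hx).2.2
    intro x hx y hy hxy
    exact Int.le_of_dvd (abs_pos.mpr (sub_ne_zero.mpr hxy))
      ((dvd_abs _ _).mpr (dvd_sub (hd x hx) (hd y hy))))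
  rw [Finset.card_insert_of_notMem h0] at h1
  have h2 : S.card * D ≤ 2 * T := by nlinarith
  exact_mod_cast h2

omit [Fintype ι] in
lemma sum_mult (m : ι → ℕ) (hm : ∀ i, (m i).Prime) (hinj : Function.Injective m) (T : ℕ)
    (s : Finset ι) : ∀ D : ℕ, 0 < D → (∀ i ∈ s, Nat.Coprime D (m i)) →
    ∑ σ ∈ Icc (-(T : ℤ)) T, ind (σ ≠ 0 ∧ (D : ℤ) ∣ σ) * D *
      ∏ i ∈ s, (2 + m i * ind ((m i : ℤ) ∣ σ)) ≤ 2 * T * 3 ^ s.card := by
  induction s using Finset.induction_on with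
  | empty => intro D hD _; simpa using card_mult T D hD
  | insert j s hj ih =>
    intro D hD hco
    have h1 := ih D hD fun i hi => hco i (Finset.mem_insert_of_mem hi)
    have h2 := ih (D * m j) (Nat.mul_pos hD (hm j).pos) fun i hi =>
      Nat.Coprime.mul_left (hco i (Finset.mem_insert_of_mem hi))
        ((Nat.coprime_primes (hm j) (hm i)).mpr fun h => hj (hinj h ▸ hi))
    have h3 : ∀ σ : ℤ, ind (σ ≠ 0 ∧ (D : ℤ) ∣ σ) * D *
        ∏ i ∈ insert j s, (2 + m i * ind ((m i : ℤ) ∣ σ)) =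
        2 * (ind (σ ≠ 0 ∧ (D : ℤ) ∣ σ) * D * ∏ i ∈ s, (2 + m i * ind ((m i : ℤ) ∣ σ))) +
        ind (σ ≠ 0 ∧ ((D * m j : ℕ) : ℤ) ∣ σ) * (D * m j : ℕ) *
          ∏ i ∈ s, (2 + m i * ind ((m i : ℤ) ∣ σ)) := by
      intro σ
      have e : ind (σ ≠ 0 ∧ ((D * m j : ℕ) : ℤ) ∣ σ) =
          ind (σ ≠ 0 ∧ (D : ℤ) ∣ σ) * ind ((m j : ℤ) ∣ σ) := by
        rw [← ind_and]
        refine ind_congr ⟨fun h => ⟨⟨h.1, ?_⟩, ?_⟩, fun h => ⟨h.1.1, ?_⟩⟩
        · exact dvd_trans (by push_cast; exact dvd_mul_right _ _) h.2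
        · exact dvd_trans (by push_cast; exact dvd_mul_left _ _) h.2
        · push_cast
          exact IsCoprime.mul_dvd
            (Nat.isCoprime_iff_coprime.mpr (hco j (Finset.mem_insert_self _ _))) h.1.2 h.2
      rw [Finset.prod_insert hj, e]; push_cast; ring
    simp only [h3]
    rw [Finset.sum_add_distrib, ← Finset.mul_sum, Finset.card_insert_of_notMem hj, pow_succ]
    linarith

/-- Sum of the coordinates. -/
def sm (r : V3) : ℤ := r 0 + r 1 + r 2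

lemma abs_sm_le (r : V3) : |sm r| ≤ 3 * nrm r := by
  have h0 := abs_le.mp (abs_le_nrm r 0)
  have h1 := abs_le.mp (abs_le_nrm r 1)
  have h2 := abs_le.mp (abs_le_nrm r 2)
  unfold sm
  rw [abs_le]; constructor <;> linarith

lemma box_slice (F : V3 → ℝ) (hF : ∀ r, 0 ≤ F r) (c : ℤ → ℝ) (hc : ∀ σ, 0 ≤ c σ) (H : ℕ) :
    ∑ r ∈ box H, c (sm r) * F r ≤
      ∑ σ ∈ Icc (-((3 * H : ℕ) : ℤ)) (3 * H : ℕ), c σ * ∑ x ∈ sq2 H, F (sl σ x) := by
  classical
  simp only [Finset.mul_sum]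
  rw [← Finset.sum_product']
  have hinj : Set.InjOn (fun r : V3 => (sm r, (r 0, r 1))) (box H) := by
    intro r _ r' _ h
    simp only [Prod.mk.injEq, sm] at h
    exact ext3 h.2.1 h.2.2 (by linarith [h.1, h.2.1, h.2.2])
  have e : ∑ r ∈ box H, c (sm r) * F r =
      ∑ y ∈ (box H).image (fun r : V3 => (sm r, (r 0, r 1))), c y.1 * F (sl y.1 y.2) := by
    rw [Finset.sum_image hinj]
    refine Finset.sum_congr rfl fun r _ => ?_
    congr 2
    apply ext3 <;> simp only [sm, sl_0, sl_1, sl_2]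
    ring
  rw [e]
  refine Finset.sum_le_sum_of_subset_of_nonneg ?_ fun y _ _ => mul_nonneg (hc _) (hF _)
  intro y hy
  obtain ⟨r, hr, rfl⟩ := Finset.mem_image.mp hy
  have h1 := mem_box.mp hr
  have h2 := (nrm_le_iff r H).mp h1
  have h3 := abs_sm_le r
  have h4 : (nrm r : ℤ) ≤ H := by exact_mod_cast h1
  simp only [sq2, Finset.mem_product, Finset.mem_Icc, ← abs_le]
  refine ⟨?_, h2 0, h2 1⟩
  push_cast; linarith

section
variable (m : ι → ℕ) [∀ i, Fact (m i).Prime] (hinj : Function.Injective m)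
  (f : ∀ i, (Fin 3 → ZMod (m i)) → ℝ) (hf : ∀ i r, 0 ≤ f i r) (E : ι → ℝ) (hE : ∀ i, 0 ≤ E i)
  (hL : ∀ i, ∀ σ : ZMod (m i), ∑ t : ZMod (m i) × ZMod (m i), f i (sl σ t) ≤
    (m i : ℝ) ^ 2 * E i * (2 + m i * ind (σ = 0)))
include hinj hf hE hL

lemma slice_bound (H : ℕ) (hH : ∏ i, m i ≤ H) (σ : ℤ) :
    ∑ x ∈ sq2 H, ∏ i, f i (red (m i) (sl σ x)) ≤
      9 * (H : ℝ) ^ 2 * (∏ i, E i) * ∏ i, (2 + m i * ind ((m i : ℤ) ∣ σ)) := by
  have hm : ∀ i, (m i).Prime := fun i => Fact.out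
  have hpos : (0 : ℝ) < ∏ i, (m i : ℝ) := Finset.prod_pos fun i _ => by
    exact_mod_cast (hm i).pos
  have e : ∀ (x : ℤ × ℤ) i, red (m i) (sl σ x) =
      sl (σ : ZMod (m i)) ((x.1 : ZMod (m i)), (x.2 : ZMod (m i))) := by
    intro x i; apply ext3 <;> simp
  simp only [e]
  refine le_trans (slice_prod m hinj (fun i t => f i (sl (σ : ZMod (m i)) t))
    (fun i t => hf i _) H hH) ?_
  have h1 : ∏ i, ∑ t, f i (sl (σ : ZMod (m i)) t) ≤
      ∏ i, ((m i : ℝ) ^ 2 * E i * (2 + m i * ind ((m i : ℤ) ∣ σ))) := by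
    refine Finset.prod_le_prod (fun i _ => Finset.sum_nonneg fun t _ => hf i _) fun i _ => ?_
    rw [← ind_congr (ZMod.intCast_zmod_eq_zero_iff_dvd σ (m i))]
    exact hL i _
  refine le_trans (mul_le_mul_of_nonneg_left h1 (by positivity)) (le_of_eq ?_)
  rw [Finset.prod_mul_distrib, Finset.prod_mul_distrib, Finset.prod_pow]
  push_cast
  field_simp
  ring

lemma sumC (D : ℕ) (hD : 0 < D) (hco : ∀ i, Nat.Coprime D (m i)) (H : ℕ) (hH : ∏ i, m i ≤ H) :
    ∑ r ∈ box H, ind (sm r ≠ 0 ∧ (D : ℤ) ∣ sm r) * ∏ i, f i (red (m i) r) ≤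
      54 * 3 ^ Fintype.card ι * (∏ i, E i) / D * (H : ℝ) ^ 3 := by
  have hm : ∀ i, (m i).Prime := fun i => Fact.out
  have hD' : (0 : ℝ) < D := by exact_mod_cast hD
  have hP : 0 ≤ ∏ i, E i := Finset.prod_nonneg fun i _ => hE i
  refine le_trans (box_slice (fun r => ∏ i, f i (red (m i) r))
    (fun r => Finset.prod_nonneg fun i _ => hf i _) (fun σ => ind (σ ≠ 0 ∧ (D : ℤ) ∣ σ))
    (fun σ => ind_nonneg _) H) ?_
  have h1 := sum_mult m hm hinj (3 * H) Finset.univ D hD fun i _ => hco i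
  calc _ ≤ ∑ σ ∈ Icc (-((3 * H : ℕ) : ℤ)) (3 * H : ℕ), (9 * (H : ℝ) ^ 2 * (∏ i, E i) / D) *
        (ind (σ ≠ 0 ∧ (D : ℤ) ∣ σ) * D * ∏ i, (2 + m i * ind ((m i : ℤ) ∣ σ))) := by
        refine Finset.sum_le_sum fun σ _ => ?_
        refine le_trans (mul_le_mul_of_nonneg_left (slice_bound m hinj f hf E hE hL H hH σ)
          (ind_nonneg _)) (le_of_eq ?_)
        field_simp
    _ ≤ (9 * (H : ℝ) ^ 2 * (∏ i, E i) / D) * (2 * (3 * H : ℕ) * 3 ^ Fintype.card ι) := by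
        rw [← Finset.mul_sum]
        exact mul_le_mul_of_nonneg_left h1 (by positivity)
    _ = _ := by push_cast; field_simp; ring

lemma sumA (H : ℕ) (hH : ∏ i, m i ≤ H) :
    ∑ r ∈ box H, ∏ i, f i (red (m i) r) ≤ 63 * 3 ^ Fintype.card ι * (∏ i, E i) * (H : ℝ) ^ 3 := by
  have hm : ∀ i, (m i).Prime := fun i => Fact.out
  have hP : 0 ≤ ∏ i, E i := Finset.prod_nonneg fun i _ => hE i
  have h1 := sumC m hinj f hf E hE hL 1 one_pos (fun i => Nat.coprime_one_left _) H hH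
  have h2 := box_slice (fun r => ∏ i, f i (red (m i) r))
    (fun r => Finset.prod_nonneg fun i _ => hf i _) (fun σ => ind (σ = 0))
    (fun σ => ind_nonneg _) H
  have h3 : ∑ σ ∈ Icc (-((3 * H : ℕ) : ℤ)) (3 * H : ℕ),
      ind (σ = 0) * ∑ x ∈ sq2 H, ∏ i, f i (red (m i) (sl σ x)) ≤
      9 * 3 ^ Fintype.card ι * (∏ i, E i) * (H : ℝ) ^ 3 := by
    rw [Finset.sum_eq_single 0 (fun σ _ h => by rw [ind_neg h, zero_mul]) (by simp),
      ind_pos rfl, one_mul]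
    refine le_trans (slice_bound m hinj f hf E hE hL H hH 0) ?_
    have a1 : ∏ i, (2 + (m i : ℝ) * ind ((m i : ℤ) ∣ 0)) ≤ ∏ i, (3 * (m i : ℝ)) := by
      refine Finset.prod_le_prod (fun i _ => ?_) fun i _ => ?_
      · have := mul_nonneg (Nat.cast_nonneg (α := ℝ) (m i)) (ind_nonneg ((m i : ℤ) ∣ 0))
        linarith
      · rw [ind_pos (dvd_zero _)]
        have : (1 : ℝ) ≤ m i := by exact_mod_cast (hm i).one_lt.le
        linarith
    rw [Finset.prod_mul_distrib, Finset.prod_const, Finset.card_univ] at a1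
    have a2 : ∏ i, (m i : ℝ) ≤ H := by exact_mod_cast hH
    calc _ ≤ 9 * (H : ℝ) ^ 2 * (∏ i, E i) * (3 ^ Fintype.card ι * H) := by
          gcongr
          exact le_trans a1 (by gcongr)
      _ = _ := by ring
  have h4 : ∑ r ∈ box H, ∏ i, f i (red (m i) r) =
      ∑ r ∈ box H, ind (sm r ≠ 0 ∧ ((1 : ℕ) : ℤ) ∣ sm r) * ∏ i, f i (red (m i) r) +
        ∑ r ∈ box H, ind (sm r = 0) * ∏ i, f i (red (m i) r) := by
    rw [← Finset.sum_add_distrib]
    refine Finset.sum_congr rfl fun r _ => ?_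
    by_cases h : sm r = 0
    · rw [ind_neg (fun h' => h'.1 h), ind_pos h]; ring
    · rw [ind_pos ⟨h, by simp⟩, ind_neg h]; ring
  rw [h4]
  simp only [Nat.cast_one, div_one] at h1 ⊢
  linarith

end

lemma sumB (D H : ℕ) (hD : 0 < D) (hH : D ≤ H) :
    ∑ r ∈ box H, ind ((D : ℤ) ∣ r 2 ∧ (D : ℤ) ∣ r 0 + r 1) ≤ 27 / (D : ℝ) ^ 2 * (H : ℝ) ^ 3 := by
  classical
  rw [sum_ind_eq_card]
  set S := (box H).filter fun r => (D : ℤ) ∣ r 2 ∧ (D : ℤ) ∣ r 0 + r 1
  have hD' : (0 : ℝ) < D := by exact_mod_cast hD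
  have hb : ∀ r ∈ S, ∀ k, |r k| ≤ H := fun r hr =>
    (nrm_le_iff r H).mp (mem_box.mp (Finset.mem_filter.mp hr).1)
  have hmaps : ∀ r ∈ S, r 0 ∈ Icc (-(H : ℤ)) H := fun r hr =>
    Finset.mem_Icc.mpr (abs_le.mp (hb r hr 0))
  rw [Finset.card_eq_sum_card_fiberwise hmaps]
  push_cast
  have hfib : ∀ a ∈ Icc (-(H : ℤ)) H, ((S.filter fun r => r 0 = a).card : ℝ) ≤ (3 * H / D) ^ 2 := by
    intro a _
    set U := S.filter fun r => r 0 = a
    have a0 : U.card ≤ (U.image (fun r => r 1) ×ˢ U.image (fun r => r 2)).card := by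
      refine Finset.card_le_card_of_injOn (fun r => (r 1, r 2)) ?_ ?_
      · intro r hr
        simp only [Finset.coe_product, Finset.coe_image, Set.mem_prod, Set.mem_image]
        exact ⟨⟨r, hr, rfl⟩, ⟨r, hr, rfl⟩⟩
      · intro r hr r' hr' h
        obtain ⟨h1, h2⟩ := Prod.mk.inj h
        exact ext3 ((Finset.mem_filter.mp hr).2.trans (Finset.mem_filter.mp hr').2.symm) h1 h2
    have a1 := card_class (U.image fun r => r 1) H D hD hH (by
      intro b hb'; obtain ⟨x, hx, rfl⟩ := Finset.mem_image.mp hb'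
      exact hb x (Finset.mem_filter.mp hx).1 1) (by
      intro b hb1 c hc1
      obtain ⟨x, hx, rfl⟩ := Finset.mem_image.mp hb1
      obtain ⟨y, hy, rfl⟩ := Finset.mem_image.mp hc1
      have e1 := (Finset.mem_filter.mp (Finset.mem_filter.mp hx).1).2.2
      have e2 := (Finset.mem_filter.mp (Finset.mem_filter.mp hy).1).2.2
      rw [(Finset.mem_filter.mp hx).2] at e1
      rw [(Finset.mem_filter.mp hy).2] at e2
      simpa using dvd_sub e1 e2)
    have a2 := card_class (U.image fun r => r 2) H D hD hH (by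
      intro b hb'; obtain ⟨x, hx, rfl⟩ := Finset.mem_image.mp hb'
      exact hb x (Finset.mem_filter.mp hx).1 2) (by
      intro b hb1 c hc1
      obtain ⟨x, hx, rfl⟩ := Finset.mem_image.mp hb1
      obtain ⟨y, hy, rfl⟩ := Finset.mem_image.mp hc1
      exact dvd_sub (Finset.mem_filter.mp (Finset.mem_filter.mp hx).1).2.1
        (Finset.mem_filter.mp (Finset.mem_filter.mp hy).1).2.1)
    rw [Finset.card_product] at a0
    have a3 : (U.card : ℝ) ≤ (U.image fun r => r 1).card * (U.image fun r => r 2).card := by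
      exact_mod_cast a0
    calc (U.card : ℝ) ≤ _ := a3
      _ ≤ (3 * H / D) * (3 * H / D) :=
          mul_le_mul a1 a2 (Nat.cast_nonneg _) (le_trans (Nat.cast_nonneg _) a1)
      _ = _ := by ring
  refine le_trans (Finset.sum_le_card_nsmul _ _ _ hfib) ?_
  rw [nsmul_eq_mul, Int.card_Icc]
  have h1 : ((H : ℤ) + 1 - -(H : ℤ)).toNat ≤ 3 * H := by omega
  have h2 : ((((H : ℤ) + 1 - -(H : ℤ)).toNat : ℕ) : ℝ) ≤ 3 * H := by exact_mod_cast h1
  calc _ ≤ (3 * (H : ℝ)) * (3 * H / D) ^ 2 := by gcongr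
    _ = _ := by field_simp; ring

end Crest.Agent.R032
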